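import Vale.Agent.P086.MathlibUsed

set_option linter.all false

section

/-!
Definitions for P086: the Hilbert space `ℓ²(G)`, the left regular representation,
the group von Neumann algebra `L(G) = λ(G)''`.
-/

namespace Vale.Agent.P086

/-- The Hilbert space `ℓ²(G)`. -/
abbrev Ell2 (G : Type) : Type := lp (fun _ : G => ℂ) 2

open Classical in
/-- The basis vector `δ_g` of `ℓ²(G)`. -/
noncomputable def dl {G : Type} (g : G) : Ell2 G := lp.single 2 g (1 : ℂ)

theorem memlp_perm {G : Type} (e : Equiv.Perm G) (ξ : Ell2 G) :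
    Memℓp (fun h : G => (ξ (e.symm h) : ℂ)) 2 := by
  have h := lp.memℓp ξ
  rw [memℓp_gen_iff (by norm_num)] at h ⊢
  exact (Equiv.summable_iff e.symm).mpr h

/-- For a permutation `e` of `G`, the unitary `ξ ↦ ξ ∘ e⁻¹` of `ℓ²(G)`. -/
noncomputable def permOp {G : Type} (e : Equiv.Perm G) : Ell2 G →L[ℂ] Ell2 G :=
  LinearMap.mkContinuous
    { toFun := fun ξ => ⟨fun h => ξ (e.symm h), memlp_perm e ξ⟩
      map_add' := fun ξ η => rfl
      map_smul' := fun c ξ => rfl }
    1 (fun ξ => by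
      rw [one_mul, lp.norm_eq_tsum_rpow (by norm_num), lp.norm_eq_tsum_rpow (by norm_num)]
      apply le_of_eq
      congr 1
      exact Equiv.tsum_eq e.symm (fun h => ‖ξ h‖ ^ (ENNReal.toReal 2)))

/-- The left regular representation: `(λ(g) ξ)(h) = ξ(g⁻¹ h)`. -/
noncomputable def lam {G : Type} [Group G] (g : G) : Ell2 G →L[ℂ] Ell2 G :=
  permOp (Equiv.mulLeft g)

/-- The von Neumann algebra `S''` generated by a set `S` of bounded operators on `ℓ²(G)`
(the double commutant of `S ∪ S*`). -/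
noncomputable def vNA {G : Type} (S : Set (Ell2 G →L[ℂ] Ell2 G)) :
    StarSubalgebra ℂ (Ell2 G →L[ℂ] Ell2 G) :=
  StarSubalgebra.centralizer ℂ
    (StarSubalgebra.centralizer ℂ S : Set (Ell2 G →L[ℂ] Ell2 G))

/-- The group von Neumann algebra `L(G) = λ(G)''`. -/
noncomputable def LG (G : Type) [Group G] : StarSubalgebra ℂ (Ell2 G →L[ℂ] Ell2 G) :=
  vNA (Set.range (lam (G := G)))

@[simp] theorem permOp_apply {G : Type} (e : Equiv.Perm G) (ξ : Ell2 G) (h : G) :
    permOp e ξ h = ξ (e.symm h) := rfl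

@[simp] theorem lam_apply {G : Type} [Group G] (g : G) (ξ : Ell2 G) (h : G) :
    lam g ξ h = ξ (g⁻¹ * h) := rfl

end Vale.Agent.P086
end

section

/-!
Basic theory of `L(G)`: the regular representations, the 2-norm and its trace symmetry, and
the tracial Kaplansky approximation of unitaries of `L(G)` by group algebra elements which are
bounded in every unitary representation.
-/

open scoped InnerProductSpace

namespace Vale.Agent.P086

variable {G H : Type} [Group G] [Group H]

/-! ### Permutation operators -/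

theorem permOp_mul {X : Type} (e f : Equiv.Perm X) : permOp (e * f) = permOp e * permOp f := by
  ext ξ h
  simp only [permOp_apply]
  rfl

theorem permOp_one {X : Type} : permOp (1 : Equiv.Perm X) = 1 := by
  ext ξ h
  rfl

theorem norm_permOp_apply {X : Type} (e : Equiv.Perm X) (ξ : Ell2 X) : ‖permOp e ξ‖ = ‖ξ‖ := by
  rw [lp.norm_eq_tsum_rpow (by norm_num), lp.norm_eq_tsum_rpow (by norm_num)]
  congr 1
  exact Equiv.tsum_eq e.symm (fun h => ‖ξ h‖ ^ (ENNReal.toReal 2))

theorem inner_permOp {X : Type} (e : Equiv.Perm X) (ξ η : Ell2 X) :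
    ⟪permOp e ξ, permOp e η⟫_ℂ = ⟪ξ, η⟫_ℂ := by
  rw [lp.inner_eq_tsum, lp.inner_eq_tsum]
  simp only [permOp_apply]
  exact Equiv.tsum_eq e.symm (fun h => ⟪ξ h, η h⟫_ℂ)

theorem star_permOp {X : Type} (e : Equiv.Perm X) : star (permOp e) = permOp e⁻¹ := by
  rw [ContinuousLinearMap.star_eq_adjoint, eq_comm, ContinuousLinearMap.eq_adjoint_iff]
  intro x y
  have h : permOp e (permOp e⁻¹ x) = x := by
    have := permOp_mul e e⁻¹
    rw [mul_inv_cancel, permOp_one] at this
    exact (congrArg (fun T : Ell2 X →L[ℂ] Ell2 X => T x) this).symm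
  rw [← inner_permOp e, h]

theorem permOp_mem_unitary {X : Type} (e : Equiv.Perm X) :
    permOp e ∈ unitary (Ell2 X →L[ℂ] Ell2 X) := by
  rw [Unitary.mem_iff, star_permOp, ← permOp_mul, ← permOp_mul]
  simp [permOp_one]

theorem permOp_dl {X : Type} (e : Equiv.Perm X) (x : X) : permOp e (dl x) = dl (e x) := by
  classical
  ext h
  simp only [permOp_apply, dl, lp.coeFn_single, Pi.single_apply]
  congr 1
  rw [eq_iff_iff]
  exact Equiv.symm_apply_eq e

theorem dl_apply {X : Type} [DecidableEq X] (x y : X) :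
    (dl x : Ell2 X) y = if y = x then 1 else 0 := by
  simp only [dl, lp.coeFn_single, Pi.single_apply]
  congr

theorem inner_dl {X : Type} (x : X) (ξ : Ell2 X) : ⟪dl x, ξ⟫_ℂ = ξ x := by
  classical
  rw [dl, lp.inner_single_left]
  simp

theorem inner_dl_right {X : Type} (x : X) (ξ : Ell2 X) :
    ⟪ξ, dl x⟫_ℂ = (starRingEnd ℂ) (ξ x) := by
  rw [← inner_conj_symm, inner_dl]

theorem norm_dl {X : Type} (x : X) : ‖(dl x : Ell2 X)‖ = 1 := by
  classical
  rw [dl, lp.norm_single (by norm_num)]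
  simp

/-! ### The left and right regular representations -/

theorem lam_mul (g h : G) : lam (g * h) = lam g * lam h := by
  rw [lam, lam, lam, ← permOp_mul]
  congr 1
  ext x
  simp

theorem lam_one : lam (1 : G) = 1 := by
  rw [lam, ← permOp_one]
  congr 1
  ext x
  simp

theorem star_lam (g : G) : star (lam g) = lam g⁻¹ := by
  rw [lam, lam, star_permOp]
  congr 1
  ext x
  simp

theorem lam_dl (g h : G) : lam g (dl h) = dl (g * h) := by
  rw [lam, permOp_dl]; rfl

/-- The unitary `ξ ↦ ξ(· g⁻¹)`, which maps `δ_h` to `δ_{hg}`. -/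
noncomputable def rho (g : G) : Ell2 G →L[ℂ] Ell2 G := permOp (Equiv.mulRight g)

theorem rho_apply (g : G) (ξ : Ell2 G) (h : G) : rho g ξ h = ξ (h * g⁻¹) := rfl

theorem rho_dl (g h : G) : rho g (dl h) = dl (h * g) := by
  rw [rho, permOp_dl]; rfl

theorem rho_lam (g h : G) : rho g * lam h = lam h * rho g := by
  rw [rho, lam, ← permOp_mul, ← permOp_mul]
  congr 1
  ext x
  simp [mul_assoc]

theorem lam_mem_LG (g : G) : lam g ∈ LG G := by
  rw [LG, vNA, StarSubalgebra.mem_centralizer_iff]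
  intro y hy
  have hy' : y ∈ StarSubalgebra.centralizer ℂ (Set.range (lam (G := G))) := hy
  have hstar := star_mem hy'
  rw [StarSubalgebra.mem_centralizer_iff] at hy' hstar
  exact ⟨((hy' (lam g) ⟨g, rfl⟩).1).symm, ((hstar (lam g) ⟨g, rfl⟩).1).symm⟩

theorem rho_mem_centralizer (g : G) :
    rho g ∈ StarSubalgebra.centralizer ℂ (Set.range (lam (G := G))) := by
  rw [StarSubalgebra.mem_centralizer_iff]
  rintro _ ⟨h, rfl⟩
  rw [star_lam]
  exact ⟨(rho_lam g h).symm, (rho_lam g h⁻¹).symm⟩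

theorem LG_comm_rho {T : Ell2 G →L[ℂ] Ell2 G} (hT : T ∈ LG G) (g : G) :
    T * rho g = rho g * T := by
  rw [LG, vNA, StarSubalgebra.mem_centralizer_iff] at hT
  exact ((hT (rho g) (rho_mem_centralizer g)).1).symm

theorem LG_apply_dl {T : Ell2 G →L[ℂ] Ell2 G} (hT : T ∈ LG G) (g : G) :
    T (dl g) = rho g (T (dl 1)) := by
  have h1 : dl g = rho g (dl (1 : G)) := by rw [rho_dl, one_mul]
  have h2 := congrArg (fun S : Ell2 G →L[ℂ] Ell2 G => S (dl 1)) (LG_comm_rho hT g)
  rw [h1]
  exact h2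

theorem LG_apply_dl_apply {T : Ell2 G →L[ℂ] Ell2 G} (hT : T ∈ LG G) (g h : G) :
    T (dl g) h = T (dl 1) (h * g⁻¹) := by
  rw [LG_apply_dl hT, rho_apply]

theorem star_dl_apply {T : Ell2 G →L[ℂ] Ell2 G} (hT : T ∈ LG G) (g : G) :
    (star T) (dl 1) g = (starRingEnd ℂ) (T (dl 1) g⁻¹) := by
  rw [← inner_dl, ContinuousLinearMap.star_eq_adjoint, ContinuousLinearMap.adjoint_inner_right,
    inner_dl_right, LG_apply_dl_apply hT, one_mul]

theorem norm_star_dl (T : Ell2 G →L[ℂ] Ell2 G) (hT : T ∈ LG G) :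
    ‖(star T) (dl (1 : G))‖ = ‖T (dl 1)‖ := by
  rw [lp.norm_eq_tsum_rpow (by norm_num), lp.norm_eq_tsum_rpow (by norm_num)]
  congr 1
  rw [← Equiv.tsum_eq (Equiv.inv G) (fun h => ‖T (dl 1) h‖ ^ (ENNReal.toReal 2))]
  refine tsum_congr fun g => ?_
  rw [star_dl_apply hT]
  simp

theorem norm_mul_dl_le {A B : Ell2 G →L[ℂ] Ell2 G} (hA : A ∈ LG G) (hB : B ∈ LG G) :
    ‖(A * B) (dl (1 : G))‖ ≤ ‖A (dl 1)‖ * ‖B‖ := by
  rw [← norm_star_dl _ (mul_mem hA hB), star_mul]
  calc ‖(star B * star A) (dl (1 : G))‖ = ‖star B (star A (dl 1))‖ := rfl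
    _ ≤ ‖star B‖ * ‖star A (dl 1)‖ := (star B).le_opNorm _
    _ = ‖A (dl 1)‖ * ‖B‖ := by
        have h : ‖star B‖ = ‖B‖ := norm_star B
        rw [h, norm_star_dl A hA, mul_comm]

/-! ### Supports: the von Neumann algebra of a subgroup -/

open Classical in
theorem memlp_ind {X : Type} (K : Set X) (ξ : Ell2 X) :
    Memℓp (fun h : X => if h ∈ K then (ξ h : ℂ) else 0) 2 := by
  refine Memℓp.mono' (lp.memℓp ξ) fun i => ?_
  split_ifs
  · exact le_rfl
  · simp

open Classical in
/-- Multiplication by the indicator function of a set. -/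
noncomputable def indLin {X : Type} (K : Set X) : Ell2 X →ₗ[ℂ] Ell2 X where
  toFun ξ := ⟨fun h => if h ∈ K then ξ h else 0, memlp_ind K ξ⟩
  map_add' ξ η := by
    ext h
    change (if h ∈ K then ξ h + η h else 0) = (if h ∈ K then ξ h else 0) + (if h ∈ K then η h else 0)
    split_ifs <;> simp
  map_smul' c ξ := by
    ext h
    change (if h ∈ K then c * ξ h else 0) = c * (if h ∈ K then ξ h else 0)
    split_ifs <;> simp

open Classical in
theorem indLin_apply {X : Type} (K : Set X) (ξ : Ell2 X) (h : X) :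
    indLin K ξ h = if h ∈ K then ξ h else 0 := rfl

/-- Multiplication by the indicator function of a set, as a bounded operator. -/
noncomputable def indOp {X : Type} (K : Set X) : Ell2 X →L[ℂ] Ell2 X :=
  (indLin K).mkContinuous 1 (fun ξ => by
      rw [one_mul]
      refine lp.norm_mono (by norm_num) fun i => ?_
      rw [indLin_apply]
      split_ifs
      · exact le_rfl
      · simp)

open Classical in
theorem indOp_apply {X : Type} (K : Set X) (ξ : Ell2 X) (h : X) :
    indOp K ξ h = if h ∈ K then ξ h else 0 := rfl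

theorem indOp_lam (K : Subgroup G) {k : G} (hk : k ∈ K) :
    indOp (K : Set G) * lam k = lam k * indOp (K : Set G) := by
  ext ξ h
  change indOp (K : Set G) (lam k ξ) h = lam k (indOp (K : Set G) ξ) h
  rw [lam_apply, indOp_apply, indOp_apply, lam_apply]
  have : (h ∈ (K : Set G)) ↔ (k⁻¹ * h ∈ (K : Set G)) := by
    rw [SetLike.mem_coe, SetLike.mem_coe]
    exact (K.mul_mem_cancel_left (K.inv_mem hk)).symm
  by_cases hh : h ∈ (K : Set G)
  · rw [if_pos hh, if_pos (this.mp hh)]
  · rw [if_neg hh, if_neg (fun h' => hh (this.mpr h'))]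

theorem indOp_mem_centralizer (K : Subgroup G) :
    indOp (K : Set G) ∈ StarSubalgebra.centralizer ℂ (lam '' (K : Set G)) := by
  rw [StarSubalgebra.mem_centralizer_iff]
  rintro _ ⟨k, hk, rfl⟩
  rw [star_lam]
  exact ⟨(indOp_lam K hk).symm, (indOp_lam K (K.inv_mem hk)).symm⟩

omit [Group G] in
theorem vNA_mono {S T : Set (Ell2 G →L[ℂ] Ell2 G)} (h : S ⊆ T) : vNA S ≤ vNA T := by
  intro x hx
  rw [vNA, StarSubalgebra.mem_centralizer_iff] at hx ⊢
  intro y hy
  apply hx
  have hy' : y ∈ StarSubalgebra.centralizer ℂ T := hy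
  change y ∈ StarSubalgebra.centralizer ℂ S
  rw [StarSubalgebra.mem_centralizer_iff] at hy' ⊢
  exact fun z hz => hy' z (h hz)

theorem vNA_lam_le_LG (K : Set G) : vNA (lam '' K) ≤ LG G :=
  vNA_mono (Set.image_subset_range _ _)

theorem vNA_dl_apply_eq_zero (K : Subgroup G) {T : Ell2 G →L[ℂ] Ell2 G}
    (hT : T ∈ vNA (lam '' (K : Set G))) {g : G} (hg : g ∉ K) : T (dl 1) g = 0 := by
  classical
  rw [vNA, StarSubalgebra.mem_centralizer_iff] at hT
  have h1 := (hT (indOp (K : Set G)) (indOp_mem_centralizer K)).1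
  have h2 := congrArg (fun S : Ell2 G →L[ℂ] Ell2 G => S (dl 1) g) h1
  have h3 : indOp (K : Set G) (dl (1 : G)) = dl 1 := by
    ext h
    rw [indOp_apply, dl_apply]
    split_ifs with h4 h5 h6
    · rfl
    · rfl
    · subst h6
      exact absurd K.one_mem h4
    · rfl
  have h4 : indOp (K : Set G) (T (dl 1)) g = T (indOp (K : Set G) (dl 1)) g := h2
  rw [h3, indOp_apply] at h4
  have h5 : ¬ g ∈ (K : Set G) := hg
  exact (h4.symm.trans (if_neg h5))

end Vale.Agent.P086
end

section

/-!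
The group algebra `ℂ[G]`, its involution, and its representations attached to unitary
representations of `G` in C*-algebras.
-/

open scoped InnerProductSpace

namespace Vale.Agent.P086

variable {G H : Type} [Group G] [Group H]

/-- `λ` as a homomorphism into the unitary group of `B(ℓ²(G))`. -/
noncomputable def lamU : G →* unitary (Ell2 G →L[ℂ] Ell2 G) where
  toFun g := ⟨lam g, permOp_mem_unitary _⟩
  map_one' := Subtype.ext lam_one
  map_mul' g h := Subtype.ext (lam_mul g h)

theorem lamU_coe (g : G) : ((lamU g : unitary (Ell2 G →L[ℂ] Ell2 G)) : Ell2 G →L[ℂ] Ell2 G)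
    = lam g := rfl

/-- The representation of the group algebra `ℂ[G]` attached to a unitary representation. -/
noncomputable def repAlg {A : Type} [CStarAlgebra A] (π : G →* unitary A) :
    MonoidAlgebra ℂ G →ₐ[ℂ] A :=
  MonoidAlgebra.lift ℂ A G ((unitary A).subtype.comp π)

/-- The involution of `ℂ[G]`. -/
noncomputable def gstar (p : MonoidAlgebra ℂ G) : MonoidAlgebra ℂ G :=
  p.coeff.sum fun g c => MonoidAlgebra.single g⁻¹ (star c)

theorem repAlg_single {A : Type} [CStarAlgebra A] (π : G →* unitary A) (g : G) (c : ℂ) :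
    repAlg π (MonoidAlgebra.single g c) = c • (π g : A) := by
  rw [repAlg, MonoidAlgebra.lift_single]
  rfl

theorem repAlg_apply {A : Type} [CStarAlgebra A] (π : G →* unitary A) (p : MonoidAlgebra ℂ G) :
    repAlg π p = ∑ g ∈ p.coeff.support, p.coeff g • (π g : A) := by
  rw [repAlg, MonoidAlgebra.lift_apply]
  rfl

theorem repAlg_gstar {A : Type} [CStarAlgebra A] (π : G →* unitary A) (p : MonoidAlgebra ℂ G) :
    repAlg π (gstar p) = star (repAlg π p) := by
  rw [repAlg_apply π p, star_sum, gstar, Finsupp.sum, map_sum]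
  refine Finset.sum_congr rfl fun g _ => ?_
  rw [repAlg_single, star_smul, map_inv]
  rfl

theorem norm_repAlg_le {A : Type} [CStarAlgebra A] (π : G →* unitary A)
    (p : MonoidAlgebra ℂ G) :
    ‖repAlg π p‖ ≤ ∑ g ∈ p.coeff.support, ‖p.coeff g‖ := by
  rw [repAlg_apply]
  refine (norm_sum_le _ _).trans (Finset.sum_le_sum fun g _ => ?_)
  rw [norm_smul]
  have h : ‖(π g : A)‖ ≤ 1 := by
    rcases subsingleton_or_nontrivial A with hA | hA
    · rw [Subsingleton.elim (π g : A) 0, norm_zero]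
      exact zero_le_one
    · exact (CStarRing.norm_coe_unitary (π g)).le
  calc ‖p.coeff g‖ * ‖(π g : A)‖ ≤ ‖p.coeff g‖ * 1 := by gcongr
    _ = ‖p.coeff g‖ := mul_one _

theorem repAlg_lamU_mem_vNA (K : Set G) (p : MonoidAlgebra ℂ G)
    (hp : ∀ g ∈ p.coeff.support, g ∈ K) : repAlg lamU p ∈ vNA (lam '' K) := by
  rw [repAlg_apply]
  refine sum_mem fun g hg => ?_
  refine (vNA (lam '' K)).smul_mem ?_ _
  rw [lamU_coe, vNA, StarSubalgebra.mem_centralizer_iff]
  intro y hy
  have hy' : y ∈ StarSubalgebra.centralizer ℂ (lam '' K) := hy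
  have hstar := star_mem hy'
  rw [StarSubalgebra.mem_centralizer_iff] at hy' hstar
  exact ⟨((hy' (lam g) ⟨g, hp g hg, rfl⟩).1).symm, ((hstar (lam g) ⟨g, hp g hg, rfl⟩).1).symm⟩

theorem repAlg_lamU_mem_LG (p : MonoidAlgebra ℂ G) : repAlg lamU p ∈ LG G :=
  vNA_lam_le_LG Set.univ (repAlg_lamU_mem_vNA Set.univ p fun _ _ => Set.mem_univ _)

theorem repAlg_lamU_dl_apply (p : MonoidAlgebra ℂ G) (g : G) :
    (repAlg lamU p) (dl (1 : G)) g = p.coeff g := by
  classical
  rw [repAlg_apply, sum_apply, lp.coeFn_sum, Finset.sum_apply]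
  have h1 : ∀ x ∈ p.coeff.support,
      ((p.coeff x • ((lamU x : unitary (Ell2 G →L[ℂ] Ell2 G)) : Ell2 G →L[ℂ] Ell2 G))
        (dl 1) : Ell2 G) g = if x = g then p.coeff x else 0 := by
    intro x _
    change p.coeff x * (lam x (dl 1)) g = _
    rw [lam_dl, mul_one, dl_apply]
    by_cases hx : g = x
    · rw [if_pos hx, if_pos hx.symm, mul_one]
    · rw [if_neg hx, if_neg (fun h => hx h.symm), mul_zero]
  rw [Finset.sum_congr rfl h1, Finset.sum_ite_eq']
  split_ifs with h
  · rfl
  · rw [Finsupp.notMem_support_iff] at h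
    exact h.symm

theorem norm_repAlg_lamU_sq (p : MonoidAlgebra ℂ G) :
    ‖(repAlg lamU p) (dl (1 : G))‖ ^ 2 = ∑ g ∈ p.coeff.support, ‖p.coeff g‖ ^ 2 := by
  have h := lp.norm_rpow_eq_tsum (p := 2) (by norm_num) ((repAlg lamU p) (dl (1 : G)))
  have h2 : ENNReal.toReal 2 = ((2 : ℕ) : ℝ) := by norm_num
  rw [h2] at h
  simp only [Real.rpow_natCast, repAlg_lamU_dl_apply] at h
  rw [h]
  exact tsum_eq_sum fun g hg => by
    rw [Finsupp.notMem_support_iff] at hg
    simp [hg]

end Vale.Agent.P086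
end

section

/-!
Definitions for the isomorphism theorem `L(F_m) ≅ L(F_n)`.

`BH K` = bounded operators on `ℓ²(K)`, `n2 T = ‖T δ₁‖` (the 2-norm on `L(K)`), `l1`, `l2` norms on
the group algebra, frames, the conjugation action of the group algebra on itself, the word
`D = g₀ u g₁ u ⋯ g_{n-1} u` and its prefixes.
-/

open scoped InnerProductSpace

namespace Vale.Agent.P086

/-- Bounded operators on `ℓ²(K)`. -/
abbrev BH (K : Type) := Ell2 K →L[ℂ] Ell2 K

/-- The 2-norm `‖T‖₂ = ‖T δ₁‖` (for `T ∈ L(K)` it is `τ(T*T)^{1/2}`). -/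
noncomputable def n2 {K : Type} [Group K] (T : BH K) : ℝ := ‖T (dl 1)‖

/-- The group algebra `ℂ[G]`. -/
abbrev CG (G : Type) := MonoidAlgebra ℂ G

/-- The element `g` of the group algebra. -/
noncomputable abbrev sg {G : Type} (g : G) : CG G := MonoidAlgebra.single g (1 : ℂ)

/-- The `ℓ¹` norm on the group algebra. -/
noncomputable def l1 {G : Type} (P : CG G) : ℝ := ∑ g ∈ P.coeff.support, ‖P.coeff g‖

/-- The `ℓ²` norm on the group algebra. -/
noncomputable def l2 {G : Type} (P : CG G) : ℝ := Real.sqrt (∑ g ∈ P.coeff.support, ‖P.coeff g‖ ^ 2)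

/-- A *frame*: a unitary representation `π` of `G` in `L(K) ⊂ B(ℓ²(K))`, with
`τ(π(g)) = 0` for `g ≠ 1`, which generates `L(K)` (stated as: `π(ℂ[G])δ₁` is dense). -/
structure Frame {G K : Type} [Group G] [Group K] (π : G →* unitary (BH K)) : Prop where
  mem : ∀ g, (π g : BH K) ∈ LG K
  tr : ∀ g, g ≠ 1 → ((π g : BH K) (dl 1)) 1 = 0
  dense : ∀ ξ : Ell2 K, ∀ ε > 0, ∃ P : CG G, ‖repAlg π P (dl 1) - ξ‖ < ε

/-- Conjugation action of the group algebra on itself: `f ⋆ a = ∑ f(F) F a F⁻¹`. -/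
noncomputable def cact {G : Type} [Group G] (f a : CG G) : CG G :=
  f.coeff.sum fun F c => c • (sg F * a * sg F⁻¹)

/-- `Dw g u n = g₀ u g₁ u ⋯ g_{n-1} u`. -/
noncomputable def Dw {G : Type} [Group G] (g : ℕ → G) (u : G) (n : ℕ) : G :=
  Nat.rec (motive := fun _ => G) 1 (fun n r => r * g n * u) n

theorem Dw_zero {G : Type} [Group G] (g : ℕ → G) (u : G) : Dw g u 0 = 1 := rfl

theorem Dw_succ {G : Type} [Group G] (g : ℕ → G) (u : G) (n : ℕ) :
    Dw g u (n + 1) = Dw g u n * g n * u := rfl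

/-- The prefix `Dp g u k = g₀ u g₁ u ⋯ u g_k` of `Dw g u n` (`k < n`). -/
noncomputable def Dp {G : Type} [Group G] (g : ℕ → G) (u : G) (k : ℕ) : G := Dw g u k * g k

/-- Properties of a trace-annihilating `*`-derivation of analytic growth. -/
structure GoodDer {G : Type} [Group G] (δ : CG G →ₗ[ℂ] CG G) : Prop where
  mul : ∀ P Q, δ (P * Q) = δ P * Q + P * δ Q
  star : ∀ P, δ (gstar P) = gstar (δ P)
  tr : ∀ P, (δ P).coeff 1 = 0
  growth : ∃ C : ℝ, 0 < C ∧ ∀ P, ∃ A : ℝ, ∀ j : ℕ, l1 ((δ ^ j) P) ≤ A * j.factorial * C ^ j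

/-- The combinatorial input: approximate right inverses, of small 2-norm, of the sum of the
prefixes `g₀ u g₁ u ⋯ u g_k`, `k < n`. -/
def Comb {β : Type} (S : Set β) (u : β) : Prop :=
  ∀ ε : ℝ, 0 < ε → ∃ (g : ℕ → FreeGroup β) (n : ℕ) (f : CG (FreeGroup β)),
    (∀ i, g i ∈ Subgroup.closure (FreeGroup.of '' (S \ {u}))) ∧
    (∀ F ∈ f.coeff.support, F ∈ Subgroup.closure (FreeGroup.of '' S)) ∧
    (∀ F, star (f.coeff F) = f.coeff F) ∧
    l2 f ≤ ε ∧
    l2 ((∑ k ∈ Finset.range n, sg (Dp g (FreeGroup.of u) k)) * f - 1) ≤ ε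

end Vale.Agent.P086
end

section

/-!
Norms on the group algebra and on `B(ℓ²(K))` (Task A of the isomorphism theorem).
-/

open scoped InnerProductSpace

namespace Vale.Agent.P086

variable {G K : Type} [Group G] [Group K]

/-! ### The `ℓ¹` norm -/

omit [Group G] in
theorem l1_eq_sum (P : CG G) (s : Finset G) (hs : P.coeff.support ⊆ s) :
    l1 P = ∑ g ∈ s, ‖P.coeff g‖ := by
  refine Finset.sum_subset hs fun g _ hg => ?_
  rw [Finsupp.notMem_support_iff.mp hg, norm_zero]

omit [Group G] in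
theorem l1_nonneg (P : CG G) : 0 ≤ l1 P := Finset.sum_nonneg fun _ _ => norm_nonneg _

theorem l1_zero : l1 (0 : CG G) = 0 := by
  rw [l1, MonoidAlgebra.coeff_zero, Finsupp.support_zero, Finset.sum_empty]

theorem l1_add_le (P Q : CG G) : l1 (P + Q) ≤ l1 P + l1 Q := by
  classical
  set s := P.coeff.support ∪ Q.coeff.support with hs
  have h1 : (P + Q).coeff.support ⊆ s := by
    rw [MonoidAlgebra.coeff_add]
    exact Finsupp.support_add
  rw [l1_eq_sum _ s h1, l1_eq_sum P s Finset.subset_union_left,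
    l1_eq_sum Q s Finset.subset_union_right, ← Finset.sum_add_distrib]
  refine Finset.sum_le_sum fun g _ => ?_
  rw [MonoidAlgebra.coeff_add, Finsupp.add_apply]
  exact norm_add_le _ _

theorem l1_sum_le {ι : Type} (s : Finset ι) (F : ι → CG G) :
    l1 (∑ i ∈ s, F i) ≤ ∑ i ∈ s, l1 (F i) := by
  classical
  induction s using Finset.induction_on with
  | empty => rw [Finset.sum_empty, Finset.sum_empty, l1_zero]
  | insert a s ha ih =>
    rw [Finset.sum_insert ha, Finset.sum_insert ha]
    exact (l1_add_le _ _).trans (by gcongr)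

theorem l1_smul (c : ℂ) (P : CG G) : l1 (c • P) = ‖c‖ * l1 P := by
  have h : (c • P).coeff.support ⊆ P.coeff.support := by
    rw [MonoidAlgebra.coeff_smul]
    exact Finsupp.support_smul
  rw [l1_eq_sum _ _ h, l1, Finset.mul_sum]
  refine Finset.sum_congr rfl fun g _ => ?_
  rw [MonoidAlgebra.coeff_smul, Finsupp.smul_apply, smul_eq_mul, norm_mul]

theorem l1_neg (P : CG G) : l1 (-P) = l1 P := by
  have h : -P = (-1 : ℂ) • P := by rw [neg_smul, one_smul]
  rw [h, l1_smul, norm_neg, norm_one, one_mul]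

theorem l1_sub_le (P Q : CG G) : l1 (P - Q) ≤ l1 P + l1 Q := by
  rw [sub_eq_add_neg, ← l1_neg Q]
  exact l1_add_le _ _

omit [Group G] in
theorem l1_single (g : G) (c : ℂ) : l1 (MonoidAlgebra.single g c) = ‖c‖ := by
  rw [l1_eq_sum _ {g} (by
    rw [MonoidAlgebra.coeff_single]
    exact Finsupp.support_single_subset), Finset.sum_singleton, MonoidAlgebra.coeff_single,
    Finsupp.single_eq_same]

theorem CG_eq_sum (P : CG G) :
    P = ∑ g ∈ P.coeff.support, MonoidAlgebra.single g (P.coeff g) :=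
  (MonoidAlgebra.sum_coeff_single P).symm

theorem l1_single_mul_le (g : G) (c : ℂ) (Q : CG G) :
    l1 (MonoidAlgebra.single g c * Q) ≤ ‖c‖ * l1 Q := by
  have h : MonoidAlgebra.single g c * Q =
      ∑ h ∈ Q.coeff.support, MonoidAlgebra.single (g * h) (c * Q.coeff h) := by
    conv_lhs => rw [CG_eq_sum Q]
    rw [Finset.mul_sum]
    exact Finset.sum_congr rfl fun h _ => MonoidAlgebra.single_mul_single ..
  have h2 : ‖c‖ * l1 Q = ∑ h ∈ Q.coeff.support, ‖c‖ * ‖Q.coeff h‖ := by
    rw [l1, Finset.mul_sum]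
  rw [h, h2]
  refine (l1_sum_le _ _).trans (le_of_eq (Finset.sum_congr rfl fun h _ => ?_))
  rw [l1_single, norm_mul]

theorem l1_mul_le (P Q : CG G) : l1 (P * Q) ≤ l1 P * l1 Q := by
  have h : P * Q = ∑ g ∈ P.coeff.support, MonoidAlgebra.single g (P.coeff g) * Q := by
    conv_lhs => rw [CG_eq_sum P]
    rw [Finset.sum_mul]
  rw [h]
  refine (l1_sum_le _ _).trans ?_
  have h2 : l1 P * l1 Q = ∑ g ∈ P.coeff.support, ‖P.coeff g‖ * l1 Q := by
    rw [← Finset.sum_mul, l1]
  rw [h2]
  exact Finset.sum_le_sum fun g _ => l1_single_mul_le _ _ _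

/-! ### The involution -/

theorem gstar_coeff (P : CG G) (g : G) : (gstar P).coeff g = star (P.coeff g⁻¹) := by
  classical
  rw [gstar, Finsupp.sum, MonoidAlgebra.coeff_sum, Finset.sum_apply']
  have h : ∀ x ∈ P.coeff.support, (MonoidAlgebra.single x⁻¹ (star (P.coeff x))).coeff g =
      if x = g⁻¹ then star (P.coeff x) else 0 := by
    intro x _
    rw [MonoidAlgebra.coeff_single, Finsupp.single_apply]
    exact if_congr inv_eq_iff_eq_inv rfl rfl
  rw [Finset.sum_congr rfl h, Finset.sum_ite_eq']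
  split_ifs with hg
  · rfl
  · rw [Finsupp.notMem_support_iff.mp hg, star_zero]

theorem gstar_gstar (P : CG G) : gstar (gstar P) = P := by
  ext g
  rw [gstar_coeff, gstar_coeff, star_star, inv_inv]

theorem gstar_add (P Q : CG G) : gstar (P + Q) = gstar P + gstar Q := by
  ext g
  rw [MonoidAlgebra.coeff_add, Finsupp.add_apply, gstar_coeff, gstar_coeff, gstar_coeff,
    MonoidAlgebra.coeff_add, Finsupp.add_apply, star_add]

theorem gstar_zero : gstar (0 : CG G) = 0 := by
  ext g
  rw [gstar_coeff, MonoidAlgebra.coeff_zero, Finsupp.zero_apply, Finsupp.zero_apply, star_zero]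

theorem gstar_smul (c : ℂ) (P : CG G) : gstar (c • P) = star c • gstar P := by
  ext g
  rw [gstar_coeff, MonoidAlgebra.coeff_smul, Finsupp.smul_apply, MonoidAlgebra.coeff_smul,
    Finsupp.smul_apply, gstar_coeff, smul_eq_mul, smul_eq_mul, star_mul']

theorem gstar_neg (P : CG G) : gstar (-P) = -gstar P := by
  have h : -P = (-1 : ℂ) • P := by rw [neg_smul, one_smul]
  rw [h, gstar_smul, star_neg, star_one, neg_smul, one_smul]

theorem gstar_sub (P Q : CG G) : gstar (P - Q) = gstar P - gstar Q := by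
  rw [sub_eq_add_neg, gstar_add, gstar_neg, ← sub_eq_add_neg]

theorem gstar_single (g : G) (c : ℂ) :
    gstar (MonoidAlgebra.single g c) = MonoidAlgebra.single g⁻¹ (star c) := by
  classical
  ext h
  rw [gstar_coeff, MonoidAlgebra.coeff_single, MonoidAlgebra.coeff_single, Finsupp.single_apply,
    Finsupp.single_apply]
  by_cases hg : g = h⁻¹
  · rw [if_pos hg, if_pos (inv_eq_iff_eq_inv.mpr hg)]
  · rw [if_neg hg, if_neg (fun h' => hg (inv_eq_iff_eq_inv.mp h')), star_zero]

theorem gstar_one : gstar (1 : CG G) = 1 := by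
  rw [MonoidAlgebra.one_def, gstar_single, inv_one, star_one]

theorem gstar_sum {ι : Type} (s : Finset ι) (F : ι → CG G) :
    gstar (∑ i ∈ s, F i) = ∑ i ∈ s, gstar (F i) := by
  classical
  induction s using Finset.induction_on with
  | empty => rw [Finset.sum_empty, Finset.sum_empty, gstar_zero]
  | insert a s ha ih => rw [Finset.sum_insert ha, Finset.sum_insert ha, gstar_add, ih]

theorem gstar_mul (P Q : CG G) : gstar (P * Q) = gstar Q * gstar P := by
  conv_lhs => rw [CG_eq_sum P, CG_eq_sum Q]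
  conv_rhs => rw [CG_eq_sum P, CG_eq_sum Q]
  rw [Finset.sum_mul_sum, gstar_sum, gstar_sum, gstar_sum, Finset.sum_mul_sum, Finset.sum_comm]
  refine Finset.sum_congr rfl fun g _ => ?_
  rw [gstar_sum]
  refine Finset.sum_congr rfl fun h _ => ?_
  rw [MonoidAlgebra.single_mul_single, gstar_single, gstar_single, gstar_single,
    MonoidAlgebra.single_mul_single, mul_inv_rev, star_mul]

theorem l1_gstar (P : CG G) : l1 (gstar P) = l1 P := by
  classical
  have h : (gstar P).coeff.support = P.coeff.support.map (Equiv.inv G).toEmbedding := by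
    ext g
    rw [Finsupp.mem_support_iff, gstar_coeff, Finset.mem_map_equiv, Finsupp.mem_support_iff,
      Ne, star_eq_zero]
    rfl
  rw [l1, h, Finset.sum_map, l1]
  refine Finset.sum_congr rfl fun g _ => ?_
  rw [gstar_coeff, norm_star]
  simp

/-! ### The `ℓ²` norm -/

omit [Group G] in
theorem l2_nonneg (P : CG G) : 0 ≤ l2 P := Real.sqrt_nonneg _

omit [Group G] in
theorem l2_sq (P : CG G) : l2 P ^ 2 = ∑ g ∈ P.coeff.support, ‖P.coeff g‖ ^ 2 :=
  Real.sq_sqrt (Finset.sum_nonneg fun _ _ => by positivity)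

omit [Group G] in
theorem l2_sq_eq_sum (P : CG G) (s : Finset G) (hs : P.coeff.support ⊆ s) :
    l2 P ^ 2 = ∑ g ∈ s, ‖P.coeff g‖ ^ 2 := by
  rw [l2_sq]
  refine Finset.sum_subset hs fun g _ hg => ?_
  rw [Finsupp.notMem_support_iff.mp hg, norm_zero, zero_pow two_ne_zero]

theorem l2_eq_norm (P : CG G) : l2 P = ‖repAlg lamU P (dl (1 : G))‖ := by
  rw [l2, ← norm_repAlg_lamU_sq, Real.sqrt_sq (norm_nonneg _)]

theorem l2_zero : l2 (0 : CG G) = 0 := by
  rw [l2_eq_norm, map_zero, zero_apply, norm_zero]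

theorem l2_add_le (P Q : CG G) : l2 (P + Q) ≤ l2 P + l2 Q := by
  rw [l2_eq_norm, l2_eq_norm, l2_eq_norm, map_add, add_apply]
  exact norm_add_le _ _

theorem l2_smul (c : ℂ) (P : CG G) : l2 (c • P) = ‖c‖ * l2 P := by
  rw [l2_eq_norm, l2_eq_norm, map_smul, smul_apply, norm_smul]

theorem l2_neg (P : CG G) : l2 (-P) = l2 P := by
  rw [l2_eq_norm, l2_eq_norm, map_neg, neg_apply, norm_neg]

theorem l2_sub_le (P Q : CG G) : l2 (P - Q) ≤ l2 P + l2 Q := by
  rw [sub_eq_add_neg, ← l2_neg Q]
  exact l2_add_le _ _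

theorem l2_sum_le {ι : Type} (s : Finset ι) (F : ι → CG G) :
    l2 (∑ i ∈ s, F i) ≤ ∑ i ∈ s, l2 (F i) := by
  classical
  induction s using Finset.induction_on with
  | empty => rw [Finset.sum_empty, Finset.sum_empty, l2_zero]
  | insert a s ha ih =>
    rw [Finset.sum_insert ha, Finset.sum_insert ha]
    exact (l2_add_le _ _).trans (add_le_add_right ih _)

theorem l2_single (g : G) (c : ℂ) : l2 (MonoidAlgebra.single g c) = ‖c‖ := by
  rw [l2_eq_norm, repAlg_single, smul_apply, norm_smul, lamU_coe, lam_dl,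
    norm_dl, mul_one]

theorem l2_sg_mul (g : G) (P : CG G) : l2 (sg g * P) = l2 P := by
  rw [l2_eq_norm, l2_eq_norm, map_mul, repAlg_single, one_smul, lamU_coe]
  exact norm_permOp_apply _ _

theorem l2_gstar (P : CG G) : l2 (gstar P) = l2 P := by
  rw [l2_eq_norm, l2_eq_norm, repAlg_gstar, norm_star_dl _ (repAlg_lamU_mem_LG P)]

theorem l2_mul_sg (g : G) (P : CG G) : l2 (P * sg g) = l2 P := by
  rw [← l2_gstar, gstar_mul, gstar_single, star_one, l2_sg_mul, l2_gstar]

theorem l2_le_l1 (P : CG G) : l2 P ≤ l1 P := by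
  conv_lhs => rw [CG_eq_sum P]
  refine (l2_sum_le _ _).trans (le_of_eq ?_)
  rw [l1]
  exact Finset.sum_congr rfl fun g _ => l2_single _ _

/-! ### The 2-norm on `B(ℓ²(K))` -/

theorem n2_nonneg (T : BH K) : 0 ≤ n2 T := norm_nonneg _

theorem n2_zero : n2 (0 : BH K) = 0 := by
  rw [n2, zero_apply, norm_zero]

theorem n2_add_le (S T : BH K) : n2 (S + T) ≤ n2 S + n2 T := by
  rw [n2, add_apply]
  exact norm_add_le _ _

theorem n2_sub_le (S T : BH K) : n2 (S - T) ≤ n2 S + n2 T := by
  rw [n2, sub_apply]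
  exact norm_sub_le _ _

theorem n2_neg (T : BH K) : n2 (-T) = n2 T := by
  rw [n2, neg_apply, norm_neg, n2]

theorem n2_sub_comm (S T : BH K) : n2 (S - T) = n2 (T - S) := by
  rw [← n2_neg, neg_sub]

theorem n2_sub_le_add_sub (S T R : BH K) : n2 (S - R) ≤ n2 (S - T) + n2 (T - R) := by
  have h : S - R = (S - T) + (T - R) := by abel
  rw [h]
  exact n2_add_le _ _

theorem n2_sum_le {ι : Type} (s : Finset ι) (F : ι → BH K) :
    n2 (∑ i ∈ s, F i) ≤ ∑ i ∈ s, n2 (F i) := by
  classical
  induction s using Finset.induction_on with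
  | empty => rw [Finset.sum_empty, Finset.sum_empty, n2_zero]
  | insert a s ha ih =>
    rw [Finset.sum_insert ha, Finset.sum_insert ha]
    exact (n2_add_le _ _).trans (add_le_add_right ih _)

theorem n2_smul (c : ℂ) (T : BH K) : n2 (c • T) = ‖c‖ * n2 T := by
  rw [n2, smul_apply, norm_smul, n2]

theorem n2_le_norm (T : BH K) : n2 T ≤ ‖T‖ := by
  have h := T.le_opNorm (dl (1 : K))
  rwa [norm_dl, mul_one] at h

theorem n2_mul_le (S T : BH K) : n2 (S * T) ≤ ‖S‖ * n2 T :=
  S.le_opNorm (T (dl 1))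

omit [Group K] in
theorem norm_unitary_apply (U : unitary (BH K)) (ξ : Ell2 K) : ‖(U : BH K) ξ‖ = ‖ξ‖ := by
  have h1 : ‖(U : BH K) ξ‖ ^ 2 = ‖ξ‖ ^ 2 := by
    have h2 : (star (U : BH K) * (U : BH K)) ξ = ξ := by
      rw [Unitary.coe_star_mul_self]
      rfl
    have h3 : ⟪(U : BH K) ξ, (U : BH K) ξ⟫_ℂ = ⟪ξ, ξ⟫_ℂ := by
      rw [← ContinuousLinearMap.adjoint_inner_right, ← ContinuousLinearMap.star_eq_adjoint]
      conv_rhs => rw [← h2]
      rw [h2]
      exact congrArg _ h2
    rw [inner_self_eq_norm_sq_to_K, inner_self_eq_norm_sq_to_K] at h3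
    exact_mod_cast h3
  exact (pow_left_inj₀ (norm_nonneg _) (norm_nonneg _) two_ne_zero).mp h1

/-- multiplication on the left by a unitary preserves `n2`. -/
theorem n2_unitary_mul (U : unitary (BH K)) (T : BH K) : n2 ((U : BH K) * T) = n2 T :=
  norm_unitary_apply U (T (dl 1))

theorem n2_unitary (U : unitary (BH K)) : n2 (U : BH K) = 1 := by
  rw [n2, norm_unitary_apply, norm_dl]

theorem n2_star (T : BH K) (hT : T ∈ LG K) : n2 (star T) = n2 T := norm_star_dl T hT

/-- multiplication on the right by a unitary of `L(K)` preserves `n2` on `L(K)`. -/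
theorem n2_mul_unitary (U : unitary (BH K)) (hU : (U : BH K) ∈ LG K) (T : BH K) (hT : T ∈ LG K) :
    n2 (T * (U : BH K)) = n2 T := by
  rw [← n2_star _ (mul_mem hT hU), star_mul]
  have h : star (U : BH K) = ((star U : unitary (BH K)) : BH K) := rfl
  rw [h, n2_unitary_mul, n2_star _ hT]

/-- right multiplication by an element of `L(K)`. -/
theorem n2_mul_le_right (S T : BH K) (hS : S ∈ LG K) (hT : T ∈ LG K) :
    n2 (S * T) ≤ n2 S * ‖T‖ := norm_mul_dl_le hS hT

theorem orthonormal_rep (π : G →* unitary (BH K))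
    (htr : ∀ g, g ≠ 1 → ((π g : BH K) (dl 1)) 1 = 0) :
    Orthonormal ℂ (fun g : G => (π g : BH K) (dl (1 : K))) := by
  constructor
  · intro g
    rw [norm_unitary_apply, norm_dl]
  · intro g h hgh
    have h1 : (π g : BH K) (dl (1 : K)) = (π h : BH K) ((π (h⁻¹ * g) : BH K) (dl 1)) := by
      have h2 : π g = π h * π (h⁻¹ * g) := by
        rw [← map_mul, mul_inv_cancel_left]
      rw [h2]
      rfl
    have h3 : ∀ ξ η : Ell2 K, ⟪(π h : BH K) ξ, (π h : BH K) η⟫_ℂ = ⟪ξ, η⟫_ℂ := by
      intro ξ η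
      rw [← ContinuousLinearMap.adjoint_inner_right, ← ContinuousLinearMap.star_eq_adjoint]
      have h4 : (star (π h : BH K) * (π h : BH K)) η = η := by
        rw [Unitary.coe_star_mul_self]
        rfl
      exact congrArg _ h4
    change ⟪(π g : BH K) (dl (1 : K)), (π h : BH K) (dl (1 : K))⟫_ℂ = 0
    rw [h1, h3, inner_dl_right, htr, map_zero]
    intro h5
    exact hgh (inv_mul_eq_one.mp h5).symm

/-- for trace preserving representations, `n2 (π P) = l2 P`. -/
theorem n2_repAlg (π : G →* unitary (BH K))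
    (htr : ∀ g, g ≠ 1 → ((π g : BH K) (dl 1)) 1 = 0) (P : CG G) :
    n2 (repAlg π P) = l2 P := by
  have ho := orthonormal_rep π htr
  have h1 : repAlg π P (dl (1 : K)) =
      ∑ g ∈ P.coeff.support, P.coeff g • (π g : BH K) (dl (1 : K)) := by
    rw [repAlg_apply, sum_apply]
    rfl
  have h2 : n2 (repAlg π P) ^ 2 = l2 P ^ 2 := by
    rw [n2, h1, l2_sq]
    have h3 := ho.inner_sum (fun g => P.coeff g) (fun g => P.coeff g) P.coeff.support
    rw [inner_self_eq_norm_sq_to_K] at h3
    have h4 : ∀ g ∈ P.coeff.support, (starRingEnd ℂ) (P.coeff g) * P.coeff g =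
        ((‖P.coeff g‖ ^ 2 : ℝ) : ℂ) := by
      intro g _
      rw [Complex.conj_mul']
      push_cast
      rfl
    rw [Finset.sum_congr rfl h4, ← Complex.ofReal_sum] at h3
    apply Complex.ofReal_injective
    rw [Complex.ofReal_pow]
    exact h3
  exact (pow_left_inj₀ (n2_nonneg _) (l2_nonneg _) two_ne_zero).mp h2

theorem repAlg_mem_LG (π : G →* unitary (BH K)) (hm : ∀ g, (π g : BH K) ∈ LG K) (P : CG G) :
    repAlg π P ∈ LG K := by
  rw [repAlg_apply]
  exact sum_mem fun g _ => (LG K).smul_mem (hm g) _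

omit [Group K] in
theorem norm_repAlg_le_l1 (π : G →* unitary (BH K)) (P : CG G) : ‖repAlg π P‖ ≤ l1 P :=
  norm_repAlg_le π P

/-- `L(K)` is closed in the operator norm. -/
theorem isClosed_LG : IsClosed {T : BH K | T ∈ LG K} := by
  have h : {T : BH K | T ∈ LG K} =
      ⋂ y ∈ (StarSubalgebra.centralizer ℂ (Set.range (lam (G := K))) : Set (BH K)),
        ({T : BH K | y * T = T * y} ∩ {T : BH K | star y * T = T * star y}) := by
    ext T
    rw [Set.mem_ofPred_eq, LG, vNA, StarSubalgebra.mem_centralizer_iff]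
    simp only [Set.mem_iInter, Set.mem_inter_iff, Set.mem_ofPred_eq]
  rw [h]
  refine isClosed_biInter fun y _ => IsClosed.inter ?_ ?_
  · exact isClosed_eq (continuous_const.mul continuous_id) (continuous_id.mul continuous_const)
  · exact isClosed_eq (continuous_const.mul continuous_id) (continuous_id.mul continuous_const)

end Vale.Agent.P086
end

section

/-!
The conjugation action `cact` of the group algebra on itself, its `ℓ²` norm on elements
`F x^k F⁻¹`, and the derivative of the word `D = g₀ u g₁ u ⋯ g_{n-1} u`.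
-/

open scoped InnerProductSpace

namespace Vale.Agent.P086

variable {G K : Type} [Group G] [Group K]

theorem cactAux_sg_mul (g h : G) : sg (g * h) = sg g * sg h := by
  rw [MonoidAlgebra.single_mul_single, mul_one]

theorem cactAux_sg_one : sg (1 : G) = (1 : CG G) := rfl

theorem cactAux_zero_left (a : CG G) : cact 0 a = 0 := by
  rw [cact, MonoidAlgebra.coeff_zero, Finsupp.sum_zero_index]

theorem cactAux_single_left (F : G) (c : ℂ) (a : CG G) :
    cact (MonoidAlgebra.single F c) a = c • (sg F * a * sg F⁻¹) := by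
  rw [cact, MonoidAlgebra.coeff_single, Finsupp.sum_single_index]
  rw [zero_smul]

theorem cact_add (f f' a : CG G) : cact (f + f') a = cact f a + cact f' a := by
  rw [cact, cact, cact, MonoidAlgebra.coeff_add]
  apply Finsupp.sum_add_index'
  · intro F
    rw [zero_smul]
  · intro F c c'
    rw [add_smul]

/-- `f ↦ f ⋆ a` as an additive homomorphism. -/
noncomputable def cactAuxHom (a : CG G) : CG G →+ CG G where
  toFun f := cact f a
  map_zero' := cactAux_zero_left a
  map_add' f f' := cact_add f f' a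

theorem cact_sub (f f' a : CG G) : cact (f - f') a = cact f a - cact f' a :=
  map_sub (cactAuxHom a) f f'

theorem cact_sum {ι : Type} (s : Finset ι) (f : ι → CG G) (a : CG G) :
    cact (∑ i ∈ s, f i) a = ∑ i ∈ s, cact (f i) a :=
  map_sum (cactAuxHom a) f s

theorem cact_sg (F : G) (a : CG G) : cact (sg F) a = sg F * a * sg F⁻¹ := by
  rw [cactAux_single_left, one_smul]

theorem cact_one (a : CG G) : cact 1 a = a := by
  rw [← cactAux_sg_one, cact_sg, inv_one, cactAux_sg_one, one_mul, mul_one]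

theorem cactAux_add_right (f a b : CG G) : cact f (a + b) = cact f a + cact f b := by
  rw [cact, cact, cact, ← Finsupp.sum_add]
  refine Finsupp.sum_congr fun F _ => ?_
  rw [mul_add, add_mul, smul_add]

theorem cactAux_zero_right (f : CG G) : cact f 0 = 0 := by
  rw [cact]
  refine Finset.sum_eq_zero fun F _ => ?_
  beta_reduce
  rw [mul_zero, zero_mul, smul_zero]

theorem cactAux_smul_right (f : CG G) (c : ℂ) (a : CG G) : cact f (c • a) = c • cact f a := by
  rw [cact, cact, Finsupp.smul_sum]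
  refine Finsupp.sum_congr fun F _ => ?_
  rw [mul_smul_comm, smul_mul_assoc, smul_comm]

theorem cactAux_mul_single (F : G) (c : ℂ) (f' a : CG G) :
    cact (MonoidAlgebra.single F c * f') a = c • (sg F * cact f' a * sg F⁻¹) := by
  induction f' using MonoidAlgebra.induction_linear with
  | zero => rw [mul_zero, cactAux_zero_left, mul_zero, zero_mul, smul_zero]
  | add p q hp hq => rw [mul_add, cact_add, hp, hq, cact_add, mul_add, add_mul, smul_add]
  | single F' c' =>
    rw [MonoidAlgebra.single_mul_single, cactAux_single_left, cactAux_single_left, mul_inv_rev,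
      cactAux_sg_mul, cactAux_sg_mul, mul_smul, mul_smul_comm, smul_mul_assoc]
    congr 2
    simp only [mul_assoc]

theorem cact_mul (f f' a : CG G) : cact (f * f') a = cact f (cact f' a) := by
  induction f using MonoidAlgebra.induction_linear with
  | zero => rw [zero_mul, cactAux_zero_left, cactAux_zero_left]
  | add p q hp hq => rw [add_mul, cact_add, hp, hq, cact_add]
  | single F c => rw [cactAux_mul_single, cactAux_single_left]

/-! ### The involution -/

theorem cactAux_gstar_zero : gstar (0 : CG G) = 0 := by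
  rw [gstar, MonoidAlgebra.coeff_zero, Finsupp.sum_zero_index]

theorem cactAux_gstar_single (g : G) (c : ℂ) :
    gstar (MonoidAlgebra.single g c) = MonoidAlgebra.single g⁻¹ (star c) := by
  rw [gstar, MonoidAlgebra.coeff_single, Finsupp.sum_single_index]
  rw [star_zero, MonoidAlgebra.single_zero]

theorem cactAux_gstar_add (P Q : CG G) : gstar (P + Q) = gstar P + gstar Q := by
  rw [gstar, gstar, gstar, MonoidAlgebra.coeff_add]
  apply Finsupp.sum_add_index'
  · intro g
    rw [star_zero, MonoidAlgebra.single_zero]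
  · intro g c c'
    rw [star_add, MonoidAlgebra.single_add]

/-- `gstar` as an additive homomorphism. -/
noncomputable def cactAuxGstar : CG G →+ CG G where
  toFun := gstar
  map_zero' := cactAux_gstar_zero
  map_add' := cactAux_gstar_add

theorem cactAux_gstar_conj (F : G) (c : ℂ) (a : CG G) :
    gstar (c • (sg F * a * sg F⁻¹)) = star c • (sg F * gstar a * sg F⁻¹) := by
  induction a using MonoidAlgebra.induction_linear with
  | zero => simp [cactAux_gstar_zero]
  | add p q hp hq =>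
    rw [mul_add, add_mul, smul_add, cactAux_gstar_add, hp, hq, cactAux_gstar_add, mul_add,
      add_mul, smul_add]
  | single g d =>
    rw [MonoidAlgebra.single_mul_single, MonoidAlgebra.single_mul_single,
      MonoidAlgebra.smul_single', cactAux_gstar_single, cactAux_gstar_single,
      MonoidAlgebra.single_mul_single, MonoidAlgebra.single_mul_single,
      MonoidAlgebra.smul_single']
    congr 1
    · group
    · simp

theorem gstar_cact (f a : CG G) (hf : ∀ F, star (f.coeff F) = f.coeff F) :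
    gstar (cact f a) = cact f (gstar a) := by
  rw [cact, cact, Finsupp.sum, Finsupp.sum]
  have h := map_sum (cactAuxGstar (G := G))
    (fun F => f.coeff F • (sg F * a * sg F⁻¹)) f.coeff.support
  refine h.trans (Finset.sum_congr rfl fun F _ => ?_)
  change gstar _ = _
  rw [cactAux_gstar_conj, hf]

/-! ### Distinctness of the conjugates -/

section free

variable {β : Type}

open Classical in
/-- The permutation attached to a letter `b`: the letter `x` shifts `ℤ`, the other letters act by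
left multiplication on the fibre over `0`. -/
noncomputable def cactAuxPerm (x b : β) : Equiv.Perm (ℤ × FreeGroup β) :=
  if b = x then
    { toFun := fun p => (p.1 + 1, p.2)
      invFun := fun p => (p.1 - 1, p.2)
      left_inv := fun p => by simp
      right_inv := fun p => by simp }
  else
    { toFun := fun p => (p.1, if p.1 = 0 then FreeGroup.of b * p.2 else p.2)
      invFun := fun p => (p.1, if p.1 = 0 then (FreeGroup.of b)⁻¹ * p.2 else p.2)
      left_inv := fun p => by
        ext <;> simp only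
        split_ifs <;> simp
      right_inv := fun p => by
        ext <;> simp only
        split_ifs <;> simp }

theorem cactAuxPerm_self (x : β) (p : ℤ × FreeGroup β) :
    cactAuxPerm x x p = (p.1 + 1, p.2) := by
  simp [cactAuxPerm]

theorem cactAuxPerm_ne (x b : β) (h : b ≠ x) (p : ℤ × FreeGroup β) :
    cactAuxPerm x b p = (p.1, if p.1 = 0 then FreeGroup.of b * p.2 else p.2) := by
  simp [cactAuxPerm, h]

theorem cactAux_lift_zpow (x : β) (k : ℤ) (p : ℤ × FreeGroup β) :
    FreeGroup.lift (cactAuxPerm x) (FreeGroup.of x ^ k) p = (p.1 + k, p.2) := by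
  induction k generalizing p with
  | zero => simp
  | succ n ih =>
    rw [zpow_add_one, map_mul, Equiv.Perm.mul_apply, FreeGroup.lift_apply_of,
      cactAuxPerm_self, ih]
    ext <;> simp only
    ring
  | pred n ih =>
    rw [zpow_sub_one, map_mul, Equiv.Perm.mul_apply, map_inv, FreeGroup.lift_apply_of]
    have h : (cactAuxPerm x x)⁻¹ p = (p.1 - 1, p.2) := by
      rw [Equiv.Perm.inv_eq_iff_eq, cactAuxPerm_self]
      simp
    rw [h, ih]
    ext <;> simp only
    ring

theorem cactAux_lift_closure (x : β) (F : FreeGroup β)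
    (hF : F ∈ Subgroup.closure (FreeGroup.of '' {b : β | b ≠ x})) (p : ℤ × FreeGroup β) :
    FreeGroup.lift (cactAuxPerm x) F p = (p.1, if p.1 = 0 then F * p.2 else p.2) := by
  induction hF using Subgroup.closure_induction generalizing p with
  | mem y hy =>
    obtain ⟨b, hb, rfl⟩ := hy
    rw [FreeGroup.lift_apply_of, cactAuxPerm_ne x b hb]
  | one => simp
  | mul y z _ _ hy hz =>
    rw [map_mul, Equiv.Perm.mul_apply, hz, hy]
    ext <;> simp only
    split_ifs <;> simp [mul_assoc]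
  | inv y _ hy =>
    rw [map_inv, Equiv.Perm.inv_eq_iff_eq, hy]
    ext <;> simp only
    split_ifs <;> simp

theorem cactAux_inj (x : β) {F F' : FreeGroup β} {k l : ℤ}
    (hF : F ∈ Subgroup.closure (FreeGroup.of '' {b : β | b ≠ x}))
    (hF' : F' ∈ Subgroup.closure (FreeGroup.of '' {b : β | b ≠ x})) (hk : k ≠ 0) (hl : l ≠ 0)
    (h : F * FreeGroup.of x ^ k * F⁻¹ = F' * FreeGroup.of x ^ l * F'⁻¹) : F = F' ∧ k = l := by
  have h1 : F * FreeGroup.of x ^ k * (F⁻¹ * F') = F' * FreeGroup.of x ^ l := by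
    rw [← mul_assoc, h]
    group
  have h2 := congrArg (fun w => FreeGroup.lift (cactAuxPerm x) w ((0 : ℤ), (1 : FreeGroup β))) h1
  simp only [map_mul, Equiv.Perm.mul_apply] at h2
  rw [cactAux_lift_closure x F' hF', cactAux_lift_closure x F⁻¹ (inv_mem hF),
    cactAux_lift_zpow, cactAux_lift_zpow, cactAux_lift_closure x F hF,
    cactAux_lift_closure x F' hF'] at h2
  simp only [if_true, zero_add, mul_one, if_neg hk, if_neg hl, Prod.mk.injEq] at h2
  exact ⟨(inv_mul_eq_one.mp h2.2), h2.1⟩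

end free

/-! ### The `ℓ²` norm -/

omit [Group G] in
theorem cactAux_l2_sum {ι : Type} (s : Finset ι) (φ : ι → G) (w : ι → ℂ)
    (hinj : ∀ i ∈ s, ∀ j ∈ s, φ i = φ j → i = j) :
    l2 (∑ i ∈ s, MonoidAlgebra.single (φ i) (w i)) = Real.sqrt (∑ i ∈ s, ‖w i‖ ^ 2) := by
  classical
  set P : CG G := ∑ i ∈ s, MonoidAlgebra.single (φ i) (w i) with hP
  have hcoeff : ∀ g, P.coeff g = ∑ i ∈ s, if φ i = g then w i else 0 := by
    intro g
    rw [hP, MonoidAlgebra.coeff_sum, Finsupp.finsetSum_apply]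
    refine Finset.sum_congr rfl fun i _ => ?_
    rw [MonoidAlgebra.coeff_single, Finsupp.single_apply]
  have h1 : ∀ i ∈ s, P.coeff (φ i) = w i := by
    intro i hi
    rw [hcoeff, Finset.sum_eq_single i]
    · rw [if_pos rfl]
    · intro j hj hji
      rw [if_neg]
      exact fun h => hji (hinj j hj i hi h)
    · exact fun h => absurd hi h
  have h2 : ∀ g, g ∉ s.image φ → P.coeff g = 0 := by
    intro g hg
    rw [hcoeff]
    refine Finset.sum_eq_zero fun i hi => ?_
    rw [if_neg]
    exact fun h => hg (Finset.mem_image.mpr ⟨i, hi, h⟩)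
  rw [l2]
  congr 1
  have hsub : P.coeff.support ⊆ s.image φ := by
    intro g hg
    by_contra hcon
    exact (Finsupp.mem_support_iff.mp hg) (h2 g hcon)
  rw [Finset.sum_subset hsub, Finset.sum_image]
  · refine Finset.sum_congr rfl fun i hi => ?_
    rw [h1 i hi]
  · intro i hi j hj hij
    exact hinj i hi j hj hij
  · intro g _ hg
    rw [Finsupp.notMem_support_iff.mp hg, norm_zero]
    norm_num

theorem cactAux_expand {β : Type} (x : β) (f : CG (FreeGroup β)) (c : ℤ →₀ ℂ) :
    cact f (∑ k ∈ c.support, MonoidAlgebra.single (FreeGroup.of x ^ k) (c k)) =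
      ∑ p ∈ f.coeff.support ×ˢ c.support,
        MonoidAlgebra.single (p.1 * FreeGroup.of x ^ p.2 * p.1⁻¹) (f.coeff p.1 * c p.2) := by
  rw [cact, Finsupp.sum, Finset.sum_product]
  refine Finset.sum_congr rfl fun F _ => ?_
  rw [Finset.mul_sum, Finset.sum_mul, Finset.smul_sum]
  refine Finset.sum_congr rfl fun k _ => ?_
  rw [MonoidAlgebra.single_mul_single, MonoidAlgebra.single_mul_single,
    MonoidAlgebra.smul_single', one_mul, mul_one]

/-- elements `F x^k F⁻¹` (`F` a word without the letter `x`, `k ≠ 0`) are pairwise different -/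
theorem l2_cact {β : Type} (x : β) (f : CG (FreeGroup β)) (c : ℤ →₀ ℂ) (hc : c 0 = 0)
    (hf : ∀ F ∈ f.coeff.support, F ∈ Subgroup.closure (FreeGroup.of '' {b : β | b ≠ x})) :
    l2 (cact f (∑ k ∈ c.support, MonoidAlgebra.single (FreeGroup.of x ^ k) (c k))) =
      l2 f * Real.sqrt (∑ k ∈ c.support, ‖c k‖ ^ 2) := by
  have hk : ∀ k ∈ c.support, k ≠ 0 := by
    intro k hk h0
    rw [h0] at hk
    exact (Finsupp.mem_support_iff.mp hk) hc
  rw [cactAux_expand, cactAux_l2_sum, l2, ← Real.sqrt_mul (by positivity), Finset.sum_mul_sum,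
    Finset.sum_product]
  · congr 1
    refine Finset.sum_congr rfl fun F _ => Finset.sum_congr rfl fun k _ => ?_
    rw [norm_mul, mul_pow]
  · rintro ⟨F, k⟩ hi ⟨F', k'⟩ hj h
    rw [Finset.mem_product] at hi hj
    obtain ⟨h1, h2⟩ := cactAux_inj x (hf F hi.1) (hf F' hj.1) (hk k hi.2) (hk k' hj.2) h
    rw [h1, h2]

theorem cact_mem_span {β : Type} (x : β) (f : CG (FreeGroup β)) (c : ℤ →₀ ℂ) (hc : c 0 = 0) :
    cact f (∑ k ∈ c.support, MonoidAlgebra.single (FreeGroup.of x ^ k) (c k)) ∈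
      Submodule.span ℂ {P : CG (FreeGroup β) | ∃ (y : FreeGroup β) (k : ℤ), k ≠ 0 ∧
        P = sg (y * FreeGroup.of x ^ k * y⁻¹)} := by
  rw [cactAux_expand]
  refine Submodule.sum_mem _ fun p hp => ?_
  rw [Finset.mem_product] at hp
  have hk : p.2 ≠ 0 := by
    intro h0
    apply Finsupp.mem_support_iff.mp hp.2
    rw [h0, hc]
  have h : (MonoidAlgebra.single (p.1 * FreeGroup.of x ^ p.2 * p.1⁻¹) (f.coeff p.1 * c p.2) :
      CG (FreeGroup β)) = (f.coeff p.1 * c p.2) • sg (p.1 * FreeGroup.of x ^ p.2 * p.1⁻¹) := by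
    rw [MonoidAlgebra.smul_single', mul_one]
  rw [h]
  exact Submodule.smul_mem _ _ (Submodule.subset_span ⟨p.1, p.2, hk, rfl⟩)

/-! ### Derivations -/

theorem cactAux_der_one (δ : CG G →ₗ[ℂ] CG G) (hmul : ∀ P Q, δ (P * Q) = δ P * Q + P * δ Q) :
    δ 1 = 0 := by
  have h := hmul 1 1
  rw [one_mul, mul_one, one_mul] at h
  exact left_eq_add.mp h

/-- a derivation killing the `g i`, with `δ u = i H u`, maps `D` to `i (∑_k D_k H D_k⁻¹) D`. -/
theorem der_Dw (δ : CG G →ₗ[ℂ] CG G) (hmul : ∀ P Q, δ (P * Q) = δ P * Q + P * δ Q)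
    (g : ℕ → G) (u : G) (H : CG G) (hg : ∀ i, δ (sg (g i)) = 0)
    (hu : δ (sg u) = Complex.I • (H * sg u)) (n : ℕ) :
    δ (sg (Dw g u n)) =
      Complex.I • (cact (∑ k ∈ Finset.range n, sg (Dp g u k)) H * sg (Dw g u n)) := by
  induction n with
  | zero =>
    rw [Finset.range_zero, Finset.sum_empty, cactAux_zero_left, zero_mul, smul_zero]
    exact cactAux_der_one δ hmul
  | succ n ih =>
    have e1 : sg (Dw g u (n + 1)) = sg (Dw g u n) * sg (g n) * sg u := by
      rw [Dw_succ, cactAux_sg_mul, cactAux_sg_mul]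
    have e2 : sg (Dp g u n)⁻¹ * sg (Dw g u (n + 1)) = sg u := by
      rw [← cactAux_sg_mul, Dw_succ, Dp, inv_mul_cancel_left]
    rw [Finset.sum_range_succ, cact_add, cact_sg, add_mul, mul_assoc (sg (Dp g u n) * H) _ _, e2,
      e1, hmul, hmul, hg, ih, hu, mul_zero, add_zero, smul_add, Dp, cactAux_sg_mul,
      smul_mul_assoc, smul_mul_assoc, mul_smul_comm]
    simp only [mul_assoc]

/-- the derivation kills the subgroup generated by letters it kills -/
theorem der_eq_zero_of_mem_closure (δ : CG G →ₗ[ℂ] CG G)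
    (hmul : ∀ P Q, δ (P * Q) = δ P * Q + P * δ Q) (S : Set G) (hS : ∀ s ∈ S, δ (sg s) = 0)
    (g : G) (hg : g ∈ Subgroup.closure S) : δ (sg g) = 0 := by
  induction hg using Subgroup.closure_induction with
  | mem y hy => exact hS y hy
  | one => exact cactAux_der_one δ hmul
  | mul y z _ _ hy hz => rw [cactAux_sg_mul, hmul, hy, hz, zero_mul, mul_zero, add_zero]
  | inv y _ hy =>
    have h := hmul (sg y⁻¹) (sg y)
    rw [← cactAux_sg_mul, inv_mul_cancel, cactAux_sg_one, cactAux_der_one δ hmul, hy, mul_zero,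
      add_zero] at h
    have h2 : δ (sg y⁻¹) * sg y * sg y⁻¹ = 0 := by rw [← h, zero_mul]
    rwa [mul_assoc, ← cactAux_sg_mul, mul_inv_cancel, cactAux_sg_one, mul_one] at h2

end Vale.Agent.P086
end

section

/-!
Task B: trace-annihilating derivations of `ℂ[F_β]` of analytic growth.

The derivation is `δ(g) = c(g) g` for the cocycle `c(gh) = c(g) + g c(h) g⁻¹` with `c(u) = i H`,
`c(b) = 0` for `b ≠ u`; the cocycle is constructed by the action of the free group on `ℂ[F_β]` by
affine maps.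
-/

open scoped InnerProductSpace

namespace Vale.Agent.P086

section gen

variable {G : Type} [Group G]

theorem dvB_induction {motive : CG G → Prop} (P : CG G) (h0 : motive 0)
    (hadd : ∀ P Q, motive P → motive Q → motive (P + Q))
    (hs : ∀ (g : G) (a : ℂ), motive (a • sg g)) : motive P := by
  refine MonoidAlgebra.induction_linear P h0 hadd fun g a => ?_
  have := hs g a
  rwa [MonoidAlgebra.smul_single', mul_one] at this

theorem dvB_sg_mul (g h : G) : (sg g * sg h : CG G) = sg (g * h) := by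
  rw [MonoidAlgebra.single_mul_single, one_mul]

theorem dvB_sg_one : (sg (1 : G) : CG G) = 1 := rfl

theorem dvB_sg_inv_mul (g : G) : (sg g⁻¹ * sg g : CG G) = 1 := by
  rw [dvB_sg_mul, inv_mul_cancel, dvB_sg_one]

theorem dvB_sg_mul_inv (g : G) : (sg g * sg g⁻¹ : CG G) = 1 := by
  rw [dvB_sg_mul, mul_inv_cancel, dvB_sg_one]

/-- linear extension of a function on the group -/
noncomputable def dvB_lin (f : G → CG G) : CG G →ₗ[ℂ] CG G :=
  (Finsupp.linearCombination ℂ f) ∘ₗ (MonoidAlgebra.coeffLinearEquiv ℂ).toLinearMap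

omit [Group G] in
theorem dvB_lin_sg (f : G → CG G) (g : G) : dvB_lin f (sg g) = f g := by
  show Finsupp.linearCombination ℂ f (Finsupp.single g (1 : ℂ)) = f g
  rw [Finsupp.linearCombination_single, one_smul]

/-! ### the involution -/

theorem dvB_gstar_add (P Q : CG G) : gstar (P + Q) = gstar P + gstar Q := by
  unfold gstar
  rw [MonoidAlgebra.coeff_add]
  refine Finsupp.sum_add_index' ?_ ?_
  · intro g; rw [star_zero]; exact MonoidAlgebra.single_zero _
  · intro g a b; rw [star_add]; exact MonoidAlgebra.single_add _ _ _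

theorem dvB_gstar_single (g : G) (c : ℂ) :
    gstar (MonoidAlgebra.single g c) = MonoidAlgebra.single g⁻¹ (star c) := by
  unfold gstar
  rw [MonoidAlgebra.coeff_single, Finsupp.sum_single_index]
  rw [star_zero]; exact MonoidAlgebra.single_zero _

theorem dvB_gstar_zero : gstar (0 : CG G) = 0 := rfl

theorem dvB_gstar_smul (c : ℂ) (P : CG G) : gstar (c • P) = star c • gstar P := by
  refine MonoidAlgebra.induction_linear P ?_ ?_ ?_
  · rw [smul_zero, dvB_gstar_zero, smul_zero]
  · intro P Q hP hQ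
    rw [smul_add, dvB_gstar_add, hP, hQ, dvB_gstar_add, smul_add]
  · intro g a
    rw [MonoidAlgebra.smul_single', dvB_gstar_single, dvB_gstar_single,
      MonoidAlgebra.smul_single', star_mul']

theorem dvB_gstar_mul (P Q : CG G) : gstar (P * Q) = gstar Q * gstar P := by
  refine MonoidAlgebra.induction_linear P ?_ ?_ ?_
  · rw [zero_mul, dvB_gstar_zero, mul_zero]
  · intro P P' hP hP'
    rw [add_mul, dvB_gstar_add, hP, hP', dvB_gstar_add, mul_add]
  · intro g a
    refine MonoidAlgebra.induction_linear Q ?_ ?_ ?_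
    · rw [mul_zero, dvB_gstar_zero, zero_mul]
    · intro Q Q' hQ hQ'
      rw [mul_add, dvB_gstar_add, hQ, hQ', dvB_gstar_add, add_mul]
    · intro h b
      rw [MonoidAlgebra.single_mul_single, dvB_gstar_single, dvB_gstar_single, dvB_gstar_single,
        MonoidAlgebra.single_mul_single, mul_inv_rev, star_mul]

theorem dvB_gstar_sg (g : G) : gstar (sg g) = sg g⁻¹ := by
  rw [dvB_gstar_single, star_one]

end gen

/-! ### the `ℓ¹` norm -/

section norm

variable {G : Type}

theorem dvB_l1_eq (P : CG G) (s : Finset G) (hs : P.coeff.support ⊆ s) :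
    l1 P = ∑ g ∈ s, ‖P.coeff g‖ := by
  unfold l1
  refine Finset.sum_subset hs fun g _ hg => ?_
  rw [Finsupp.notMem_support_iff.mp hg, norm_zero]

theorem dvB_l1_nonneg (P : CG G) : 0 ≤ l1 P := Finset.sum_nonneg fun _ _ => norm_nonneg _

theorem dvB_l1_add_le (P Q : CG G) : l1 (P + Q) ≤ l1 P + l1 Q := by
  classical
  rw [dvB_l1_eq P (P.coeff.support ∪ Q.coeff.support) Finset.subset_union_left,
    dvB_l1_eq Q (P.coeff.support ∪ Q.coeff.support) Finset.subset_union_right,
    dvB_l1_eq (P + Q) (P.coeff.support ∪ Q.coeff.support) Finsupp.support_add,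
    ← Finset.sum_add_distrib]
  exact Finset.sum_le_sum fun g _ => norm_add_le _ _

theorem dvB_l1_zero : l1 (0 : CG G) = 0 := by
  rw [dvB_l1_eq (0 : CG G) ∅ (by simp), Finset.sum_empty]

theorem dvB_l1_smul_le (c : ℂ) (P : CG G) : l1 (c • P) ≤ ‖c‖ * l1 P := by
  rw [dvB_l1_eq (c • P) P.coeff.support Finsupp.support_smul, l1, Finset.mul_sum]
  refine Finset.sum_le_sum fun g _ => ?_
  rw [MonoidAlgebra.coeff_smul_apply, smul_eq_mul, norm_mul]

theorem dvB_l1_sum_le {ι : Type} (s : Finset ι) (F : ι → CG G) :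
    l1 (∑ i ∈ s, F i) ≤ ∑ i ∈ s, l1 (F i) := by
  classical
  induction s using Finset.induction_on with
  | empty => rw [Finset.sum_empty, Finset.sum_empty, dvB_l1_zero]
  | insert a s ha ih =>
    rw [Finset.sum_insert ha, Finset.sum_insert ha]
    exact (dvB_l1_add_le _ _).trans (by linarith)

theorem dvB_l1_sg (g : G) : l1 (sg g) ≤ 1 := by
  classical
  rw [dvB_l1_eq (sg g) {g} Finsupp.support_single_subset, Finset.sum_singleton,
    MonoidAlgebra.coeff_single, Finsupp.single_eq_same, norm_one]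

theorem dvB_eq_sum (P : CG G) : P = ∑ h ∈ P.coeff.support, P.coeff h • sg h := by
  conv_lhs => rw [← MonoidAlgebra.sum_coeff_single P]
  refine Finset.sum_congr rfl fun h _ => ?_
  rw [MonoidAlgebra.smul_single', mul_one]

theorem dvB_l1_lin_le (f : CG G →ₗ[ℂ] CG G) (P : CG G) (B : ℝ)
    (hB : ∀ h, P.coeff h ≠ 0 → l1 (f (sg h)) ≤ B) : l1 (f P) ≤ B * l1 P := by
  conv_lhs => rw [dvB_eq_sum P]
  rw [map_sum]
  refine (dvB_l1_sum_le _ _).trans ?_
  rw [l1, Finset.mul_sum]
  refine Finset.sum_le_sum fun h hh => ?_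
  rw [map_smul]
  refine (dvB_l1_smul_le _ _).trans ?_
  rw [mul_comm]
  exact mul_le_mul_of_nonneg_right (hB h (Finsupp.mem_support_iff.mp hh)) (norm_nonneg _)

theorem dvB_l1_mul_sg [Group G] (P : CG G) (g : G) : l1 (P * sg g) ≤ l1 P := by
  have := dvB_l1_lin_le (LinearMap.mulRight ℂ (sg g : CG G)) P 1 fun h _ => by
    rw [LinearMap.mulRight_apply, dvB_sg_mul]
    exact dvB_l1_sg _
  rwa [one_mul, LinearMap.mulRight_apply] at this

theorem dvB_l1_sg_mul [Group G] (P : CG G) (g : G) : l1 (sg g * P) ≤ l1 P := by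
  have := dvB_l1_lin_le (LinearMap.mulLeft ℂ (sg g : CG G)) P 1 fun h _ => by
    rw [LinearMap.mulLeft_apply, dvB_sg_mul]
    exact dvB_l1_sg _
  rwa [one_mul, LinearMap.mulLeft_apply] at this

end norm

/-! ### the cocycle -/

section cocycle

variable {β : Type} (d : β → CG (FreeGroup β))

/-- the affine map of a generator -/
noncomputable def dvB_aff (b : β) : Equiv.Perm (CG (FreeGroup β)) where
  toFun P := d b + sg (FreeGroup.of b) * P * sg (FreeGroup.of b)⁻¹
  invFun P := sg (FreeGroup.of b)⁻¹ * (P - d b) * sg (FreeGroup.of b)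
  left_inv P := by
    show sg (FreeGroup.of b)⁻¹ * (d b + sg (FreeGroup.of b) * P * sg (FreeGroup.of b)⁻¹ - d b) *
      sg (FreeGroup.of b) = P
    rw [add_sub_cancel_left, mul_assoc, mul_assoc, mul_assoc, dvB_sg_inv_mul, mul_one,
      ← mul_assoc, dvB_sg_inv_mul, one_mul]
  right_inv P := by
    have : (sg (FreeGroup.of b) : CG (FreeGroup β)) *
        (sg (FreeGroup.of b)⁻¹ * (P - d b) * sg (FreeGroup.of b)) * sg (FreeGroup.of b)⁻¹ =
        (sg (FreeGroup.of b) * sg (FreeGroup.of b)⁻¹) * (P - d b) *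
          (sg (FreeGroup.of b) * sg (FreeGroup.of b)⁻¹) := by
      simp only [mul_assoc]
    show d b + (sg (FreeGroup.of b) : CG (FreeGroup β)) *
        (sg (FreeGroup.of b)⁻¹ * (P - d b) * sg (FreeGroup.of b)) * sg (FreeGroup.of b)⁻¹ = P
    rw [this, dvB_sg_mul_inv, one_mul, mul_one, add_sub_cancel]

/-- the action by affine maps -/
noncomputable def dvB_act : FreeGroup β →* Equiv.Perm (CG (FreeGroup β)) :=
  FreeGroup.lift (dvB_aff d)

/-- the cocycle -/
noncomputable def dvB_c (g : FreeGroup β) : CG (FreeGroup β) := dvB_act d g 0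

theorem dvB_act_apply (g : FreeGroup β) (P : CG (FreeGroup β)) :
    dvB_act d g P = dvB_c d g + sg g * P * sg g⁻¹ := by
  induction g using FreeGroup.induction_on generalizing P with
  | C1 =>
    unfold dvB_c
    rw [map_one, inv_one, dvB_sg_one]
    simp
  | of b =>
    unfold dvB_c dvB_act
    rw [FreeGroup.lift_apply_of]
    show d b + _ = (d b + _) + _
    simp
  | inv_of b ih =>
    unfold dvB_c dvB_act
    rw [map_inv, FreeGroup.lift_apply_of]
    show sg (FreeGroup.of b)⁻¹ * (P - d b) * sg (FreeGroup.of b) =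
      sg (FreeGroup.of b)⁻¹ * (0 - d b) * sg (FreeGroup.of b) +
        sg (FreeGroup.of b)⁻¹ * P * sg (FreeGroup.of b)⁻¹⁻¹
    rw [inv_inv]
    noncomm_ring
  | mul g h ihg ihh =>
    have e1 : dvB_act d (g * h) P = dvB_act d g (dvB_act d h P) := by rw [map_mul]; rfl
    have e2 : dvB_c d (g * h) = dvB_act d g (dvB_c d h) := by
      unfold dvB_c; rw [map_mul]; rfl
    rw [e1, e2, ihg, ihg, ihh, mul_inv_rev, ← dvB_sg_mul, ← dvB_sg_mul]
    noncomm_ring

theorem dvB_c_one : dvB_c d 1 = 0 := by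
  unfold dvB_c
  rw [map_one]
  rfl

theorem dvB_c_mul (g h : FreeGroup β) :
    dvB_c d (g * h) = dvB_c d g + sg g * dvB_c d h * sg g⁻¹ := by
  rw [← dvB_act_apply]
  unfold dvB_c
  rw [map_mul]
  rfl

theorem dvB_c_of (b : β) : dvB_c d (FreeGroup.of b) = d b := by
  unfold dvB_c dvB_act
  rw [FreeGroup.lift_apply_of]
  show d b + sg (FreeGroup.of b) * 0 * sg (FreeGroup.of b)⁻¹ = d b
  rw [mul_zero, zero_mul, add_zero]

theorem dvB_c_inv (g : FreeGroup β) : dvB_c d g⁻¹ = -(sg g⁻¹ * dvB_c d g * sg g) := by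
  have h := dvB_c_mul d g⁻¹ g
  rw [inv_mul_cancel, dvB_c_one, inv_inv] at h
  exact eq_neg_of_add_eq_zero_left h.symm

/-- the derivation -/
noncomputable def dvB_der : CG (FreeGroup β) →ₗ[ℂ] CG (FreeGroup β) :=
  dvB_lin fun g => dvB_c d g * sg g

theorem dvB_der_sg (g : FreeGroup β) : dvB_der d (sg g) = dvB_c d g * sg g := dvB_lin_sg _ _

theorem dvB_der_mul (P Q : CG (FreeGroup β)) :
    dvB_der d (P * Q) = dvB_der d P * Q + P * dvB_der d Q := by
  refine dvB_induction (motive := fun P => dvB_der d (P * Q) = dvB_der d P * Q + P * dvB_der d Q)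
    P ?_ ?_ ?_
  · simp
  · intro P P' h h'
    rw [add_mul, map_add, h, h', map_add]
    noncomm_ring
  · intro g a
    refine dvB_induction (motive := fun Q => dvB_der d ((a • sg g) * Q) =
      dvB_der d (a • sg g) * Q + (a • sg g) * dvB_der d Q) Q ?_ ?_ ?_
    · simp
    · intro Q Q' h h'
      rw [mul_add, map_add, h, h', map_add]
      noncomm_ring
    · intro h b
      rw [smul_mul_smul_comm, dvB_sg_mul, map_smul, map_smul, map_smul, dvB_der_sg, dvB_der_sg,
        dvB_der_sg, dvB_c_mul, smul_mul_smul_comm, smul_mul_smul_comm, ← smul_add]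
      congr 1
      rw [add_mul, ← dvB_sg_mul]
      congr 1
      · rw [mul_assoc]
      · rw [mul_assoc, mul_assoc, ← mul_assoc (sg g⁻¹), dvB_sg_inv_mul, one_mul]

/-! ### skew adjointness -/

theorem dvB_c_star (hd : ∀ b, gstar (d b) = - d b) (g : FreeGroup β) :
    gstar (dvB_c d g) = - dvB_c d g := by
  have hneg : ∀ P : CG (FreeGroup β), gstar (-P) = - gstar P := by
    intro P
    rw [← neg_one_smul ℂ P, dvB_gstar_smul, star_neg, star_one, neg_one_smul]
  have key : ∀ g : FreeGroup β, ∀ P : CG (FreeGroup β), gstar P = -P →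
      gstar (sg g * P * sg g⁻¹) = -(sg g * P * sg g⁻¹) := by
    intro g P hP
    rw [dvB_gstar_mul, dvB_gstar_mul, hP, dvB_gstar_sg, dvB_gstar_sg, inv_inv]
    noncomm_ring
  induction g using FreeGroup.induction_on with
  | C1 => rw [dvB_c_one, neg_zero]; rfl
  | of b => rw [dvB_c_of, hd]
  | inv_of b ih =>
    rw [dvB_c_inv, hneg]
    have := key (FreeGroup.of b)⁻¹ _ ih
    rw [inv_inv] at this
    rw [this]
  | mul g h ihg ihh =>
    rw [dvB_c_mul, dvB_gstar_add, ihg, key g _ ihh]
    abel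

theorem dvB_der_star (hd : ∀ b, gstar (d b) = - d b) (P : CG (FreeGroup β)) :
    dvB_der d (gstar P) = gstar (dvB_der d P) := by
  refine dvB_induction (motive := fun P => dvB_der d (gstar P) = gstar (dvB_der d P)) P ?_ ?_ ?_
  · rw [dvB_gstar_zero, map_zero, dvB_gstar_zero]
  · intro P Q h h'
    rw [dvB_gstar_add, map_add, map_add, h, h', dvB_gstar_add]
  · intro g a
    rw [dvB_gstar_smul, map_smul, map_smul, dvB_gstar_smul, dvB_gstar_sg, dvB_der_sg, dvB_der_sg,
      dvB_gstar_mul, dvB_c_star d hd, dvB_c_inv, dvB_gstar_sg]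
    congr 1
    rw [neg_mul, mul_assoc, mul_assoc, dvB_sg_mul_inv, mul_one, mul_neg]

/-! ### the trace -/

/-- the span of the conjugates of the nontrivial powers of `x` -/
noncomputable def dvB_I (x : β) : Submodule ℂ (CG (FreeGroup β)) :=
  Submodule.span ℂ {P : CG (FreeGroup β) | ∃ (y : FreeGroup β) (k : ℤ), k ≠ 0 ∧
      P = sg (y * FreeGroup.of x ^ k * y⁻¹)}

theorem dvB_I_conj {x : β} (g : FreeGroup β) {P : CG (FreeGroup β)} (hP : P ∈ dvB_I x) :
    sg g * P * sg g⁻¹ ∈ dvB_I x := by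
  unfold dvB_I at hP ⊢
  induction hP using Submodule.span_induction with
  | mem P h =>
    obtain ⟨y, k, hk, rfl⟩ := h
    refine Submodule.subset_span ⟨g * y, k, hk, ?_⟩
    rw [dvB_sg_mul, dvB_sg_mul]
    congr 1
    group
  | zero => rw [mul_zero, zero_mul]; exact zero_mem _
  | add P Q _ _ h h' => rw [mul_add, add_mul]; exact add_mem h h'
  | smul c P _ h => rw [mul_smul_comm, smul_mul_assoc]; exact Submodule.smul_mem _ _ h

theorem dvB_c_mem {x : β} (hd : ∀ b, d b ∈ dvB_I x) (g : FreeGroup β) :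
    dvB_c d g ∈ dvB_I x := by
  induction g using FreeGroup.induction_on with
  | C1 => rw [dvB_c_one]; exact zero_mem _
  | of b => rw [dvB_c_of]; exact hd b
  | inv_of b ih =>
    rw [dvB_c_inv]
    have := dvB_I_conj (FreeGroup.of b)⁻¹ ih
    rw [inv_inv] at this
    exact neg_mem this
  | mul g h ihg ihh =>
    rw [dvB_c_mul]
    exact add_mem ihg (dvB_I_conj g ihh)

theorem dvB_I_coeff {x : β} {P : CG (FreeGroup β)} (hP : P ∈ dvB_I x) {g : FreeGroup β}
    (hg : P.coeff g ≠ 0) : ∃ (y : FreeGroup β) (k : ℤ), k ≠ 0 ∧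
      g = y * FreeGroup.of x ^ k * y⁻¹ := by
  classical
  by_contra hcon
  apply hg
  unfold dvB_I at hP
  induction hP using Submodule.span_induction with
  | mem P h =>
    obtain ⟨y, k, hk, rfl⟩ := h
    rw [MonoidAlgebra.coeff_single, Finsupp.single_apply, if_neg]
    intro h
    exact hcon ⟨y, k, hk, h.symm⟩
  | zero => rfl
  | add P Q _ _ h h' =>
    rw [MonoidAlgebra.coeff_add, Finsupp.add_apply]
    by_cases hP : P.coeff g = 0
    · by_cases hQ : Q.coeff g = 0
      · rw [hP, hQ, add_zero]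
      · rw [hP, h' hQ, add_zero]
    · by_cases hQ : Q.coeff g = 0
      · rw [hQ, h hP, add_zero]
      · rw [h hP, h' hQ, add_zero]
  | smul c P _ h =>
    rw [MonoidAlgebra.coeff_smul_apply]
    by_cases hP : P.coeff g = 0
    · rw [hP, smul_zero]
    · rw [h hP, smul_zero]

theorem dvB_c_zpow {x : β} (hx : d x = 0) (k : ℤ) : dvB_c d (FreeGroup.of x ^ k) = 0 := by
  have h : FreeGroup.of x ∈ ({ carrier := {g | dvB_c d g = 0}
                               mul_mem' := fun {a b} ha hb => by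
                                 show dvB_c d (a * b) = 0
                                 rw [dvB_c_mul, show dvB_c d a = 0 from ha,
                                   show dvB_c d b = 0 from hb, mul_zero, zero_mul, add_zero]
                               one_mem' := dvB_c_one d
                               inv_mem' := fun {a} ha => by
                                 show dvB_c d a⁻¹ = 0
                                 rw [dvB_c_inv, show dvB_c d a = 0 from ha, mul_zero, zero_mul,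
                                   neg_zero] } : Subgroup (FreeGroup β)) := by
    show dvB_c d (FreeGroup.of x) = 0
    rw [dvB_c_of, hx]
  exact Subgroup.zpow_mem _ h k

theorem dvB_tr_sg {x : β} (hx : d x = 0) (hd : ∀ b, d b ∈ dvB_I x) (g : FreeGroup β) :
    (dvB_der d (sg g)).coeff 1 = 0 := by
  have h1 : (dvB_der d (sg g)).coeff 1 = (dvB_c d g).coeff g⁻¹ := by
    rw [dvB_der_sg, MonoidAlgebra.coeff_mul_single_apply, one_mul, mul_one]
  rw [h1]
  by_contra hne
  obtain ⟨y, k, _, hy⟩ := dvB_I_coeff (dvB_c_mem d hd g) hne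
  apply hne
  have hg : g = y * FreeGroup.of x ^ (-k) * y⁻¹ := by
    rw [← inv_inv g, hy]
    group
  have h2 : dvB_c d g = dvB_c d y - sg g * dvB_c d y * sg g⁻¹ := by
    have e1 : dvB_c d g = dvB_c d (y * FreeGroup.of x ^ (-k)) +
        sg (y * FreeGroup.of x ^ (-k)) * dvB_c d y⁻¹ * sg (y * FreeGroup.of x ^ (-k))⁻¹ := by
      rw [← dvB_c_mul, ← hg]
    rw [e1, dvB_c_mul, dvB_c_zpow d hx, mul_zero, zero_mul, add_zero, dvB_c_inv, sub_eq_add_neg]
    congr 1
    have e2 : (sg g : CG (FreeGroup β)) = sg (y * FreeGroup.of x ^ (-k)) * sg y⁻¹ := by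
      rw [dvB_sg_mul, ← hg]
    have e3 : (sg g⁻¹ : CG (FreeGroup β)) = sg y * sg (y * FreeGroup.of x ^ (-k))⁻¹ := by
      rw [dvB_sg_mul]
      congr 1
      rw [hg]
      group
    rw [e2, e3]
    noncomm_ring
  rw [h2, MonoidAlgebra.coeff_sub, Finsupp.sub_apply, MonoidAlgebra.coeff_mul_single_apply,
    MonoidAlgebra.coeff_single_mul_apply, inv_inv]
  simp

theorem dvB_tr {x : β} (hx : d x = 0) (hd : ∀ b, d b ∈ dvB_I x) (P : CG (FreeGroup β)) :
    (dvB_der d P).coeff 1 = 0 := by
  refine dvB_induction (motive := fun P => (dvB_der d P).coeff 1 = 0) P ?_ ?_ ?_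
  · rw [map_zero]; rfl
  · intro P Q h h'
    rw [map_add, MonoidAlgebra.coeff_add, Finsupp.add_apply, h, h', add_zero]
  · intro g a
    rw [map_smul, MonoidAlgebra.coeff_smul_apply, dvB_tr_sg d hx hd, smul_zero]

/-! ### growth -/

/-- polynomials in words of length at most `n` -/
noncomputable def dvB_S (β : Type) (n : ℕ) : Submodule ℂ (CG (FreeGroup β)) :=
  Submodule.span ℂ {P | ∃ w : List (β × Bool), w.length ≤ n ∧ P = sg (FreeGroup.mk w)}

theorem dvB_S_mono {n m : ℕ} (h : n ≤ m) : dvB_S β n ≤ dvB_S β m := by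
  refine Submodule.span_mono ?_
  rintro P ⟨w, hw, rfl⟩
  exact ⟨w, hw.trans h, rfl⟩

theorem dvB_S_mul {n m : ℕ} {P Q : CG (FreeGroup β)} (hP : P ∈ dvB_S β n) (hQ : Q ∈ dvB_S β m) :
    P * Q ∈ dvB_S β (n + m) := by
  unfold dvB_S at hP
  induction hP using Submodule.span_induction with
  | mem P h =>
    obtain ⟨w, hw, rfl⟩ := h
    unfold dvB_S at hQ
    induction hQ using Submodule.span_induction with
    | mem Q h =>
      obtain ⟨w', hw', rfl⟩ := h
      refine Submodule.subset_span ⟨w ++ w', ?_, ?_⟩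
      · rw [List.length_append]; omega
      · rw [dvB_sg_mul, FreeGroup.mul_mk]
    | zero => rw [mul_zero]; exact zero_mem _
    | add P Q _ _ h h' => rw [mul_add]; exact add_mem h h'
    | smul c P _ h => rw [mul_smul_comm]; exact Submodule.smul_mem _ _ h
  | zero => rw [zero_mul]; exact zero_mem _
  | add P Q _ _ h h' => rw [add_mul]; exact add_mem h h'
  | smul c P _ h => rw [smul_mul_assoc]; exact Submodule.smul_mem _ _ h

theorem dvB_S_exists (P : CG (FreeGroup β)) : ∃ n, P ∈ dvB_S β n := by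
  refine dvB_induction (motive := fun P => ∃ n, P ∈ dvB_S β n) P ⟨0, zero_mem _⟩ ?_ ?_
  · rintro P Q ⟨n, hn⟩ ⟨m, hm⟩
    exact ⟨max n m, add_mem (dvB_S_mono (le_max_left _ _) hn) (dvB_S_mono (le_max_right _ _) hm)⟩
  · intro g a
    obtain ⟨w, rfl⟩ : ∃ w, FreeGroup.mk w = g := Quot.exists_rep g
    exact ⟨w.length, Submodule.smul_mem _ _ (Submodule.subset_span ⟨w, le_rfl, rfl⟩)⟩

theorem dvB_S_coeff {n : ℕ} {P : CG (FreeGroup β)} (hP : P ∈ dvB_S β n) {g : FreeGroup β}
    (hg : P.coeff g ≠ 0) : ∃ w : List (β × Bool), w.length ≤ n ∧ g = FreeGroup.mk w := by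
  classical
  by_contra hcon
  apply hg
  unfold dvB_S at hP
  induction hP using Submodule.span_induction with
  | mem P h =>
    obtain ⟨w, hw, rfl⟩ := h
    rw [MonoidAlgebra.coeff_single, Finsupp.single_apply, if_neg]
    intro h
    exact hcon ⟨w, hw, h.symm⟩
  | zero => rfl
  | add P Q _ _ h h' =>
    rw [MonoidAlgebra.coeff_add, Finsupp.add_apply]
    by_cases hP : P.coeff g = 0
    · by_cases hQ : Q.coeff g = 0
      · rw [hP, hQ, add_zero]
      · rw [hP, h' hQ, add_zero]
    · by_cases hQ : Q.coeff g = 0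
      · rw [hQ, h hP, add_zero]
      · rw [h hP, h' hQ, add_zero]
  | smul c P _ h =>
    rw [MonoidAlgebra.coeff_smul_apply]
    by_cases hP : P.coeff g = 0
    · rw [hP, smul_zero]
    · rw [h hP, smul_zero]

theorem dvB_sg_mem (w : List (β × Bool)) : sg (FreeGroup.mk w) ∈ dvB_S β w.length :=
  Submodule.subset_span ⟨w, le_rfl, rfl⟩

theorem dvB_letter {L : ℕ} {B : ℝ} (hL : ∀ b, d b ∈ dvB_S β L) (hB : ∀ b, l1 (d b) ≤ B)
    (a : β × Bool) : dvB_der d (sg (FreeGroup.mk [a])) ∈ dvB_S β (1 + L) ∧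
      l1 (dvB_c d (FreeGroup.mk [a])) ≤ B := by
  obtain ⟨b, e⟩ := a
  cases e
  · have h : FreeGroup.mk [(b, false)] = (FreeGroup.of b)⁻¹ := rfl
    constructor
    · rw [h, dvB_der_sg, dvB_c_inv, dvB_c_of, neg_mul, mul_assoc, dvB_sg_mul_inv, mul_one]
      exact neg_mem (dvB_S_mul (dvB_sg_mem [(b, false)]) (hL b))
    · rw [h, dvB_c_inv, dvB_c_of, ← neg_one_smul ℂ]
      refine (dvB_l1_smul_le _ _).trans ?_
      rw [norm_neg, norm_one, one_mul]
      exact (dvB_l1_mul_sg _ _).trans ((dvB_l1_sg_mul _ _).trans (hB b))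
  · have h : FreeGroup.mk [(b, true)] = FreeGroup.of b := rfl
    constructor
    · rw [h, dvB_der_sg, dvB_c_of, add_comm]
      exact dvB_S_mul (hL b) (dvB_sg_mem [(b, true)])
    · rw [h, dvB_c_of]
      exact hB b

theorem dvB_word {L : ℕ} {B : ℝ} (hL : ∀ b, d b ∈ dvB_S β L) (hB : ∀ b, l1 (d b) ≤ B)
    (w : List (β × Bool)) : dvB_der d (sg (FreeGroup.mk w)) ∈ dvB_S β (w.length + L) ∧
      l1 (dvB_c d (FreeGroup.mk w)) ≤ w.length * B := by
  induction w with
  | nil =>
    have h : (FreeGroup.mk [] : FreeGroup β) = 1 := rfl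
    rw [h, dvB_der_sg, dvB_c_one, zero_mul, dvB_l1_zero]
    exact ⟨zero_mem _, by simp⟩
  | cons a w ih =>
    have h : FreeGroup.mk (a :: w) = FreeGroup.mk [a] * FreeGroup.mk w := by
      rw [FreeGroup.mul_mk]; rfl
    obtain ⟨h1, h2⟩ := dvB_letter d hL hB a
    constructor
    · rw [h, ← dvB_sg_mul, dvB_der_mul]
      refine add_mem ?_ ?_
      · have := dvB_S_mul h1 (dvB_sg_mem w)
        refine dvB_S_mono ?_ this
        rw [List.length_cons]; omega
      · have := dvB_S_mul (dvB_sg_mem [a]) ih.1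
        refine dvB_S_mono ?_ this
        simp only [List.length_cons, List.length_nil]; omega
    · rw [h, dvB_c_mul]
      refine (dvB_l1_add_le _ _).trans ?_
      have h3 : l1 (sg (FreeGroup.mk [a]) * dvB_c d (FreeGroup.mk w) * sg (FreeGroup.mk [a])⁻¹) ≤
          w.length * B := (dvB_l1_mul_sg _ _).trans ((dvB_l1_sg_mul _ _).trans ih.2)
      rw [List.length_cons]
      push_cast
      linarith

theorem dvB_der_S {L : ℕ} {B : ℝ} (hL : ∀ b, d b ∈ dvB_S β L) (hB : ∀ b, l1 (d b) ≤ B) {n : ℕ}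
    {P : CG (FreeGroup β)} (hP : P ∈ dvB_S β n) : dvB_der d P ∈ dvB_S β (n + L) := by
  unfold dvB_S at hP
  induction hP using Submodule.span_induction with
  | mem P h =>
    obtain ⟨w, hw, rfl⟩ := h
    exact dvB_S_mono (by omega) (dvB_word d hL hB w).1
  | zero => rw [map_zero]; exact zero_mem _
  | add P Q _ _ h h' => rw [map_add]; exact add_mem h h'
  | smul c P _ h => rw [map_smul]; exact Submodule.smul_mem _ _ h

theorem dvB_der_l1 {L : ℕ} {B : ℝ} (hL : ∀ b, d b ∈ dvB_S β L) (hB : ∀ b, l1 (d b) ≤ B)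
    (hB0 : 0 ≤ B) {n : ℕ} {P : CG (FreeGroup β)} (hP : P ∈ dvB_S β n) :
    l1 (dvB_der d P) ≤ n * B * l1 P := by
  refine dvB_l1_lin_le _ P _ fun h hh => ?_
  obtain ⟨w, hw, rfl⟩ := dvB_S_coeff hP hh
  rw [dvB_der_sg]
  refine (dvB_l1_mul_sg _ _).trans ((dvB_word d hL hB w).2.trans ?_)
  exact mul_le_mul_of_nonneg_right (by exact_mod_cast hw) hB0

theorem dvB_growth {L : ℕ} {B : ℝ} (hL1 : 1 ≤ L) (hL : ∀ b, d b ∈ dvB_S β L)
    (hB : ∀ b, l1 (d b) ≤ B) (hB0 : 0 < B) : ∃ C : ℝ, 0 < C ∧ ∀ P, ∃ A : ℝ, ∀ j : ℕ,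
      l1 ((dvB_der d ^ j) P) ≤ A * j.factorial * C ^ j := by
  have hL0 : (0 : ℝ) < L := by exact_mod_cast hL1
  refine ⟨2 * L * B, by positivity, fun P => ?_⟩
  obtain ⟨n, hn⟩ := dvB_S_exists P
  have hS : ∀ j : ℕ, (dvB_der d ^ j) P ∈ dvB_S β (n + j * L) := by
    intro j
    induction j with
    | zero => simpa using hn
    | succ j ih =>
      rw [pow_succ']
      have := dvB_der_S d hL hB ih
      rwa [show n + j * L + L = n + (j + 1) * L by ring] at this
  have hb : ∀ j : ℕ, l1 ((dvB_der d ^ j) P) ≤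
      l1 P * (L * B) ^ j * ((n + 1).ascFactorial j : ℕ) := by
    intro j
    induction j with
    | zero => simp
    | succ j ih =>
      rw [pow_succ']
      refine (dvB_der_l1 d hL hB hB0.le (hS j)).trans ?_
      rw [Nat.ascFactorial_succ]
      have h1 : ((n + j * L : ℕ) : ℝ) ≤ (n + 1 + j : ℕ) * L := by
        have : n + j * L ≤ (n + 1 + j) * L := by nlinarith
        exact_mod_cast this
      calc ((n + j * L : ℕ) : ℝ) * B * l1 ((dvB_der d ^ j) P)
          ≤ ((n + 1 + j : ℕ) * L) * B * (l1 P * (L * B) ^ j * ((n + 1).ascFactorial j : ℕ)) := by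
            have h2 := dvB_l1_nonneg ((dvB_der d ^ j) P)
            have h3 : ((n + j * L : ℕ) : ℝ) * B ≤ ((n + 1 + j : ℕ) * L) * B :=
              mul_le_mul_of_nonneg_right h1 hB0.le
            exact mul_le_mul h3 ih h2 (by positivity)
        _ = _ := by
            push_cast
            ring
  refine ⟨l1 P * 2 ^ n, fun j => (hb j).trans ?_⟩
  have h1 : (((n + 1).ascFactorial j : ℕ) : ℝ) ≤ j.factorial * 2 ^ (n + j) := by
    rw [Nat.ascFactorial_eq_factorial_mul_choose]
    push_cast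
    have : (((n + j).choose j : ℕ) : ℝ) ≤ 2 ^ (n + j) := by
      exact_mod_cast Nat.choose_le_two_pow (n + j) j
    exact mul_le_mul_of_nonneg_left this (by positivity)
  have h2 := dvB_l1_nonneg P
  calc l1 P * (L * B) ^ j * ((n + 1).ascFactorial j : ℕ)
      ≤ l1 P * (L * B) ^ j * (j.factorial * 2 ^ (n + j)) :=
        mul_le_mul_of_nonneg_left h1 (by positivity)
    _ = l1 P * 2 ^ n * j.factorial * (2 * L * B) ^ j := by
        rw [pow_add, mul_assoc 2 (L : ℝ) B, mul_pow 2 ((L : ℝ) * B)]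
        ring

end cocycle

/-- Task B -/
theorem exists_goodDer {β : Type} (u x : β) (hxu : x ≠ u) (H : CG (FreeGroup β))
    (hH : gstar H = H)
    (hs : H ∈ Submodule.span ℂ {P : CG (FreeGroup β) | ∃ (y : FreeGroup β) (k : ℤ), k ≠ 0 ∧
      P = sg (y * FreeGroup.of x ^ k * y⁻¹)}) :
    ∃ δ : CG (FreeGroup β) →ₗ[ℂ] CG (FreeGroup β), GoodDer δ ∧
      δ (sg (FreeGroup.of u)) = Complex.I • (H * sg (FreeGroup.of u)) ∧
      ∀ b, b ≠ u → δ (sg (FreeGroup.of b)) = 0 := by
  classical
  set d : β → CG (FreeGroup β) := fun b => if b = u then Complex.I • H else 0 with hd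
  have hdu : d u = Complex.I • H := if_pos rfl
  have hdn : ∀ b, b ≠ u → d b = 0 := fun b hb => if_neg hb
  have hI : ∀ b, d b ∈ dvB_I x := by
    intro b
    by_cases hb : b = u
    · subst hb
      rw [hdu]
      exact Submodule.smul_mem _ _ hs
    · rw [hdn b hb]
      exact zero_mem _
  have hst : ∀ b, gstar (d b) = - d b := by
    intro b
    by_cases hb : b = u
    · subst hb
      rw [hdu, dvB_gstar_smul, hH]
      have : star Complex.I = -Complex.I := Complex.conj_I
      rw [this, neg_smul]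
    · rw [hdn b hb, neg_zero]
      rfl
  obtain ⟨n, hn⟩ := dvB_S_exists H
  have hL : ∀ b, d b ∈ dvB_S β (n + 1) := by
    intro b
    by_cases hb : b = u
    · subst hb
      rw [hdu]
      exact Submodule.smul_mem _ _ (dvB_S_mono (Nat.le_succ n) hn)
    · rw [hdn b hb]
      exact zero_mem _
  have hB : ∀ b, l1 (d b) ≤ l1 H + 1 := by
    intro b
    have h0 := dvB_l1_nonneg H
    by_cases hb : b = u
    · subst hb
      rw [hdu]
      refine (dvB_l1_smul_le _ _).trans ?_
      rw [Complex.norm_I]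
      linarith
    · rw [hdn b hb, dvB_l1_zero]
      linarith
  refine ⟨dvB_der d, ⟨dvB_der_mul d, dvB_der_star d hst, dvB_tr d (hdn x hxu) hI,
    dvB_growth d (Nat.succ_le_succ (Nat.zero_le n)) hL hB
      (by linarith [dvB_l1_nonneg H])⟩, ?_, ?_⟩
  · rw [dvB_der_sg, dvB_c_of, hdu, smul_mul_assoc]
  · intro b hb
    rw [dvB_der_sg, dvB_c_of, hdn b hb, zero_mul]

end Vale.Agent.P086
end
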