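import Vale.Agent.P086.Bdl.B1

set_option linter.all false

section

/-!
The sawtooth function: a real trigonometric polynomial `a` of mean zero with `e^{ia}` close to `z`.
-/

open scoped InnerProductSpace ComplexConjugate Topology
open MeasureTheory AddCircle Filter

namespace Vale.Agent.P086

theorem saw_transfer {Z A B : Type} [Group Z] [NormedRing A] [NormedAlgebra ℂ A] [CompleteSpace A]
    [NormedRing B] [NormedAlgebra ℂ B] [CompleteSpace B] (Φ : CG Z →ₐ[ℂ] A) (Ψ : CG Z →ₐ[ℂ] B)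
    (N : A → ℝ) (N' : B → ℝ) (hN : Continuous N) (hN' : Continuous N')
    (h : ∀ P, N (Φ P) = N' (Ψ P)) (P Q : CG Z) :
    N (NormedSpace.exp (Φ P) - Φ Q) = N' (NormedSpace.exp (Ψ P) - Ψ Q) := by
  have h1 : Tendsto (fun n => Φ (∑ j ∈ Finset.range n, ((j.factorial : ℂ)⁻¹) • P ^ j - Q)) atTop
      (𝓝 (NormedSpace.exp (Φ P) - Φ Q)) := by
    have h3 := (NormedSpace.exp_series_hasSum_exp' (𝕂 := ℂ) (Φ P)).tendsto_sum_nat
    simpa [map_sub, map_sum, map_smul, map_pow] using h3.sub_const (Φ Q)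
  have h2 : Tendsto (fun n => Ψ (∑ j ∈ Finset.range n, ((j.factorial : ℂ)⁻¹) • P ^ j - Q)) atTop
      (𝓝 (NormedSpace.exp (Ψ P) - Ψ Q)) := by
    have h3 := (NormedSpace.exp_series_hasSum_exp' (𝕂 := ℂ) (Ψ P)).tendsto_sum_nat
    simpa [map_sub, map_sum, map_smul, map_pow] using h3.sub_const (Ψ Q)
  have h4 := (hN.tendsto _).comp h1
  have h5 := (hN'.tendsto _).comp h2
  have h6 : (N ∘ fun n => Φ (∑ j ∈ Finset.range n, ((j.factorial : ℂ)⁻¹) • P ^ j - Q)) =
      (N' ∘ fun n => Ψ (∑ j ∈ Finset.range n, ((j.factorial : ℂ)⁻¹) • P ^ j - Q)) := by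
    funext n
    exact h _
  rw [h6] at h4
  exact tendsto_nhds_unique h4 h5

theorem saw_orth {ι E : Type*} [NormedAddCommGroup E] [InnerProductSpace ℂ E] {v : ι → E}
    (hv : Orthonormal ℂ v) (l : ι → ℂ) (s : Finset ι) :
    ‖∑ i ∈ s, l i • v i‖ = Real.sqrt (∑ i ∈ s, ‖l i‖ ^ 2) := by
  rw [eq_comm, Real.sqrt_eq_iff_mul_self_eq (by positivity) (by positivity), ← pow_two]
  have h := hv.inner_sum l l s
  rw [inner_self_eq_norm_sq_to_K] at h
  have h2 : ((‖∑ i ∈ s, l i • v i‖ ^ 2 : ℝ) : ℂ) = ((∑ i ∈ s, ‖l i‖ ^ 2 : ℝ) : ℂ) := by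
    push_cast
    rw [show ((‖∑ i ∈ s, l i • v i‖ : ℝ) : ℂ) ^ 2 = _ from h]
    refine Finset.sum_congr rfl fun i _ => ?_
    rw [Complex.conj_mul']
  exact_mod_cast h2.symm

/-! ### The circle -/

/-- The monomials on the circle. -/
noncomputable def sawFour : Multiplicative ℤ →* C(AddCircle (1 : ℝ), ℂ) where
  toFun k := fourier (Multiplicative.toAdd k)
  map_one' := by
    ext x
    exact fourier_zero
  map_mul' j k := by
    ext x
    exact fourier_add

/-- Laurent polynomials as functions on the circle. -/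
noncomputable def sawAlg : CG (Multiplicative ℤ) →ₐ[ℂ] C(AddCircle (1 : ℝ), ℂ) :=
  MonoidAlgebra.lift ℂ C(AddCircle (1 : ℝ), ℂ) (Multiplicative ℤ) sawFour

theorem sawAlg_single (k : Multiplicative ℤ) (c : ℂ) :
    sawAlg (MonoidAlgebra.single k c) = c • fourier (Multiplicative.toAdd k) := by
  rw [sawAlg, MonoidAlgebra.lift_single]
  rfl

theorem sawAlg_apply (P : CG (Multiplicative ℤ)) :
    sawAlg P = ∑ k ∈ P.coeff.support, P.coeff k • fourier (Multiplicative.toAdd k) := by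
  rw [sawAlg, MonoidAlgebra.lift_apply]
  rfl

/-- the `L²` norm on the circle -/
noncomputable def sawN (f : C(AddCircle (1 : ℝ), ℂ)) : ℝ :=
  ‖ContinuousMap.toLp (E := ℂ) 2 haarAddCircle ℂ f‖

theorem continuous_sawN : Continuous sawN :=
  continuous_norm.comp (ContinuousMap.toLp (E := ℂ) 2 haarAddCircle ℂ).continuous

theorem sawN_sawAlg (P : CG (Multiplicative ℤ)) : sawN (sawAlg P) = l2 P := by
  have h : Orthonormal ℂ (fun k : Multiplicative ℤ =>
      @fourierLp (1 : ℝ) _ 2 _ (Multiplicative.toAdd k)) :=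
    orthonormal_fourier.comp _ Multiplicative.toAdd.injective
  rw [sawN, sawAlg_apply, map_sum, l2, ← saw_orth h (fun k => P.coeff k) P.coeff.support]
  congr 1

/-! ### Unitaries on `ℓ²(K)` -/

theorem saw_orthonormal {K : Type} [Group K] (V : unitary (BH K))
    (hV : ∀ k : ℤ, k ≠ 0 → (((V ^ k : unitary (BH K)) : BH K) (dl 1)) 1 = 0) :
    Orthonormal ℂ (fun k : Multiplicative ℤ =>
      ((zpowersHom (unitary (BH K)) V k : unitary (BH K)) : BH K) (dl 1)) := by
  classical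
  rw [orthonormal_iff_ite]
  intro j k
  have h1 : ∀ (U : unitary (BH K)) (x y : Ell2 K), ⟪(U : BH K) x, y⟫_ℂ =
      ⟪x, ((U⁻¹ : unitary (BH K)) : BH K) y⟫_ℂ := by
    intro U x y
    show _ = ⟪x, (star (U : BH K)) y⟫_ℂ
    rw [ContinuousLinearMap.star_eq_adjoint, ContinuousLinearMap.adjoint_inner_right]
  rw [h1, inner_dl]
  have h2 : ((((zpowersHom (unitary (BH K)) V j)⁻¹ : unitary (BH K)) : BH K)
      (((zpowersHom (unitary (BH K)) V k : unitary (BH K)) : BH K) (dl 1))) =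
      ((V ^ (Multiplicative.toAdd k - Multiplicative.toAdd j) : unitary (BH K)) : BH K)
        (dl 1) := by
    rw [zpowersHom_apply, zpowersHom_apply, ← zpow_neg]
    have h3 : (V ^ (Multiplicative.toAdd k - Multiplicative.toAdd j) : unitary (BH K)) =
        V ^ (-Multiplicative.toAdd j) * V ^ (Multiplicative.toAdd k) := by
      rw [← zpow_add]
      congr 1
      ring
    rw [h3]
    rfl
  rw [h2]
  by_cases hjk : j = k
  · subst hjk
    rw [if_pos rfl, sub_self, zpow_zero]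
    have h4 : (((1 : unitary (BH K)) : BH K) (dl 1)) = dl 1 := rfl
    rw [h4, dl_apply, if_pos rfl]
  · rw [if_neg hjk]
    refine hV _ ?_
    intro h4
    exact hjk (Multiplicative.toAdd.injective (sub_eq_zero.1 h4).symm)

theorem saw_n2 {K : Type} [Group K] (V : unitary (BH K))
    (hV : ∀ k : ℤ, k ≠ 0 → (((V ^ k : unitary (BH K)) : BH K) (dl 1)) 1 = 0)
    (P : CG (Multiplicative ℤ)) :
    n2 (repAlg (zpowersHom (unitary (BH K)) V) P) = l2 P := by
  rw [n2, repAlg_apply, l2, ← saw_orth (saw_orthonormal V hV) (fun k => P.coeff k) P.coeff.support]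
  congr 1
  rw [sum_apply]
  rfl

theorem continuous_n2 {K : Type} [Group K] : Continuous (n2 : BH K → ℝ) :=
  continuous_norm.comp (ContinuousLinearMap.apply ℂ (Ell2 K) (dl (1 : K))).continuous

/-! ### The sawtooth function -/

/-- The function `θ` on the circle, `-π < θ ≤ π`. -/
noncomputable def sawF : AddCircle (1 : ℝ) → ℂ :=
  AddCircle.liftIoc 1 (-(1 / 2)) (fun x : ℝ => ((2 * Real.pi * x : ℝ) : ℂ))

theorem exists_coe_saw (t : AddCircle (1 : ℝ)) :
    ∃ x ∈ Set.Ioc (-(1 / 2) : ℝ) (-(1 / 2) + 1), (x : AddCircle (1 : ℝ)) = t := by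
  refine ⟨AddCircle.equivIoc 1 (-(1 / 2)) t, (AddCircle.equivIoc 1 (-(1 / 2)) t).2, ?_⟩
  exact (AddCircle.equivIoc (1 : ℝ) (-(1 / 2))).symm_apply_apply t

theorem sawF_coe {x : ℝ} (hx : x ∈ Set.Ioc (-(1 / 2) : ℝ) (-(1 / 2) + 1)) :
    sawF (x : AddCircle (1 : ℝ)) = ((2 * Real.pi * x : ℝ) : ℂ) :=
  AddCircle.liftIoc_coe_apply hx

theorem sawF_real (t : AddCircle (1 : ℝ)) : ∃ x : ℝ, sawF t = (x : ℂ) ∧
    fourier 1 t = Complex.exp (Complex.I * x) := by
  obtain ⟨x, hx, rfl⟩ := exists_coe_saw t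
  refine ⟨2 * Real.pi * x, sawF_coe hx, ?_⟩
  rw [fourier_coe_apply]
  congr 1
  push_cast
  ring

theorem memLp_sawF : MemLp sawF 2 (@haarAddCircle (1 : ℝ) _) := by
  refine MemLp.haarAddCircle (MemLp.memLp_liftIoc ?_)
  refine MemLp.of_bound (C := Real.pi) ?_ ?_
  · exact (by fun_prop : Continuous fun x : ℝ => ((2 * Real.pi * x : ℝ) : ℂ)).aestronglyMeasurable
  · refine (ae_restrict_iff' measurableSet_Ioc).2 (ae_of_all _ fun x hx => ?_)
    rw [Complex.norm_real, Real.norm_eq_abs, abs_le]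
    have h1 := Real.pi_pos
    constructor <;> nlinarith [hx.1, hx.2]

theorem sawF_coeff_zero : fourierCoeff sawF 0 = 0 := by
  rw [fourierCoeff_eq_intervalIntegral sawF 0 (-(1 / 2))]
  have h1 : ∫ x in (-(1 / 2) : ℝ)..(-(1 / 2) + 1), fourier (-0) (x : AddCircle (1 : ℝ)) • sawF x =
      ∫ x in (-(1 / 2) : ℝ)..(-(1 / 2) + 1), ((2 * Real.pi * x : ℝ) : ℂ) := by
    refine intervalIntegral.integral_congr_ae (ae_of_all _ fun x hx => ?_)
    rw [Set.uIoc_of_le (by norm_num)] at hx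
    rw [sawF_coe hx, neg_zero, fourier_zero, one_smul]
  rw [h1, intervalIntegral.integral_ofReal, intervalIntegral.integral_const_mul, integral_id]
  norm_num

theorem sawF_coeff_neg (k : ℤ) : fourierCoeff sawF (-k) = star (fourierCoeff sawF k) := by
  unfold fourierCoeff
  rw [← starRingEnd_apply, ← integral_conj]
  refine integral_congr_ae (ae_of_all _ fun t => ?_)
  obtain ⟨x, hx, -⟩ := sawF_real t
  simp only [smul_eq_mul, map_mul, hx, Complex.conj_ofReal, ← fourier_neg]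

theorem sawF_parseval : HasSum (fun i => ‖fourierCoeff sawF i‖ ^ 2) (Real.pi ^ 2 / 3) := by
  have h1 := hasSum_sq_fourierCoeff memLp_sawF.toLp
  have h2 : fourierCoeff (memLp_sawF.toLp : AddCircle (1 : ℝ) → ℂ) = fourierCoeff sawF :=
    fourierCoeff_congr_ae memLp_sawF.coeFn_toLp
  rw [h2] at h1
  have h3 : ∫ t : AddCircle (1 : ℝ), ‖(memLp_sawF.toLp : AddCircle (1 : ℝ) → ℂ) t‖ ^ 2
      ∂haarAddCircle = Real.pi ^ 2 / 3 := by
    have h4 : ∫ t : AddCircle (1 : ℝ), ‖(memLp_sawF.toLp : AddCircle (1 : ℝ) → ℂ) t‖ ^ 2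
        ∂haarAddCircle = ∫ t : AddCircle (1 : ℝ), AddCircle.liftIoc 1 (-(1 / 2))
          (fun x : ℝ => ‖((2 * Real.pi * x : ℝ) : ℂ)‖ ^ 2) t ∂haarAddCircle := by
      refine integral_congr_ae ?_
      filter_upwards [memLp_sawF.coeFn_toLp] with t ht
      rw [ht]
      rfl
    rw [h4, AddCircle.integral_haarAddCircle, AddCircle.integral_liftIoc_eq_intervalIntegral]
    have h5 : ∀ x : ℝ, ‖((2 * Real.pi * x : ℝ) : ℂ)‖ ^ 2 = 4 * Real.pi ^ 2 * x ^ 2 := by
      intro x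
      rw [Complex.norm_real, Real.norm_eq_abs, sq_abs]
      ring
    simp only [h5]
    rw [intervalIntegral.integral_const_mul, integral_pow]
    norm_num
    ring
  rwa [h3] at h1

theorem saw_exp_apply (g : C(AddCircle (1 : ℝ), ℂ)) (t : AddCircle (1 : ℝ)) :
    (NormedSpace.exp g) t = Complex.exp (g t) := by
  have h := NormedSpace.map_exp (ContinuousMap.evalStarAlgHom ℂ ℂ t)
    (continuous_eval_const t) g
  rw [Complex.exp_eq_exp_ℂ]
  exact h

theorem saw_exp_sub_le (x y : ℝ) :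
    ‖Complex.exp (Complex.I * x) - Complex.exp (Complex.I * y)‖ ≤ ‖(x : ℂ) - (y : ℂ)‖ := by
  have h1 : Complex.exp (Complex.I * x) - Complex.exp (Complex.I * y) =
      Complex.exp (Complex.I * y) * (Complex.exp (Complex.I * ((x - y : ℝ) : ℂ)) - 1) := by
    rw [mul_sub, ← Complex.exp_add, mul_one]
    congr 2
    push_cast
    ring
  rw [h1, norm_mul, Complex.norm_exp_I_mul_ofReal, one_mul, ← Complex.ofReal_sub,
    Complex.norm_real]
  exact Real.norm_exp_I_mul_ofReal_sub_one_le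

theorem exists_arg (ε : ℝ) (hε : 0 < ε) : ∃ c : ℤ →₀ ℂ, c 0 = 0 ∧ (∀ k, c (-k) = star (c k)) ∧
    Real.sqrt (∑ k ∈ c.support, ‖c k‖ ^ 2) ≤ 2 ∧
    ∀ (K : Type) [Group K] (V : unitary (BH K)),
      (∀ k : ℤ, k ≠ 0 → (((V ^ k : unitary (BH K)) : BH K) (dl 1)) 1 = 0) →
      n2 (NormedSpace.exp (Complex.I • ∑ k ∈ c.support, c k • ((V ^ k : unitary (BH K)) : BH K))
        - (V : BH K)) ≤ ε := by
  classical
  set a : ℤ → ℂ := fourierCoeff sawF with ha
  have h1 := hasSum_fourier_series_L2 memLp_sawF.toLp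
  have h2 : fourierCoeff (memLp_sawF.toLp : AddCircle (1 : ℝ) → ℂ) = a :=
    fourierCoeff_congr_ae memLp_sawF.coeFn_toLp
  rw [h2] at h1
  obtain ⟨s, hs⟩ := (Metric.tendsto_atTop.1 h1) ε hε
  set N : ℕ := s.sup Int.natAbs with hN
  set t : Finset ℤ := Finset.Icc (-(N : ℤ)) N with ht
  have hmem : ∀ k : ℤ, k ∈ t ↔ k.natAbs ≤ N := by
    intro k
    rw [ht, Finset.mem_Icc]
    omega
  have hst : s ≤ t := by
    intro k hk
    rw [hmem]
    exact Finset.le_sup (f := Int.natAbs) hk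
  have h3 := hs t hst
  let c : ℤ →₀ ℂ := Finsupp.onFinset t (fun k => if k ∈ t then a k else 0) (by
    intro k hk
    by_contra h
    exact hk (if_neg h))
  have hc : ∀ k, c k = if k ∈ t then a k else 0 := fun k => rfl
  have hct : ∀ k ∈ t, c k = a k := fun k hk => by rw [hc, if_pos hk]
  have hsub : c.support ⊆ t := Finsupp.support_onFinset_subset
  have hsum : ∀ {E : Type} [AddCommGroup E] [Module ℂ E] (X : ℤ → E),
      ∑ k ∈ c.support, c k • X k = ∑ k ∈ t, a k • X k := by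
    intro E _ _ X
    rw [Finset.sum_subset hsub]
    · exact Finset.sum_congr rfl fun k hk => by rw [hct k hk]
    · intro k _ hk
      rw [Finsupp.notMem_support_iff] at hk
      rw [hk, zero_smul]
  refine ⟨c, ?_, ?_, ?_, ?_⟩
  · rw [hc, ha, sawF_coeff_zero]
    simp
  · intro k
    rw [hc, hc]
    by_cases hk : k ∈ t
    · have hk' : -k ∈ t := by
        rw [hmem] at hk ⊢
        omega
      rw [if_pos hk, if_pos hk', ha, sawF_coeff_neg]
    · have hk' : -k ∉ t := by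
        rw [hmem] at hk ⊢
        omega
      rw [if_neg hk, if_neg hk', star_zero]
  · rw [Real.sqrt_le_left (by norm_num)]
    have h4 : ∑ k ∈ c.support, ‖c k‖ ^ 2 ≤ ∑ k ∈ t, ‖a k‖ ^ 2 := by
      calc ∑ k ∈ c.support, ‖c k‖ ^ 2 ≤ ∑ k ∈ t, ‖c k‖ ^ 2 :=
            Finset.sum_le_sum_of_subset_of_nonneg hsub fun _ _ _ => by positivity
        _ = ∑ k ∈ t, ‖a k‖ ^ 2 := Finset.sum_congr rfl fun k hk => by rw [hct k hk]
    have h5 : ∑ k ∈ t, ‖a k‖ ^ 2 ≤ Real.pi ^ 2 / 3 :=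
      sum_le_hasSum t (fun _ _ => by positivity) sawF_parseval
    have h6 := Real.pi_lt_d2
    have h7 := Real.pi_pos
    nlinarith
  · intro K _ V hV
    let P : CG (Multiplicative ℤ) := ∑ k ∈ t, MonoidAlgebra.single (Multiplicative.ofAdd k) (a k)
    have hP : repAlg (zpowersHom (unitary (BH K)) V) P =
        ∑ k ∈ t, a k • ((V ^ k : unitary (BH K)) : BH K) := by
      rw [map_sum]
      refine Finset.sum_congr rfl fun k _ => ?_
      rw [repAlg_single, zpowersHom_apply, toAdd_ofAdd]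
    have hQ : repAlg (zpowersHom (unitary (BH K)) V) (sg (Multiplicative.ofAdd 1)) =
        (V : BH K) := by
      rw [repAlg_single, zpowersHom_apply, toAdd_ofAdd, zpow_one, one_smul]
    have hSP : sawAlg P = ∑ k ∈ t, a k • fourier k := by
      rw [map_sum]
      refine Finset.sum_congr rfl fun k _ => ?_
      rw [sawAlg_single, toAdd_ofAdd]
    have hSQ : sawAlg (sg (Multiplicative.ofAdd 1)) = fourier 1 := by
      rw [sawAlg_single, toAdd_ofAdd, one_smul]
    have h4 := saw_transfer (repAlg (zpowersHom (unitary (BH K)) V)) sawAlg n2 sawN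
      continuous_n2 continuous_sawN (fun R => by rw [saw_n2 V hV, sawN_sawAlg])
      (Complex.I • P) (sg (Multiplicative.ofAdd 1))
    rw [map_smul, hP, hQ, map_smul, hSQ] at h4
    rw [hsum (fun k => ((V ^ k : unitary (BH K)) : BH K)), h4]
    have hreal : ∀ x : AddCircle (1 : ℝ), ∃ y : ℝ, sawAlg P x = (y : ℂ) := by
      intro x
      have h5 : (starRingEnd ℂ) (sawAlg P x) = sawAlg P x := by
        rw [hSP, ContinuousMap.sum_apply, map_sum]
        simp only [ContinuousMap.smul_apply, smul_eq_mul, map_mul, ← fourier_neg]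
        refine Finset.sum_nbij' (fun k => -k) (fun k => -k) ?_ ?_ ?_ ?_ ?_
        · intro k hk
          rw [hmem] at hk ⊢
          omega
        · intro k hk
          rw [hmem] at hk ⊢
          omega
        · intro k _
          exact neg_neg k
        · intro k _
          exact neg_neg k
        · intro k _
          rw [ha, sawF_coeff_neg]
          rfl
      exact ⟨(sawAlg P x).re, (Complex.conj_eq_iff_re.1 h5).symm⟩
    have h6 : sawN (NormedSpace.exp (Complex.I • sawAlg P) - fourier 1) ≤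
        ‖ContinuousMap.toLp (E := ℂ) 2 haarAddCircle ℂ (sawAlg P) - memLp_sawF.toLp‖ := by
      unfold sawN
      refine Lp.norm_le_norm_of_ae_le ?_
      filter_upwards [ContinuousMap.coeFn_toLp (p := 2) (𝕜 := ℂ) haarAddCircle
          (NormedSpace.exp (Complex.I • sawAlg P) - fourier 1),
        ContinuousMap.coeFn_toLp (p := 2) (𝕜 := ℂ) haarAddCircle (sawAlg P),
        memLp_sawF.coeFn_toLp,
        Lp.coeFn_sub (ContinuousMap.toLp (E := ℂ) 2 haarAddCircle ℂ (sawAlg P)) memLp_sawF.toLp]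
        with x e1 e2 e3 e4
      rw [e1, e4, Pi.sub_apply, e2, e3]
      obtain ⟨y, hy⟩ := hreal x
      obtain ⟨z, hz, hz'⟩ := sawF_real x
      rw [ContinuousMap.sub_apply, saw_exp_apply, ContinuousMap.smul_apply, hy, hz, hz',
        smul_eq_mul]
      exact saw_exp_sub_le y z
    refine h6.trans ?_
    have h7 : ContinuousMap.toLp (E := ℂ) 2 haarAddCircle ℂ (sawAlg P) =
        ∑ k ∈ t, a k • fourierLp 2 k := by
      rw [hSP, map_sum]
      refine Finset.sum_congr rfl fun k _ => ?_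
      rw [map_smul]
    rw [h7, ← dist_eq_norm]
    exact h3.le

end Vale.Agent.P086
end

section

/-!
One step of the flow: the exponential of a good derivation acts on frames.
-/

set_option linter.unusedSectionVars false

open scoped InnerProductSpace Nat

namespace Vale.Agent.P086

variable {G K : Type} [Group G] [Group K]

/-! ### Algebra of the derivation -/

theorem flow_der_one {δ : CG G →ₗ[ℂ] CG G} (hmul : ∀ P Q, δ (P * Q) = δ P * Q + P * δ Q) :
    δ 1 = 0 := by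
  have h := hmul 1 1
  rw [mul_one, mul_one, one_mul] at h
  exact left_eq_add.mp h

theorem flow_pow_succ (δ : CG G →ₗ[ℂ] CG G) (n : ℕ) (P : CG G) :
    (δ ^ (n + 1)) P = δ ((δ ^ n) P) := by
  rw [pow_succ', Module.End.mul_apply]

theorem flow_pow_succ' (δ : CG G →ₗ[ℂ] CG G) (n : ℕ) (P : CG G) :
    (δ ^ (n + 1)) P = (δ ^ n) (δ P) := by
  rw [pow_succ, Module.End.mul_apply]

theorem flow_leibniz {δ : CG G →ₗ[ℂ] CG G} (hmul : ∀ P Q, δ (P * Q) = δ P * Q + P * δ Q)
    (P Q : CG G) (n : ℕ) :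
    (δ ^ n) (P * Q) = ∑ p ∈ Finset.HasAntidiagonal.antidiagonal n,
      n.choose p.1 • ((δ ^ p.1) P * (δ ^ p.2) Q) := by
  induction n with
  | zero => simp
  | succ n ih =>
    rw [Finset.sum_antidiagonal_choose_succ_nsmul (M := CG G)
      (fun i j => (δ ^ i) P * (δ ^ j) Q) n, flow_pow_succ, ih, map_sum]
    rw [← Finset.sum_add_distrib]
    refine Finset.sum_congr rfl fun p hp => ?_
    rw [Finset.HasAntidiagonal.mem_antidiagonal] at hp
    have h1 : n.choose p.2 = n.choose p.1 := by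
      rw [← hp, Nat.choose_symm_add]
    rw [map_nsmul, hmul, smul_add, h1, flow_pow_succ, flow_pow_succ, add_comm]

theorem flow_pow_star {δ : CG G →ₗ[ℂ] CG G} (hstar : ∀ P, δ (gstar P) = gstar (δ P)) (n : ℕ)
    (P : CG G) : (δ ^ n) (gstar P) = gstar ((δ ^ n) P) := by
  induction n with
  | zero => rfl
  | succ n ih => rw [flow_pow_succ, ih, hstar, flow_pow_succ]

theorem flow_pow_one {δ : CG G →ₗ[ℂ] CG G} (hmul : ∀ P Q, δ (P * Q) = δ P * Q + P * δ Q)
    (n : ℕ) : (δ ^ (n + 1)) 1 = 0 := by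
  rw [flow_pow_succ', flow_der_one hmul, map_zero]

/-! ### The exponential series -/

/-- the terms of the exponential series -/
noncomputable def flowTerm (δ : CG G →ₗ[ℂ] CG G) (π : G →* unitary (BH K)) (s : ℝ) (P : CG G)
    (j : ℕ) : BH K :=
  ((s ^ j / j ! : ℝ) : ℂ) • repAlg π ((δ ^ j) P)

/-- the exponential series -/
noncomputable def flowE (δ : CG G →ₗ[ℂ] CG G) (π : G →* unitary (BH K)) (s : ℝ) (P : CG G) :
    BH K := ∑' j, flowTerm δ π s P j

theorem flowTerm_norm_le {δ : CG G →ₗ[ℂ] CG G} {C A : ℝ} {P : CG G} (hC : 0 < C)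
    (hA : ∀ j : ℕ, l1 ((δ ^ j) P) ≤ A * j.factorial * C ^ j) (π : G →* unitary (BH K))
    {s : ℝ} (j : ℕ) : ‖flowTerm δ π s P j‖ ≤ A * (|s| * C) ^ j := by
  have h1 : ‖repAlg π ((δ ^ j) P)‖ ≤ A * j.factorial * C ^ j :=
    (norm_repAlg_le π _).trans (hA j)
  have hj : (0 : ℝ) < (j ! : ℝ) := by positivity
  rw [flowTerm, norm_smul, Complex.norm_real, Real.norm_eq_abs, abs_div, abs_pow,
    abs_of_pos hj]
  calc |s| ^ j / (j ! : ℝ) * ‖repAlg π ((δ ^ j) P)‖
      ≤ |s| ^ j / (j ! : ℝ) * (A * j.factorial * C ^ j) := by gcongr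
    _ = A * (|s| * C) ^ j := by
      rw [mul_pow]
      field_simp

theorem flow_A_nonneg {δ : CG G →ₗ[ℂ] CG G} {C A : ℝ} {P : CG G}
    (hA : ∀ j : ℕ, l1 ((δ ^ j) P) ≤ A * j.factorial * C ^ j) : 0 ≤ A := by
  have h := hA 0
  have h1 : 0 ≤ l1 ((δ ^ 0) P) := Finset.sum_nonneg fun _ _ => norm_nonneg _
  simp only [Nat.factorial_zero, Nat.cast_one, mul_one, pow_zero] at h
  exact h1.trans h

theorem flowTerm_summable_norm {δ : CG G →ₗ[ℂ] CG G} {C A : ℝ} {P : CG G} (hC : 0 < C)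
    (hA : ∀ j : ℕ, l1 ((δ ^ j) P) ≤ A * j.factorial * C ^ j) (π : G →* unitary (BH K))
    {s : ℝ} (hs : |s| * C ≤ 1 / 4) : Summable fun j => ‖flowTerm δ π s P j‖ := by
  have hg : Summable fun j : ℕ => A * (|s| * C) ^ j :=
    (summable_geometric_of_lt_one (by positivity) (by linarith)).mul_left A
  exact Summable.of_nonneg_of_le (fun _ => norm_nonneg _)
    (fun j => flowTerm_norm_le hC hA π j) hg

/-- growth at all elements -/
def FlowGrowth (δ : CG G →ₗ[ℂ] CG G) (C : ℝ) : Prop :=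
  0 < C ∧ ∀ P, ∃ A : ℝ, ∀ j : ℕ, l1 ((δ ^ j) P) ≤ A * j.factorial * C ^ j

theorem FlowGrowth.summable {δ : CG G →ₗ[ℂ] CG G} {C : ℝ} (hg : FlowGrowth δ C)
    (π : G →* unitary (BH K)) {s : ℝ} (hs : |s| * C ≤ 1 / 4) (P : CG G) :
    Summable fun j => ‖flowTerm δ π s P j‖ := by
  obtain ⟨A, hA⟩ := hg.2 P
  exact flowTerm_summable_norm hg.1 hA π hs

theorem FlowGrowth.hasSum {δ : CG G →ₗ[ℂ] CG G} {C : ℝ} (hg : FlowGrowth δ C)
    (π : G →* unitary (BH K)) {s : ℝ} (hs : |s| * C ≤ 1 / 4) (P : CG G) :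
    HasSum (flowTerm δ π s P) (flowE δ π s P) :=
  (hg.summable π hs P).of_norm.hasSum

theorem FlowGrowth.add {δ : CG G →ₗ[ℂ] CG G} {C : ℝ} (hg : FlowGrowth δ C)
    (π : G →* unitary (BH K)) {s : ℝ} (hs : |s| * C ≤ 1 / 4) (P Q : CG G) :
    flowE δ π s (P + Q) = flowE δ π s P + flowE δ π s Q := by
  refine (hg.hasSum π hs (P + Q)).unique ?_
  have h := (hg.hasSum π hs P).add (hg.hasSum π hs Q)
  have h2 : (fun j => flowTerm δ π s P j + flowTerm δ π s Q j) = flowTerm δ π s (P + Q) := by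
    funext j
    rw [flowTerm, flowTerm, flowTerm, map_add, map_add, smul_add]
  rwa [h2] at h

theorem FlowGrowth.smul {δ : CG G →ₗ[ℂ] CG G} {C : ℝ} (hg : FlowGrowth δ C)
    (π : G →* unitary (BH K)) {s : ℝ} (hs : |s| * C ≤ 1 / 4) (c : ℂ) (P : CG G) :
    flowE δ π s (c • P) = c • flowE δ π s P := by
  refine (hg.hasSum π hs (c • P)).unique ?_
  have h := (hg.hasSum π hs P).const_smul c
  have h2 : (fun j => c • flowTerm δ π s P j) = flowTerm δ π s (c • P) := by
    funext j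
    rw [flowTerm, flowTerm, map_smul, map_smul, smul_comm]
  rwa [h2] at h

theorem FlowGrowth.star {δ : CG G →ₗ[ℂ] CG G} {C : ℝ} (hg : FlowGrowth δ C)
    (hstar : ∀ P, δ (gstar P) = gstar (δ P))
    (π : G →* unitary (BH K)) {s : ℝ} (hs : |s| * C ≤ 1 / 4) (P : CG G) :
    flowE δ π s (gstar P) = star (flowE δ π s P) := by
  refine (hg.hasSum π hs (gstar P)).unique ?_
  have h := (hg.hasSum π hs P).star
  have h2 : (fun j => Star.star (flowTerm δ π s P j)) = flowTerm δ π s (gstar P) := by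
    funext j
    rw [flowTerm, flowTerm, flow_pow_star hstar, repAlg_gstar, star_smul]
    congr 1
    simp
  rwa [h2] at h

theorem flowTerm_mul {δ : CG G →ₗ[ℂ] CG G} (hmul : ∀ P Q, δ (P * Q) = δ P * Q + P * δ Q)
    (π : G →* unitary (BH K)) (s : ℝ) (P Q : CG G) (n : ℕ) :
    flowTerm δ π s (P * Q) n = ∑ p ∈ Finset.HasAntidiagonal.antidiagonal n,
      flowTerm δ π s P p.1 * flowTerm δ π s Q p.2 := by
  rw [flowTerm, flow_leibniz hmul, map_sum, Finset.smul_sum]
  refine Finset.sum_congr rfl fun p hp => ?_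
  rw [Finset.HasAntidiagonal.mem_antidiagonal] at hp
  rw [map_nsmul, map_mul, flowTerm, flowTerm, smul_mul_smul_comm, ← Nat.cast_smul_eq_nsmul ℂ,
    smul_smul]
  congr 1
  have h1 : (n.choose p.1 : ℂ) * (p.1 ! : ℂ) * (p.2 ! : ℂ) = (n ! : ℂ) := by
    have h0 : (p.1 + p.2).choose p.1 * p.1 ! * p.2 ! = (p.1 + p.2)! := by
      rw [Nat.choose_symm_add]
      exact Nat.add_choose_mul_factorial_mul_factorial p.1 p.2
    rw [hp] at h0
    exact_mod_cast h0
  have h2 : ((p.1 ! : ℕ) : ℂ) ≠ 0 := by exact_mod_cast Nat.factorial_ne_zero _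
  have h3 : ((p.2 ! : ℕ) : ℂ) ≠ 0 := by exact_mod_cast Nat.factorial_ne_zero _
  have h4 : ((n ! : ℕ) : ℂ) ≠ 0 := by exact_mod_cast Nat.factorial_ne_zero _
  push_cast
  rw [← hp, pow_add, hp, div_mul_div_comm, div_mul_eq_mul_div, div_eq_div_iff h4 (mul_ne_zero h2 h3),
    ← h1]
  ring

theorem FlowGrowth.mul {δ : CG G →ₗ[ℂ] CG G} {C : ℝ} (hg : FlowGrowth δ C)
    (hmul : ∀ P Q, δ (P * Q) = δ P * Q + P * δ Q)
    (π : G →* unitary (BH K)) {s : ℝ} (hs : |s| * C ≤ 1 / 4) (P Q : CG G) :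
    flowE δ π s (P * Q) = flowE δ π s P * flowE δ π s Q := by
  rw [flowE, flowE, flowE, tsum_mul_tsum_eq_tsum_sum_antidiagonal_of_summable_norm
    (hg.summable π hs P) (hg.summable π hs Q)]
  exact tsum_congr fun n => flowTerm_mul hmul π s P Q n

theorem flowE_of_der_eq_zero {δ : CG G →ₗ[ℂ] CG G} (π : G →* unitary (BH K)) (s : ℝ) {P : CG G}
    (hP : δ P = 0) : flowE δ π s P = repAlg π P := by
  rw [flowE, tsum_eq_single 0]
  · rw [flowTerm, pow_zero, pow_zero, Nat.factorial_zero, Nat.cast_one, div_one,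
      Complex.ofReal_one, one_smul]
    rfl
  · intro j hj
    obtain ⟨k, rfl⟩ := Nat.exists_eq_succ_of_ne_zero hj
    rw [flowTerm, Nat.succ_eq_add_one, flow_pow_succ', hP, map_zero, map_zero, smul_zero]

/-! ### The new representation -/

theorem flow_gstar_sg (g : G) : gstar (sg g) = sg g⁻¹ := by
  classical
  rw [gstar, MonoidAlgebra.coeff_single, Finsupp.sum_single_index]
  · simp
  · simp

theorem flow_sg_one : (sg (1 : G) : CG G) = 1 := rfl

theorem flow_sg_mul (g h : G) : (sg (g * h) : CG G) = sg g * sg h := by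
  rw [MonoidAlgebra.single_mul_single, mul_one]

/-- the exponential of the flow on group elements -/
noncomputable def flowPi {δ : CG G →ₗ[ℂ] CG G} (hδ : GoodDer δ) {C : ℝ} (hg : FlowGrowth δ C)
    (π : G →* unitary (BH K)) {s : ℝ} (hs : |s| * C ≤ 1 / 4) : G →* unitary (BH K) where
  toFun g := ⟨flowE δ π s (sg g), by
    have h1 : flowE δ π s 1 = 1 := by
      rw [flowE_of_der_eq_zero π s (flow_der_one hδ.mul), map_one]
    have h2 : Star.star (flowE δ π s (sg g)) = flowE δ π s (sg g⁻¹) := by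
      rw [← hg.star hδ.star π hs, flow_gstar_sg]
    rw [Unitary.mem_iff, h2, ← hg.mul hδ.mul π hs, ← hg.mul hδ.mul π hs, ← flow_sg_mul,
      ← flow_sg_mul, inv_mul_cancel, mul_inv_cancel, flow_sg_one, h1]
    exact ⟨rfl, rfl⟩⟩
  map_one' := by
    apply Subtype.ext
    change flowE δ π s (sg 1) = 1
    rw [flow_sg_one, flowE_of_der_eq_zero π s (flow_der_one hδ.mul), map_one]
  map_mul' g h := by
    apply Subtype.ext
    change flowE δ π s (sg (g * h)) = flowE δ π s (sg g) * flowE δ π s (sg h)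
    rw [flow_sg_mul, hg.mul hδ.mul π hs]

theorem repAlg_flowPi {δ : CG G →ₗ[ℂ] CG G} (hδ : GoodDer δ) {C : ℝ} (hg : FlowGrowth δ C)
    (π : G →* unitary (BH K)) {s : ℝ} (hs : |s| * C ≤ 1 / 4) (P : CG G) :
    repAlg (flowPi hδ hg π hs) P = flowE δ π s P := by
  induction P using MonoidAlgebra.induction_on with
  | of g =>
    rw [MonoidAlgebra.of_apply, repAlg_single, one_smul]
    rfl
  | add P Q hP hQ => rw [map_add, hP, hQ, hg.add π hs]
  | smul c P hP => rw [map_smul, hP, hg.smul π hs]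

theorem isClosed_LG_flow : IsClosed {T : BH K | T ∈ LG K} := by
  have h : {T : BH K | T ∈ LG K} =
      ((StarSubalgebra.centralizer ℂ
        (StarSubalgebra.centralizer ℂ (Set.range (lam (G := K))) : Set (BH K)) :
          StarSubalgebra ℂ (BH K)) : Set (BH K)) := rfl
  rw [h]
  have h2 : ((StarSubalgebra.centralizer ℂ
        (StarSubalgebra.centralizer ℂ (Set.range (lam (G := K))) : Set (BH K)) :
          StarSubalgebra ℂ (BH K)) : Set (BH K)) =
      ⋂ y ∈ (StarSubalgebra.centralizer ℂ (Set.range (lam (G := K))) : Set (BH K)),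
        {T : BH K | y * T = T * y ∧ Star.star y * T = T * Star.star y} := by
    ext T
    rw [SetLike.mem_coe, StarSubalgebra.mem_centralizer_iff]
    simp
  rw [h2]
  refine isClosed_biInter fun y _ => ?_
  have h3 : {T : BH K | y * T = T * y ∧ Star.star y * T = T * Star.star y} =
      {T : BH K | y * T = T * y} ∩ {T : BH K | Star.star y * T = T * Star.star y} := rfl
  rw [h3]
  refine IsClosed.inter ?_ ?_
  · exact isClosed_eq (by fun_prop) (by fun_prop)
  · exact isClosed_eq (by fun_prop) (by fun_prop)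

theorem repAlg_mem_LG_flow (π : G →* unitary (BH K)) (hm : ∀ g, (π g : BH K) ∈ LG K) (P : CG G) :
    repAlg π P ∈ LG K := by
  rw [repAlg_apply]
  exact sum_mem fun g _ => (LG K).smul_mem (hm g) _

theorem flowE_mem {δ : CG G →ₗ[ℂ] CG G} {C : ℝ} (hg : FlowGrowth δ C)
    (π : G →* unitary (BH K)) (hm : ∀ g, (π g : BH K) ∈ LG K) {s : ℝ} (hs : |s| * C ≤ 1 / 4)
    (P : CG G) : flowE δ π s P ∈ LG K := by
  refine isClosed_LG_flow.mem_of_tendsto (hg.hasSum π hs P) (Filter.Eventually.of_forall ?_)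
  intro t
  exact sum_mem fun j _ => (LG K).smul_mem (repAlg_mem_LG_flow π hm _) _

/-- the trace as a continuous functional -/
noncomputable def flowTau : BH K →L[ℂ] ℂ :=
  (innerSL ℂ (dl (1 : K))).comp (ContinuousLinearMap.apply ℂ (Ell2 K) (dl (1 : K)))

theorem flowTau_apply (T : BH K) : flowTau T = (T (dl 1)) 1 := by
  change ⟪dl (1 : K), T (dl 1)⟫_ℂ = _
  exact inner_dl 1 _

theorem flowTau_repAlg (π : G →* unitary (BH K)) (hπ : Frame π) (P : CG G) :
    flowTau (repAlg π P) = P.coeff 1 := by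
  classical
  rw [repAlg_apply, map_sum]
  have h1 : ∀ g ∈ P.coeff.support, flowTau (P.coeff g • (π g : BH K)) =
      if g = 1 then P.coeff g else 0 := by
    intro g _
    rw [map_smul, flowTau_apply]
    split_ifs with h
    · subst h
      have h5 : ((π 1 : unitary (BH K)) : BH K) (dl 1) = dl (1 : K) := by
        rw [map_one π]
        rfl
      rw [h5, dl_apply, if_pos rfl, smul_eq_mul, mul_one]
    · rw [hπ.tr g h, smul_zero]
  rw [Finset.sum_congr rfl h1, Finset.sum_ite_eq']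
  split_ifs with h
  · rfl
  · rw [Finsupp.notMem_support_iff] at h
    exact h.symm

theorem flowTau_flowE {δ : CG G →ₗ[ℂ] CG G} (hδ : GoodDer δ) {C : ℝ} (hg : FlowGrowth δ C)
    (π : G →* unitary (BH K)) (hπ : Frame π) {s : ℝ} (hs : |s| * C ≤ 1 / 4) (P : CG G) :
    flowTau (flowE δ π s P) = P.coeff 1 := by
  have h := (hg.hasSum π hs P).mapL flowTau
  have h2 : (fun j => flowTau (flowTerm δ π s P j)) = fun j => if j = 0 then P.coeff 1 else 0 := by
    funext j
    rw [flowTerm, map_smul, flowTau_repAlg π hπ]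
    split_ifs with hj
    · subst hj
      simp
    · obtain ⟨k, rfl⟩ := Nat.exists_eq_succ_of_ne_zero hj
      rw [Nat.succ_eq_add_one, flow_pow_succ, hδ.tr, smul_zero]
  rw [h2] at h
  exact h.unique (hasSum_ite_eq 0 _)

/-! ### The inverse flow -/

theorem flow_inverse {δ : CG G →ₗ[ℂ] CG G} {C : ℝ} (hg : FlowGrowth δ C)
    (π : G →* unitary (BH K)) {s : ℝ} (hs : |s| * C ≤ 1 / 4) (P : CG G) :
    HasSum (fun j : ℕ => (((-s) ^ j / j ! : ℝ) : ℂ) • flowE δ π s ((δ ^ j) P)) (repAlg π P) := by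
  obtain ⟨A, hA⟩ := hg.2 P
  have hA0 := flow_A_nonneg hA
  have hC := hg.1
  set f : ℕ × ℕ → BH K := fun p =>
    (((-s) ^ p.1 / p.1 ! : ℝ) : ℂ) • (((s ^ p.2 / p.2 ! : ℝ) : ℂ) •
      repAlg π ((δ ^ (p.1 + p.2)) P)) with hf
  -- norm bound
  have hbound : ∀ p, ‖f p‖ ≤ A * ((1 / 2 : ℝ) ^ p.1 * (1 / 2 : ℝ) ^ p.2) := by
    rintro ⟨i, j⟩
    have h1 : ‖repAlg π ((δ ^ (i + j)) P)‖ ≤ A * (i + j).factorial * C ^ (i + j) :=
      (norm_repAlg_le π _).trans (hA (i + j))
    have hi : (0 : ℝ) < (i ! : ℝ) := by positivity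
    have hj : (0 : ℝ) < (j ! : ℝ) := by positivity
    rw [hf]
    simp only
    rw [norm_smul, norm_smul, Complex.norm_real, Complex.norm_real, Real.norm_eq_abs,
      Real.norm_eq_abs, abs_div, abs_div, abs_pow, abs_pow, abs_of_pos hi, abs_of_pos hj, abs_neg]
    have h2 : ((i + j).choose i : ℝ) * (i ! : ℝ) * (j ! : ℝ) = ((i + j)! : ℝ) := by
      have h0 : (i + j).choose i * i ! * j ! = (i + j)! := by
        rw [Nat.choose_symm_add]
        exact Nat.add_choose_mul_factorial_mul_factorial i j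
      exact_mod_cast h0
    have h3 : ((i + j).choose i : ℝ) ≤ 2 ^ (i + j) := by
      exact_mod_cast Nat.choose_le_two_pow (i + j) i
    calc |s| ^ i / (i ! : ℝ) * (|s| ^ j / (j ! : ℝ) * ‖repAlg π ((δ ^ (i + j)) P)‖)
        ≤ |s| ^ i / (i ! : ℝ) * (|s| ^ j / (j ! : ℝ) * (A * (i + j).factorial * C ^ (i + j))) := by
          gcongr
      _ = A * ((i + j).choose i : ℝ) * (|s| * C) ^ (i + j) := by
          rw [← h2, mul_pow, pow_add |s|]
          field_simp
      _ ≤ A * 2 ^ (i + j) * (1 / 4) ^ (i + j) := by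
          gcongr
      _ = A * ((1 / 2 : ℝ) ^ i * (1 / 2 : ℝ) ^ j) := by
          rw [← pow_add, mul_assoc, ← mul_pow]
          norm_num
  have hsum : Summable f := by
    have h1 : Summable fun p : ℕ × ℕ => (1 / 2 : ℝ) ^ p.1 * (1 / 2 : ℝ) ^ p.2 :=
      Summable.mul_of_nonneg summable_geometric_two summable_geometric_two
        (fun _ => by positivity) (fun _ => by positivity)
    exact Summable.of_norm_bounded (h1.mul_left A) hbound
  -- sum over antidiagonals
  have hanti : ∑' p, f p = repAlg π P := by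
    rw [← Finset.HasAntidiagonal.sigmaAntidiagonalEquivProd.tsum_eq f]
    have hs2 : Summable (f ∘ Finset.HasAntidiagonal.sigmaAntidiagonalEquivProd) :=
      (Finset.HasAntidiagonal.sigmaAntidiagonalEquivProd.summable_iff).mpr hsum
    refine (hs2.tsum_sigma' (fun n => (hasSum_fintype _).summable)).trans ?_
    have h1 : ∀ n : ℕ, ∑' (c : Finset.HasAntidiagonal.antidiagonal n),
        (f ∘ Finset.HasAntidiagonal.sigmaAntidiagonalEquivProd) ⟨n, c⟩ = if n = 0 then repAlg π P else 0 := by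
      intro n
      rw [tsum_fintype]
      have h2 : ∀ c : Finset.HasAntidiagonal.antidiagonal n,
          (f ∘ Finset.HasAntidiagonal.sigmaAntidiagonalEquivProd) ⟨n, c⟩ =
          (((-s) ^ c.1.1 * s ^ c.1.2 * (n.choose c.1.1 : ℝ) : ℝ) : ℂ) •
            ((((n ! : ℝ)⁻¹ : ℝ) : ℂ) • repAlg π ((δ ^ n) P)) := by
        rintro ⟨⟨i, j⟩, hc⟩
        rw [Finset.HasAntidiagonal.mem_antidiagonal] at hc
        simp only at hc
        subst hc
        change (((-s) ^ i / i ! : ℝ) : ℂ) • (((s ^ j / j ! : ℝ) : ℂ) •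
          repAlg π ((δ ^ (i + j)) P)) = _
        rw [smul_smul, smul_smul]
        congr 1
        rw [← Complex.ofReal_mul, ← Complex.ofReal_mul]
        congr 1
        have h3 : ((i + j).choose i : ℝ) * (i ! : ℝ) * (j ! : ℝ) = ((i + j)! : ℝ) := by
          have h0 : (i + j).choose i * i ! * j ! = (i + j)! := by
            rw [Nat.choose_symm_add]
            exact Nat.add_choose_mul_factorial_mul_factorial i j
          exact_mod_cast h0
        have hi : (i ! : ℝ) ≠ 0 := by positivity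
        have hj : (j ! : ℝ) ≠ 0 := by positivity
        have hij : ((i + j)! : ℝ) ≠ 0 := by positivity
        have h4 : ((i + j).choose i : ℝ) = ((i + j)! : ℝ) / ((i ! : ℝ) * (j ! : ℝ)) := by
          rw [eq_div_iff (mul_ne_zero hi hj), ← h3]
          ring
        rw [h4]
        field_simp
      rw [Finset.sum_congr rfl fun c _ => h2 c, ← Finset.sum_smul]
      have h5 : ∑ c : Finset.HasAntidiagonal.antidiagonal n,
          ((((-s) ^ c.1.1 * s ^ c.1.2 * (n.choose c.1.1 : ℝ) : ℝ)) : ℂ) =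
          (((-s + s) ^ n : ℝ) : ℂ) := by
        rw [← Complex.ofReal_sum]
        congr 1
        rw [(Commute.all (-s) s).add_pow']
        rw [← Finset.sum_coe_sort (Finset.HasAntidiagonal.antidiagonal n)]
        refine Finset.sum_congr rfl fun c _ => ?_
        rw [nsmul_eq_mul]
        ring
      rw [h5, neg_add_cancel]
      split_ifs with hn
      · subst hn
        simp
      · rw [zero_pow hn]
        simp
    rw [tsum_congr h1, tsum_ite_eq]
  -- iterated sum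
  have hinner : ∀ i : ℕ, HasSum (fun j => f (i, j))
      ((((-s) ^ i / i ! : ℝ) : ℂ) • flowE δ π s ((δ ^ i) P)) := by
    intro i
    have h1 := (hg.hasSum π hs ((δ ^ i) P)).const_smul (((-s) ^ i / i ! : ℝ) : ℂ)
    have h2 : (fun j => (((-s) ^ i / i ! : ℝ) : ℂ) • flowTerm δ π s ((δ ^ i) P) j) =
        fun j => f (i, j) := by
      funext j
      rw [hf, flowTerm]
      simp only
      congr 3
      rw [add_comm, pow_add, Module.End.mul_apply]
    rwa [h2] at h1
  have h := hsum.hasSum.prod_fiberwise hinner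
  rwa [hanti] at h

/-! ### The flow step -/

theorem flow_remainder {δ : CG G →ₗ[ℂ] CG G} {C A : ℝ} {P : CG G} (hg : FlowGrowth δ C)
    (hA : ∀ j : ℕ, l1 ((δ ^ j) P) ≤ A * j.factorial * C ^ j) (π : G →* unitary (BH K))
    {s : ℝ} (hs : |s| * C ≤ 1 / 4) :
    ‖flowE δ π s P - repAlg π P - (s : ℂ) • repAlg π (δ P)‖ ≤ 2 * A * C ^ 2 * s ^ 2 := by
  have hA0 := flow_A_nonneg hA
  have hC := hg.1
  have h1 := hg.hasSum π hs P
  rw [← hasSum_nat_add_iff' 2] at h1
  have h2 : flowE δ π s P - ∑ i ∈ Finset.range 2, flowTerm δ π s P i =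
      flowE δ π s P - repAlg π P - (s : ℂ) • repAlg π (δ P) := by
    rw [Finset.sum_range_succ, Finset.sum_range_one, flowTerm, flowTerm]
    simp [sub_sub]
  rw [h2] at h1
  have hgeo : HasSum (fun j : ℕ => A * (|s| * C) ^ 2 * (1 / 4) ^ j)
      (A * (|s| * C) ^ 2 * (1 - 1 / 4)⁻¹) :=
    (hasSum_geometric_of_lt_one (by norm_num) (by norm_num)).mul_left _
  have h3 : ‖flowE δ π s P - repAlg π P - (s : ℂ) • repAlg π (δ P)‖ ≤
      A * (|s| * C) ^ 2 * (1 - 1 / 4)⁻¹ := by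
    rw [← h1.tsum_eq]
    refine tsum_of_norm_bounded hgeo fun j => ?_
    refine (flowTerm_norm_le hC hA π (j + 2)).trans ?_
    rw [pow_add, mul_comm ((|s| * C) ^ j), ← mul_assoc]
    gcongr
  refine h3.trans ?_
  rw [mul_pow, sq_abs]
  have h4 : (0 : ℝ) ≤ A * (s ^ 2 * C ^ 2) := by positivity
  nlinarith

theorem flow_step (δ : CG G →ₗ[ℂ] CG G) (hδ : GoodDer δ) :
    ∃ s₀ : ℝ, 0 < s₀ ∧ ∃ Kc : CG G → ℝ, (∀ P, 0 ≤ Kc P) ∧
      ∀ π : G →* unitary (BH K), Frame π → ∀ s : ℝ, 0 ≤ s → s ≤ s₀ →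
        ∃ π' : G →* unitary (BH K), Frame π' ∧
          (∀ P, δ P = 0 → repAlg π' P = repAlg π P) ∧
          ∀ P, ‖repAlg π' P - repAlg π P - (s : ℂ) • repAlg π (δ P)‖ ≤ Kc P * s ^ 2 := by
  obtain ⟨C, hC, hgr⟩ := hδ.growth
  have hg : FlowGrowth δ C := ⟨hC, hgr⟩
  choose A hA using hgr
  refine ⟨1 / (4 * C), by positivity, fun P => 2 * A P * C ^ 2, fun P => ?_, ?_⟩
  · have := flow_A_nonneg (hA P)
    positivity
  intro π hπ s hs0 hs1
  have hs : |s| * C ≤ 1 / 4 := by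
    rw [abs_of_nonneg hs0]
    calc s * C ≤ 1 / (4 * C) * C := by gcongr
      _ = 1 / 4 := by field_simp
  refine ⟨flowPi hδ hg π hs, ⟨?_, ?_, ?_⟩, ?_, ?_⟩
  · intro g
    exact flowE_mem hg π hπ.mem hs _
  · intro g hg1
    rw [← flowTau_apply]
    change flowTau (flowE δ π s (sg g)) = 0
    rw [flowTau_flowE hδ hg π hπ hs]
    classical
    rw [MonoidAlgebra.coeff_single, Finsupp.single_apply, if_neg hg1]
  · intro ξ ε hε
    obtain ⟨P, hP⟩ := hπ.dense ξ (ε / 2) (by positivity)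
    have h1 := flow_inverse hg π hs P
    have h2 := h1.tendsto_sum_nat
    rw [Metric.tendsto_atTop] at h2
    obtain ⟨N, hN⟩ := h2 (ε / 2) (by positivity)
    refine ⟨∑ j ∈ Finset.range N, (((-s) ^ j / j ! : ℝ) : ℂ) • (δ ^ j) P, ?_⟩
    have h3 : repAlg (flowPi hδ hg π hs)
        (∑ j ∈ Finset.range N, (((-s) ^ j / j ! : ℝ) : ℂ) • (δ ^ j) P) =
        ∑ j ∈ Finset.range N, (((-s) ^ j / j ! : ℝ) : ℂ) • flowE δ π s ((δ ^ j) P) := by
      rw [map_sum]
      refine Finset.sum_congr rfl fun j _ => ?_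
      rw [map_smul, repAlg_flowPi]
    rw [h3]
    have h4 := hN N le_rfl
    rw [dist_eq_norm] at h4
    set Q := ∑ j ∈ Finset.range N, (((-s) ^ j / j ! : ℝ) : ℂ) • flowE δ π s ((δ ^ j) P)
    have h5 : ‖Q (dl 1) - repAlg π P (dl 1)‖ ≤ ‖Q - repAlg π P‖ := by
      have := (Q - repAlg π P).le_opNorm (dl (1 : K))
      rw [norm_dl, mul_one] at this
      exact this
    calc ‖Q (dl 1) - ξ‖ = ‖(Q (dl 1) - repAlg π P (dl 1)) + (repAlg π P (dl 1) - ξ)‖ := by
          rw [sub_add_sub_cancel]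
      _ ≤ ‖Q (dl 1) - repAlg π P (dl 1)‖ + ‖repAlg π P (dl 1) - ξ‖ := norm_add_le _ _
      _ < ε / 2 + ε / 2 := add_lt_add (h5.trans_lt h4) hP
      _ = ε := by ring
  · intro P hP
    rw [repAlg_flowPi, flowE_of_der_eq_zero π s hP]
  · intro P
    rw [repAlg_flowPi]
    exact flow_remainder hg (hA P) π hs

end Vale.Agent.P086
end

section

/-!
The flow of a trace-annihilating derivation at time one, with 2-norm estimates.
-/

open scoped InnerProductSpace

namespace Vale.Agent.P086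

variable {G K : Type} [Group G] [Group K]

private theorem flowOne_exp_bound {A : Type} [NormedRing A] [NormedAlgebra ℂ A]
    [CompleteSpace A] (x : A) :
    ‖NormedSpace.exp x - 1 - x‖ ≤ ‖x‖ ^ 2 * Real.exp ‖x‖ := by
  have h1 : HasSum (fun n : ℕ => ((n.factorial : ℂ)⁻¹) • x ^ n) (NormedSpace.exp x) :=
    NormedSpace.exp_series_hasSum_exp' (𝕂 := ℂ) x
  have h2 : HasSum (fun n : ℕ => (((n + 2).factorial : ℂ)⁻¹) • x ^ (n + 2))
      (NormedSpace.exp x - 1 - x) := by
    have h3 := (hasSum_nat_add_iff' (f := fun n : ℕ => ((n.factorial : ℂ)⁻¹) • x ^ n) 2).mpr h1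
    have h4 : NormedSpace.exp x - 1 - x = NormedSpace.exp x -
        ∑ i ∈ Finset.range 2, ((i.factorial : ℂ)⁻¹) • x ^ i := by
      simp [Finset.sum_range_succ, sub_sub]
    rw [h4]
    exact h3
  have h5 : HasSum (fun n : ℕ => ‖x‖ ^ 2 * (((n.factorial : ℝ)⁻¹) * ‖x‖ ^ n))
      (‖x‖ ^ 2 * Real.exp ‖x‖) := by
    have h6 : HasSum (fun n : ℕ => ((n.factorial : ℝ)⁻¹) • ‖x‖ ^ n) (NormedSpace.exp ‖x‖) :=
      NormedSpace.exp_series_hasSum_exp' (𝕂 := ℝ) ‖x‖
    rw [← Real.exp_eq_exp_ℝ] at h6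
    exact h6.mul_left _
  refine h2.norm_le_of_bounded h5 fun n => ?_
  rw [norm_smul, norm_inv, Complex.norm_natCast]
  have hf : (((n + 2).factorial : ℝ))⁻¹ ≤ ((n.factorial : ℝ))⁻¹ := by
    apply inv_anti₀
    · exact_mod_cast n.factorial_pos
    · exact_mod_cast Nat.factorial_le (Nat.le_add_right n 2)
  calc (((n + 2).factorial : ℝ))⁻¹ * ‖x ^ (n + 2)‖
      ≤ ((n.factorial : ℝ))⁻¹ * ‖x‖ ^ (n + 2) :=
        mul_le_mul hf (norm_pow_le' x (Nat.succ_pos _)) (norm_nonneg _) (by positivity)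
    _ = ‖x‖ ^ 2 * (((n.factorial : ℝ)⁻¹) * ‖x‖ ^ n) := by ring

omit [Group K] in
/-- exponential of `i s A`, `A` self-adjoint, is a unitary. -/
private theorem flowOne_exp_unitary (A : BH K) (hA : star A = A) (s : ℝ) :
    NormedSpace.exp ((Complex.I * (s : ℂ)) • A) ∈ unitary (BH K) := by
  let +nondep : NormedAlgebra ℚ (BH K) := .restrictScalars ℚ ℂ (BH K)
  apply NormedSpace.exp_mem_unitary_of_mem_skewAdjoint
  rw [skewAdjoint.mem_iff, star_smul, hA]
  simp

omit [Group K] in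
private theorem flowOne_exp_add (A : BH K) (s t : ℝ) :
    NormedSpace.exp ((Complex.I * ((s + t : ℝ) : ℂ)) • A) =
      NormedSpace.exp ((Complex.I * (s : ℂ)) • A) * NormedSpace.exp ((Complex.I * (t : ℂ)) • A) := by
  let +nondep : NormedAlgebra ℚ (BH K) := .restrictScalars ℚ ℂ (BH K)
  rw [← NormedSpace.exp_add_of_commute (((Commute.refl A).smul_left _).smul_right _)]
  congr 1
  rw [← add_smul]
  push_cast
  ring_nf

/-- One step. -/
private theorem flowOne_step (π π' : G →* unitary (BH K)) (hπ : Frame π)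
    (δ : CG G →ₗ[ℂ] CG G) (g : G) (Z a : CG G)
    (hg : δ (sg g) = Complex.I • (Z * sg g)) (C s : ℝ) (hs : 0 ≤ s)
    (hs1 : s ≤ 1)
    (hstep : ‖repAlg π' (sg g) - repAlg π (sg g) - (s : ℂ) • repAlg π (δ (sg g))‖ ≤ C * s ^ 2) :
    n2 ((π' g : BH K) - NormedSpace.exp ((Complex.I * (s : ℂ)) • repAlg π a) * (π g : BH K)) ≤
      s * l2 (Z - a) + (C + ‖repAlg π a‖ ^ 2 * Real.exp ‖repAlg π a‖) * s ^ 2 := by
  set A : BH K := repAlg π a with hA
  have e1 : repAlg π' (sg g) = (π' g : BH K) := by rw [repAlg_single, one_smul]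
  have e2 : repAlg π (sg g) = (π g : BH K) := by rw [repAlg_single, one_smul]
  have e3 : repAlg π (δ (sg g)) = Complex.I • (repAlg π Z * (π g : BH K)) := by
    rw [hg, map_smul, map_mul, e2]
  rw [e1, e2, e3] at hstep
  set E : BH K := NormedSpace.exp ((Complex.I * (s : ℂ)) • A) with hE
  have hx : ‖(Complex.I * (s : ℂ)) • A‖ = s * ‖A‖ := by
    rw [norm_smul, norm_mul, Complex.norm_I, one_mul, Complex.norm_real, Real.norm_of_nonneg hs]
  have hb : ‖E - 1 - (Complex.I * (s : ℂ)) • A‖ ≤ ‖A‖ ^ 2 * Real.exp ‖A‖ * s ^ 2 := by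
    refine (flowOne_exp_bound ((Complex.I * (s : ℂ)) • A)).trans ?_
    rw [hx, mul_pow]
    have : Real.exp (s * ‖A‖) ≤ Real.exp ‖A‖ := by
      apply Real.exp_le_exp.mpr
      exact mul_le_of_le_one_left (norm_nonneg _) hs1
    calc s ^ 2 * ‖A‖ ^ 2 * Real.exp (s * ‖A‖) ≤ s ^ 2 * ‖A‖ ^ 2 * Real.exp ‖A‖ := by gcongr
      _ = _ := by ring
  have key : (π' g : BH K) - E * (π g : BH K) =
      (((π' g : BH K) - (π g : BH K) - (s : ℂ) • (Complex.I • (repAlg π Z * (π g : BH K)))) -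
        (E - 1 - (Complex.I * (s : ℂ)) • A) * (π g : BH K)) +
      (Complex.I * (s : ℂ)) • repAlg π ((Z - a) * sg g) := by
    rw [map_mul, map_sub, ← hA, e2, smul_smul]
    simp only [sub_mul, one_mul, smul_mul_assoc, smul_sub]
    rw [mul_comm (s : ℂ) Complex.I]
    abel
  rw [key]
  have hn : ‖(E - 1 - (Complex.I * (s : ℂ)) • A) * (π g : BH K)‖ =
      ‖E - 1 - (Complex.I * (s : ℂ)) • A‖ := CStarRing.norm_mul_coe_unitary _ _
  have h2 : n2 ((Complex.I * (s : ℂ)) • repAlg π ((Z - a) * sg g)) = s * l2 (Z - a) := by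
    rw [n2_smul, n2_repAlg π hπ.tr, l2_mul_sg, norm_mul, Complex.norm_I, one_mul,
      Complex.norm_real, Real.norm_of_nonneg hs]
  refine (n2_add_le _ _).trans ?_
  rw [h2]
  have h3 : n2 (((π' g : BH K) - (π g : BH K) -
      (s : ℂ) • (Complex.I • (repAlg π Z * (π g : BH K)))) -
        (E - 1 - (Complex.I * (s : ℂ)) • A) * (π g : BH K)) ≤
      (C + ‖A‖ ^ 2 * Real.exp ‖A‖) * s ^ 2 := by
    refine (n2_le_norm _).trans ((norm_sub_le _ _).trans ?_)
    rw [hn]
    linarith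
  linarith

theorem flow_one (δ : CG G →ₗ[ℂ] CG G) (hδ : GoodDer δ) {ι : Type} [Fintype ι] (g : ι → G)
    (Z a : ι → CG G) (hg : ∀ i, δ (sg (g i)) = Complex.I • (Z i * sg (g i)))
    (ha : ∀ i, δ (a i) = 0) (has : ∀ i, gstar (a i) = a i)
    (π : G →* unitary (BH K)) (hπ : Frame π) (ε : ℝ) (hε : 0 < ε) :
    ∃ π' : G →* unitary (BH K), Frame π' ∧ (∀ P, δ P = 0 → repAlg π' P = repAlg π P) ∧
      ∀ i, n2 ((π' (g i) : BH K) - NormedSpace.exp (Complex.I • repAlg π (a i)) * (π (g i) : BH K))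
        ≤ l2 (Z i - a i) + ε := by
  obtain ⟨s₀, hs₀, Kc, hKc, hflow⟩ := flow_step (K := K) δ hδ
  let B : ι → ℝ := fun i => Kc (sg (g i)) + ‖repAlg π (a i)‖ ^ 2 * Real.exp ‖repAlg π (a i)‖
  have hB : ∀ i, 0 ≤ B i := fun i => add_nonneg (hKc _) (by positivity)
  obtain ⟨N, hN⟩ := exists_nat_gt (1 / s₀ + (∑ i, B i) / ε + 1)
  have hBs : 0 ≤ ∑ i, B i := Finset.sum_nonneg fun i _ => hB i
  have hN1 : (1 : ℝ) ≤ N := by
    have h1 : 0 ≤ 1 / s₀ := by positivity
    have h2 : 0 ≤ (∑ i, B i) / ε := by positivity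
    linarith
  have hN0 : (0 : ℝ) < N := by linarith
  have hNs : (1 : ℝ) / N ≤ s₀ := by
    rw [div_le_comm₀ hN0 hs₀]
    have h2 : 0 ≤ (∑ i, B i) / ε := by positivity
    linarith
  have hNB : (∑ i, B i) / N ≤ ε := by
    rw [div_le_comm₀ hN0 hε]
    have h1 : 0 ≤ 1 / s₀ := by positivity
    linarith
  set s : ℝ := 1 / N with hs
  have hs_nonneg : 0 ≤ s := by positivity
  have hs1 : s ≤ 1 := by
    rw [hs, div_le_one hN0]
    exact hN1
  have main : ∀ k : ℕ, ∃ π' : G →* unitary (BH K), Frame π' ∧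
      (∀ P, δ P = 0 → repAlg π' P = repAlg π P) ∧
      ∀ i, n2 ((π' (g i) : BH K) -
        NormedSpace.exp ((Complex.I * ((k * s : ℝ) : ℂ)) • repAlg π (a i)) * (π (g i) : BH K))
        ≤ k * s * l2 (Z i - a i) + k * B i * s ^ 2 := by
    intro k
    induction k with
    | zero =>
      refine ⟨π, hπ, fun P _ => rfl, fun i => ?_⟩
      simp [n2]
    | succ k ih =>
      obtain ⟨π₁, hπ₁, hfix₁, hest₁⟩ := ih
      obtain ⟨π₂, hπ₂, hfix₂, hest₂⟩ := hflow π₁ hπ₁ s hs_nonneg hNs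
      refine ⟨π₂, hπ₂, fun P hP => (hfix₂ P hP).trans (hfix₁ P hP), fun i => ?_⟩
      have hA : repAlg π₁ (a i) = repAlg π (a i) := hfix₁ _ (ha i)
      have hAs : star (repAlg π (a i)) = repAlg π (a i) := by rw [← repAlg_gstar, has i]
      have h1 := flowOne_step π₁ π₂ hπ₁ δ (g i) (Z i) (a i) (hg i) (Kc (sg (g i))) s hs_nonneg
        hs1 (hest₂ _)
      rw [hA] at h1
      have h2 := hest₁ i
      have hexp : NormedSpace.exp ((Complex.I * (((k + 1 : ℕ) * s : ℝ) : ℂ)) • repAlg π (a i)) =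
          NormedSpace.exp ((Complex.I * (s : ℂ)) • repAlg π (a i)) *
          NormedSpace.exp ((Complex.I * ((k * s : ℝ) : ℂ)) • repAlg π (a i)) := by
        rw [← flowOne_exp_add]
        congr 4
        push_cast
        ring
      have hE := flowOne_exp_unitary (repAlg π (a i)) hAs s
      have h3 : (π₂ (g i) : BH K) -
          NormedSpace.exp ((Complex.I * (((k + 1 : ℕ) * s : ℝ) : ℂ)) • repAlg π (a i)) *
            (π (g i) : BH K) =
          ((π₂ (g i) : BH K) - NormedSpace.exp ((Complex.I * (s : ℂ)) • repAlg π (a i)) *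
            (π₁ (g i) : BH K)) +
          NormedSpace.exp ((Complex.I * (s : ℂ)) • repAlg π (a i)) * ((π₁ (g i) : BH K) -
            NormedSpace.exp ((Complex.I * ((k * s : ℝ) : ℂ)) • repAlg π (a i)) *
              (π (g i) : BH K)) := by
        rw [hexp, mul_sub, mul_assoc]
        abel
      rw [h3]
      refine (n2_add_le _ _).trans ?_
      rw [n2_unitary_mul ⟨_, hE⟩]
      have h4 : ((k + 1 : ℕ) : ℝ) = k + 1 := by push_cast; ring
      rw [h4]
      calc _ ≤ (s * l2 (Z i - a i) + B i * s ^ 2) +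
            (k * s * l2 (Z i - a i) + k * B i * s ^ 2) := add_le_add h1 h2
        _ = _ := by ring
  obtain ⟨π', hπ', hfix, hest⟩ := main N
  refine ⟨π', hπ', hfix, fun i => ?_⟩
  have hNs1 : (N : ℝ) * s = 1 := by
    rw [hs]
    field_simp
  have h := hest i
  rw [hNs1, Complex.ofReal_one, mul_one, one_mul] at h
  refine h.trans ?_
  have h5 : (N : ℝ) * B i * s ^ 2 = B i / N := by
    rw [hs]
    field_simp
  rw [h5]
  have h6 : B i / N ≤ (∑ i, B i) / N := by
    gcongr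
    exact Finset.single_le_sum (fun i _ => hB i) (Finset.mem_univ i)
  linarith

end Vale.Agent.P086
end

section

/-!
The absorption lemma: a frame `(h, u, v)` of `L(K)` can be changed into a frame `(h, u', x)` with
`‖u' - u‖₂` small such that `v` is close in 2-norm to a word in `h, u'`.
-/

open scoped InnerProductSpace

namespace Vale.Agent.P086

variable {G K : Type} [Group G] [Group K]

/-- A frame composed with an isomorphism of groups is a frame. -/
theorem Frame.comp_equiv {G' : Type} [Group G'] {π : G →* unitary (BH K)} (hπ : Frame π)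
    (e : G' ≃* G) : Frame (π.comp e.toMonoidHom) := by
  refine ⟨fun g => hπ.mem (e g), fun g hg => hπ.tr (e g) ?_, fun ξ ε hε => ?_⟩
  · intro h
    exact hg (e.injective (h.trans (map_one e).symm))
  · obtain ⟨P, hP⟩ := hπ.dense ξ ε hε
    refine ⟨P.coeff.sum fun g c => MonoidAlgebra.single (e.symm g) c, ?_⟩
    have h : repAlg (π.comp e.toMonoidHom)
        (P.coeff.sum fun g c => MonoidAlgebra.single (e.symm g) c) = repAlg π P := by
      rw [repAlg_apply π P, Finsupp.sum, map_sum]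
      refine Finset.sum_congr rfl fun g _ => ?_
      rw [repAlg_single]
      simp
    rw [h]
    exact hP

theorem absorb_Dw_mem {g : ℕ → G} {u : G} {T : Subgroup G} (hg : ∀ i, g i ∈ T) (hu : u ∈ T)
    (n : ℕ) : Dw g u n ∈ T := by
  induction n with
  | zero => exact T.one_mem
  | succ n ih => exact T.mul_mem (T.mul_mem ih (hg n)) hu

/-- The substitution `x ↦ x D⁻¹`, as an isomorphism, for a word `D` not containing `x`. -/
theorem exists_subst {β : Type} (x : β) (D : FreeGroup β)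
    (hD : D ∈ Subgroup.closure (FreeGroup.of '' {b : β | b ≠ x})) :
    ∃ e : FreeGroup β ≃* FreeGroup β, e (FreeGroup.of x) = FreeGroup.of x * D⁻¹ ∧
      ∀ b, b ≠ x → e (FreeGroup.of b) = FreeGroup.of b := by
  classical
  let φ : FreeGroup β →* FreeGroup β :=
    FreeGroup.lift fun b => if b = x then FreeGroup.of x * D⁻¹ else FreeGroup.of b
  let ψ : FreeGroup β →* FreeGroup β :=
    FreeGroup.lift fun b => if b = x then FreeGroup.of x * D else FreeGroup.of b
  have hφ : ∀ b, b ≠ x → φ (FreeGroup.of b) = FreeGroup.of b := fun b hb => by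
    simp only [φ, FreeGroup.lift_apply_of, if_neg hb]
  have hψ : ∀ b, b ≠ x → ψ (FreeGroup.of b) = FreeGroup.of b := fun b hb => by
    simp only [ψ, FreeGroup.lift_apply_of, if_neg hb]
  have hφx : φ (FreeGroup.of x) = FreeGroup.of x * D⁻¹ := by
    simp only [φ, FreeGroup.lift_apply_of, if_true]
  have hψx : ψ (FreeGroup.of x) = FreeGroup.of x * D := by
    simp only [ψ, FreeGroup.lift_apply_of, if_true]
  have hfix : ∀ θ : FreeGroup β →* FreeGroup β,
      (∀ b, b ≠ x → θ (FreeGroup.of b) = FreeGroup.of b) → θ D = D := by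
    intro θ hθ
    have : Set.EqOn θ (MonoidHom.id _) (FreeGroup.of '' {b : β | b ≠ x}) := by
      rintro _ ⟨b, hb, rfl⟩
      exact hθ b hb
    exact MonoidHom.eqOn_closure this hD
  have h1 : ψ.comp φ = MonoidHom.id _ := by
    ext b
    by_cases hb : b = x
    · subst hb
      simp only [MonoidHom.comp_apply, hφx, map_mul, map_inv, hψx, hfix ψ hψ, MonoidHom.id_apply,
        mul_inv_cancel_right]
    · simp only [MonoidHom.comp_apply, hφ b hb, hψ b hb, MonoidHom.id_apply]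
  have h2 : φ.comp ψ = MonoidHom.id _ := by
    ext b
    by_cases hb : b = x
    · subst hb
      simp only [MonoidHom.comp_apply, hφx, map_mul, hψx, hfix φ hφ, MonoidHom.id_apply,
        inv_mul_cancel_right]
    · simp only [MonoidHom.comp_apply, hφ b hb, hψ b hb, MonoidHom.id_apply]
  refine ⟨MonoidHom.toMulEquiv φ ψ h1 h2, ?_, fun b hb => ?_⟩
  · exact hφx
  · exact hφ b hb

/-- The Laurent polynomial `∑ c_k x^k` in the group algebra. -/
noncomputable def lau {β : Type} (x : β) (c : ℤ →₀ ℂ) : CG (FreeGroup β) :=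
  ∑ k ∈ c.support, MonoidAlgebra.single (FreeGroup.of x ^ k) (c k)

theorem gstar_lau {β : Type} (x : β) (c : ℤ →₀ ℂ) (hcs : ∀ k, c (-k) = star (c k)) :
    gstar (lau x c) = lau x c := by
  classical
  rw [lau, gstar_sum]
  refine Finset.sum_bij (fun k _ => -k) ?_ ?_ ?_ ?_
  · intro k hk
    rw [Finsupp.mem_support_iff] at hk ⊢
    rw [hcs]
    exact fun h => hk (star_eq_zero.mp h)
  · intro a _ b _ h
    exact neg_injective h
  · intro k hk
    refine ⟨-k, ?_, neg_neg k⟩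
    rw [Finsupp.mem_support_iff] at hk ⊢
    rw [hcs]
    exact fun h => hk (star_eq_zero.mp h)
  · intro k _
    rw [gstar_single, ← zpow_neg, hcs]

theorem single_eq_smul_sg (g : G) (c : ℂ) :
    MonoidAlgebra.single g c = c • (sg g : CG G) := by
  rw [MonoidAlgebra.smul_single, smul_eq_mul, mul_one]

theorem der_single (δ : CG G →ₗ[ℂ] CG G) (g : G) (c : ℂ) (h : δ (sg g) = 0) :
    δ (MonoidAlgebra.single g c) = 0 := by
  rw [single_eq_smul_sg, map_smul, h, smul_zero]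

theorem der_zpow (δ : CG G →ₗ[ℂ] CG G)
    (hmul : ∀ P Q, δ (P * Q) = δ P * Q + P * δ Q) (x : G) (hx : δ (sg x) = 0) (k : ℤ) :
    δ (sg (x ^ k)) = 0 :=
  der_eq_zero_of_mem_closure δ hmul {x} (fun s hs => by
      rw [Set.mem_singleton_iff.mp hs]
      exact hx) _ (Subgroup.zpow_mem _ (Subgroup.subset_closure (Set.mem_singleton x)) k)

theorem der_lau {β : Type} (x : β) (c : ℤ →₀ ℂ) (δ : CG (FreeGroup β) →ₗ[ℂ] CG (FreeGroup β))
    (hmul : ∀ P Q, δ (P * Q) = δ P * Q + P * δ Q) (hx : δ (sg (FreeGroup.of x)) = 0) :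
    δ (lau x c) = 0 := by
  rw [lau, map_sum]
  exact Finset.sum_eq_zero fun k _ => der_single δ _ _ (der_zpow δ hmul _ hx k)

omit [Group K] in
theorem repAlg_lau {β : Type} (x : β) (c : ℤ →₀ ℂ) (π : FreeGroup β →* unitary (BH K)) :
    repAlg π (lau x c) = ∑ k ∈ c.support,
        c k • ((π (FreeGroup.of x) ^ k : unitary (BH K)) : BH K) := by
  rw [lau, map_sum]
  refine Finset.sum_congr rfl fun k _ => ?_
  rw [repAlg_single, map_zpow]

theorem of_zpow_ne_one {β : Type} (x : β) (k : ℤ) (hk : k ≠ 0) : FreeGroup.of x ^ k ≠ 1 := by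
  intro h
  have h' := congrArg (FreeGroup.lift (fun _ : β => Multiplicative.ofAdd (1:ℤ))) h
  rw [map_zpow, FreeGroup.lift_apply_of, MonoidHom.map_one, ← ofAdd_zsmul] at h'
  have h'' : k • (1:ℤ) = 0 := h'
  simp only [smul_eq_mul, mul_one] at h''
  exact hk h''

theorem exp_mem_LG {T : BH K} (hT : T ∈ LG K) : NormedSpace.exp T ∈ LG K := by
  rw [NormedSpace.exp_eq_tsum ℂ]
  exact tsum_mem (s := LG K) (isClosed_LG (K := K)) fun i =>
    (LG K).smul_mem (pow_mem hT i) _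

/-- products of group algebra elements supported in a subgroup are supported in it. -/
theorem supp_mul_mem (T : Subgroup G) (P Q : CG G) (hP : ∀ F ∈ P.coeff.support, F ∈ T)
    (hQ : ∀ F ∈ Q.coeff.support, F ∈ T) : ∀ F ∈ (P * Q).coeff.support, F ∈ T := by
  classical
  intro F hF
  have h := MonoidAlgebra.support_coeff_mul_subset P Q hF
  obtain ⟨a, ha, b, hb, rfl⟩ := Finset.mem_mul.mp h
  exact T.mul_mem (hP a ha) (hQ b hb)

theorem supp_sub_one_mem (T : Subgroup G) (P : CG G) (hP : ∀ F ∈ P.coeff.support, F ∈ T) :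
    ∀ F ∈ (P - 1).coeff.support, F ∈ T := by
  classical
  intro F hF
  by_cases h1 : F = 1
  · rw [h1]; exact T.one_mem
  · apply hP
    rw [Finsupp.mem_support_iff] at hF ⊢
    intro h
    apply hF
    have : (P - 1).coeff F = P.coeff F - (1 : CG G).coeff F := rfl
    rw [this, h, MonoidAlgebra.one_def, MonoidAlgebra.coeff_single,
      Finsupp.single_apply, if_neg (fun h => h1 h.symm), sub_zero]

theorem supp_sum_sg_mem (T : Subgroup G) (F : ℕ → G) (hF : ∀ i, F i ∈ T) (n : ℕ) :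
    ∀ w ∈ (∑ k ∈ Finset.range n, sg (F k) : CG G).coeff.support, w ∈ T := by
  classical
  intro w hw
  rw [Finsupp.mem_support_iff, MonoidAlgebra.coeff_sum, Finsupp.finsetSum_apply] at hw
  obtain ⟨k, _, hk⟩ := Finset.exists_ne_zero_of_sum_ne_zero hw
  rw [MonoidAlgebra.coeff_single, Finsupp.single_apply] at hk
  split_ifs at hk with h
  · rw [← h]; exact hF k
  · exact absurd rfl hk

/-- The analytic part of the absorption lemma. -/
theorem absorb_flow {β : Type} (S : Set β) (u x : β) (hxu : x ≠ u)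
    (hSx : Subgroup.closure (FreeGroup.of '' S) ≤
      Subgroup.closure (FreeGroup.of '' {b : β | b ≠ x}))
    (g : ℕ → FreeGroup β) (n : ℕ) (f : CG (FreeGroup β)) (c : ℤ →₀ ℂ) (ε₁ : ℝ) (hε₁ : 0 < ε₁)
    (hg : ∀ i, g i ∈ Subgroup.closure (FreeGroup.of '' (S \ {u})))
    (hDp : ∀ k, Dp g (FreeGroup.of u) k ∈ Subgroup.closure (FreeGroup.of '' S))
    (hf : ∀ F ∈ f.coeff.support, F ∈ Subgroup.closure (FreeGroup.of '' S))
    (hfr : ∀ F, star (f.coeff F) = f.coeff F)
    (hf2 : l2 f ≤ ε₁)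
    (hSf : l2 ((∑ k ∈ Finset.range n, sg (Dp g (FreeGroup.of u) k)) * f - 1) ≤ ε₁)
    (hc0 : c 0 = 0) (hcs : ∀ k, c (-k) = star (c k))
    (hc2 : Real.sqrt (∑ k ∈ c.support, ‖c k‖ ^ 2) ≤ 2)
    (π₁ : FreeGroup β →* unitary (BH K)) (hF₁ : Frame π₁) :
    ∃ π' : FreeGroup β →* unitary (BH K), Frame π' ∧
      (∀ b, b ≠ u → π' (FreeGroup.of b) = π₁ (FreeGroup.of b)) ∧
      n2 ((π' (FreeGroup.of u) : BH K) - (π₁ (FreeGroup.of u) : BH K)) ≤ ε₁ * 2 + ε₁ ∧
      n2 ((π' (Dw g (FreeGroup.of u) n) : BH K) -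
        NormedSpace.exp (Complex.I • repAlg π₁ (lau x c)) *
          (π₁ (Dw g (FreeGroup.of u) n) : BH K)) ≤ ε₁ * 2 + ε₁ := by
  classical
  have hHstar : gstar (cact f (lau x c)) = cact f (lau x c) := by
    rw [gstar_cact f _ hfr, gstar_lau x c hcs]
  obtain ⟨δ, hδ, hδu, hδb⟩ := exists_goodDer u x hxu (cact f (lau x c)) hHstar
    (cact_mem_span x f c hc0)
  have hδg : ∀ i, δ (sg (g i)) = 0 := fun i =>
    der_eq_zero_of_mem_closure δ hδ.mul _ (by
      rintro _ ⟨b, hb, rfl⟩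
      exact hδb b hb.2) _ (hg i)
  have hδD := der_Dw δ hδ.mul g (FreeGroup.of u) (cact f (lau x c)) hδg hδu n
  have hδA : δ (lau x c) = 0 := der_lau x c δ hδ.mul (hδb x hxu)
  obtain ⟨π', hF', hfix, hest⟩ := flow_one δ hδ (ι := Bool)
    (fun b => cond b (FreeGroup.of u) (Dw g (FreeGroup.of u) n))
    (fun b => cond b (cact f (lau x c))
      (cact (∑ k ∈ Finset.range n, sg (Dp g (FreeGroup.of u) k)) (cact f (lau x c))))
    (fun b => cond b 0 (lau x c))
    (by rintro (_ | _)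
        · exact hδD
        · exact hδu)
    (by rintro (_ | _)
        · exact hδA
        · exact map_zero δ)
    (by rintro (_ | _)
        · exact gstar_lau x c hcs
        · simp [gstar]) π₁ hF₁ ε₁ hε₁
  have hl : ∀ s : CG (FreeGroup β),
      (∀ F ∈ s.coeff.support, F ∈ Subgroup.closure (FreeGroup.of '' S)) → l2 s ≤ ε₁ →
      l2 (cact s (lau x c)) ≤ ε₁ * 2 := by
    intro s hs hs2
    rw [lau, l2_cact x s c hc0 fun F hF => hSx (hs F hF)]
    exact mul_le_mul hs2 hc2 (Real.sqrt_nonneg _) hε₁.le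
  refine ⟨π', hF', fun b hbu => ?_, ?_, ?_⟩
  · have := hfix (sg (FreeGroup.of b)) (hδb b hbu)
    rw [repAlg_single, repAlg_single, one_smul, one_smul] at this
    exact Subtype.ext this
  · have h1 := hest true
    simp only [cond_true, map_zero, smul_zero, NormedSpace.exp_zero, one_mul, sub_zero] at h1
    exact h1.trans (add_le_add_left (hl f hf hf2) _)
  · have h1 := hest false
    simp only [cond_false] at h1
    refine h1.trans (add_le_add_left ?_ _)
    have h3 : cact (∑ k ∈ Finset.range n, sg (Dp g (FreeGroup.of u) k)) (cact f (lau x c)) -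
        lau x c = cact ((∑ k ∈ Finset.range n, sg (Dp g (FreeGroup.of u) k)) * f - 1)
          (lau x c) := by
      rw [cact_sub, cact_one, cact_mul]
    rw [h3]
    exact hl _ (supp_sub_one_mem _ _ (supp_mul_mem _ _ _ (supp_sum_sg_mem _ _ hDp n) hf)) hSf

theorem absorb {β : Type} (S : Set β) (u x : β) (hu : u ∈ S) (hx : x ∉ S) (hC : Comb S u)
    (π : FreeGroup β →* unitary (BH K)) (hπ : Frame π) (ε : ℝ) (hε : 0 < ε) :
    ∃ π' : FreeGroup β →* unitary (BH K), Frame π' ∧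
      (∀ b, b ≠ u → b ≠ x → π' (FreeGroup.of b) = π (FreeGroup.of b)) ∧
      n2 ((π' (FreeGroup.of u) : BH K) - (π (FreeGroup.of u) : BH K)) ≤ ε ∧
      ∃ D ∈ Subgroup.closure (FreeGroup.of '' S),
        n2 ((π' D : BH K) - (π (FreeGroup.of x) : BH K)) ≤ ε := by
  classical
  have hxu : x ≠ u := fun h => hx (h ▸ hu)
  have hε8 : 0 < ε / 8 := by positivity
  obtain ⟨c, hc0, hcs, hc2, hV⟩ := exists_arg (ε / 8) hε8
  obtain ⟨g, n, f, hg, hf, hfr, hf2, hSf⟩ := hC (ε / 8) hε8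
  have hSx : FreeGroup.of '' S ⊆ FreeGroup.of '' {b : β | b ≠ x} := by
    rintro _ ⟨b, hb, rfl⟩
    exact ⟨b, fun h => hx (h ▸ hb), rfl⟩
  have hSu : FreeGroup.of '' (S \ {u}) ⊆ FreeGroup.of '' S := by
    rintro _ ⟨b, hb, rfl⟩
    exact ⟨b, hb.1, rfl⟩
  have hgS : ∀ i, g i ∈ Subgroup.closure (FreeGroup.of '' S) := fun i =>
    Subgroup.closure_mono hSu (hg i)
  have huS : FreeGroup.of u ∈ Subgroup.closure (FreeGroup.of '' S) :=
    Subgroup.subset_closure ⟨u, hu, rfl⟩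
  have hDS : Dw g (FreeGroup.of u) n ∈ Subgroup.closure (FreeGroup.of '' S) :=
    absorb_Dw_mem hgS huS n
  have hDp : ∀ k, Dp g (FreeGroup.of u) k ∈ Subgroup.closure (FreeGroup.of '' S) := fun k =>
    Subgroup.mul_mem _ (absorb_Dw_mem hgS huS k) (hgS k)
  obtain ⟨e, hex, heb⟩ := exists_subst x _ (Subgroup.closure_mono hSx hDS)
  have heS : ∀ w ∈ Subgroup.closure (FreeGroup.of '' S), e w = w := by
    intro w hw
    have : Set.EqOn e.toMonoidHom (MonoidHom.id _) (FreeGroup.of '' S) := by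
      rintro _ ⟨b, hb, rfl⟩
      exact heb b fun h => hx (h ▸ hb)
    exact MonoidHom.eqOn_closure this hw
  have hF₁ : Frame (π.comp e.toMonoidHom) := hπ.comp_equiv e
  have hπ₁ap : ∀ w, (π.comp e.toMonoidHom) w = π (e w) := fun w => rfl
  obtain ⟨π', hF', hb', hu', hD'⟩ := absorb_flow S u x hxu (Subgroup.closure_mono hSx) g n f c
    (ε / 8) hε8 hg hDp hf hfr hf2 hSf hc0 hcs hc2 _ hF₁
  generalize hπ₁ : π.comp e.toMonoidHom = π₁ at *
  generalize hDdef : Dw g (FreeGroup.of u) n = D at *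
  refine ⟨π', hF', fun b hbu hbx => ?_, ?_, D, hDS, ?_⟩
  · rw [hb' b hbu, hπ₁ap, heb b hbx]
  · rw [hπ₁ap, heS _ huS] at hu'
    linarith
  · have h5 := hV K (π₁ (FreeGroup.of x)) (fun k hk => by
      have := hF₁.tr (FreeGroup.of x ^ k) (of_zpow_ne_one x k hk)
      rwa [map_zpow] at this)
    rw [← repAlg_lau] at h5
    have hXmem : NormedSpace.exp (Complex.I • repAlg π₁ (lau x c)) ∈ LG K :=
      exp_mem_LG ((LG K).smul_mem (repAlg_mem_LG π₁ hF₁.mem _) _)
    generalize hX : NormedSpace.exp (Complex.I • repAlg π₁ (lau x c)) = X at *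
    have h6 : π₁ (FreeGroup.of x) * π₁ D = π (FreeGroup.of x) := by
      rw [hπ₁ap, hπ₁ap, hex, heS D hDS, ← map_mul, inv_mul_cancel_right]
    have h6' : (π (FreeGroup.of x) : BH K) = (π₁ (FreeGroup.of x) : BH K) * (π₁ D : BH K) := by
      rw [← h6]; rfl
    have h7 : n2 (X * (π₁ D : BH K) - (π (FreeGroup.of x) : BH K)) ≤ ε / 8 := by
      rw [h6', ← sub_mul, n2_mul_unitary _ (hF₁.mem D) _ (sub_mem hXmem (hF₁.mem _))]
      exact h5
    have h8 : (π' D : BH K) - (π (FreeGroup.of x) : BH K) =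
        ((π' D : BH K) - X * (π₁ D : BH K)) + (X * (π₁ D : BH K) - (π (FreeGroup.of x) : BH K)) := by
      abel
    rw [h8]
    refine (n2_add_le _ _).trans ?_
    linarith

end Vale.Agent.P086
end

section

/-!
Task I: iteration and limit. From the absorption lemma to a frame of the smaller free group.
-/

open scoped InnerProductSpace

namespace Vale.Agent.P086

variable {G K : Type} [Group G] [Group K]

/-! ### Lipschitz estimates for words and polynomials -/

/-- the distance of the values of a word under two representations is controlled by the distance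
on the letters. -/
theorem lim_word {β : Type} (T : Set β) (g : FreeGroup β)
    (hg : g ∈ Subgroup.closure (FreeGroup.of '' T)) :
    ∃ L : ℝ, 0 ≤ L ∧ ∀ (K : Type) [Group K] (π₁ π₂ : FreeGroup β →* unitary (BH K)),
      (∀ g, (π₁ g : BH K) ∈ LG K) → (∀ g, (π₂ g : BH K) ∈ LG K) → ∀ ε : ℝ, 0 ≤ ε →
      (∀ b ∈ T, n2 ((π₁ (FreeGroup.of b) : BH K) - (π₂ (FreeGroup.of b) : BH K)) ≤ ε) →
      n2 ((π₁ g : BH K) - (π₂ g : BH K)) ≤ L * ε := by
  induction hg using Subgroup.closure_induction with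
  | mem x hx =>
    obtain ⟨b, hb, rfl⟩ := hx
    exact ⟨1, zero_le_one, fun K _ π₁ π₂ _ _ ε _ h => by rw [one_mul]; exact h b hb⟩
  | one =>
    refine ⟨0, le_rfl, fun K _ π₁ π₂ _ _ ε _ _ => ?_⟩
    rw [map_one, map_one, sub_self, zero_mul]
    simp [n2]
  | mul x y _ _ hx hy =>
    obtain ⟨L, hL, h1⟩ := hx
    obtain ⟨M, hM, h2⟩ := hy
    refine ⟨L + M, add_nonneg hL hM, fun K _ π₁ π₂ m₁ m₂ ε hε h => ?_⟩
    have e : ((π₁ (x * y) : unitary (BH K)) : BH K) - (π₂ (x * y) : BH K)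
        = ((π₁ x : BH K) - (π₂ x : BH K)) * (π₁ y : BH K)
          + (π₂ x : BH K) * ((π₁ y : BH K) - (π₂ y : BH K)) := by
      rw [map_mul, map_mul, Submonoid.coe_mul, Submonoid.coe_mul, sub_mul, mul_sub]
      abel
    rw [e]
    refine (n2_add_le _ _).trans ?_
    rw [n2_mul_unitary _ (m₁ y) _ (sub_mem (m₁ x) (m₂ x)), n2_unitary_mul, add_mul]
    exact add_le_add (h1 K π₁ π₂ m₁ m₂ ε hε h) (h2 K π₁ π₂ m₁ m₂ ε hε h)
  | inv x _ hx =>
    obtain ⟨L, hL, h1⟩ := hx
    refine ⟨L, hL, fun K _ π₁ π₂ m₁ m₂ ε hε h => ?_⟩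
    have e : ((π₁ x⁻¹ : unitary (BH K)) : BH K) - (π₂ x⁻¹ : BH K)
        = star ((π₁ x : BH K) - (π₂ x : BH K)) := by
      rw [map_inv, map_inv, star_sub]
      rfl
    rw [e, n2_star _ (sub_mem (m₁ x) (m₂ x))]
    exact h1 K π₁ π₂ m₁ m₂ ε hε h

theorem lim_n2_sum_le {ι : Type} (s : Finset ι) (F : ι → BH K) :
    n2 (∑ i ∈ s, F i) ≤ ∑ i ∈ s, n2 (F i) := by
  classical
  induction s using Finset.induction_on with
  | empty => simp [n2]
  | insert a s ha ih =>
    rw [Finset.sum_insert ha, Finset.sum_insert ha]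
    exact (n2_add_le _ _).trans (by gcongr)

theorem lim_poly {β : Type} (T : Set β) (P : CG (FreeGroup β))
    (hP : ∀ g ∈ P.coeff.support, g ∈ Subgroup.closure (FreeGroup.of '' T)) :
    ∃ L : ℝ, 0 ≤ L ∧ ∀ (K : Type) [Group K] (π₁ π₂ : FreeGroup β →* unitary (BH K)),
      (∀ g, (π₁ g : BH K) ∈ LG K) → (∀ g, (π₂ g : BH K) ∈ LG K) → ∀ ε : ℝ, 0 ≤ ε →
      (∀ b ∈ T, n2 ((π₁ (FreeGroup.of b) : BH K) - (π₂ (FreeGroup.of b) : BH K)) ≤ ε) →
      n2 (repAlg π₁ P - repAlg π₂ P) ≤ L * ε := by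
  choose! L hL h using fun g (hg : g ∈ P.coeff.support) => lim_word T g (hP g hg)
  refine ⟨∑ g ∈ P.coeff.support, ‖P.coeff g‖ * L g,
    Finset.sum_nonneg fun g hg => mul_nonneg (norm_nonneg _) (hL g hg),
    fun K _ π₁ π₂ m₁ m₂ ε hε hb => ?_⟩
  rw [repAlg_apply, repAlg_apply, ← Finset.sum_sub_distrib, Finset.sum_mul]
  refine (lim_n2_sum_le _ _).trans (Finset.sum_le_sum fun g hg => ?_)
  rw [← smul_sub, n2_smul, mul_assoc]
  gcongr
  exact h g hg K π₁ π₂ m₁ m₂ ε hε hb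

/-- every word uses finitely many letters -/
theorem lim_letters {β : Type} (g : FreeGroup β) :
    ∃ T : Finset β, g ∈ Subgroup.closure (FreeGroup.of '' (T : Set β)) := by
  classical
  have hmono : ∀ T T' : Finset β, T ⊆ T' →
      Subgroup.closure (FreeGroup.of '' (T : Set β)) ≤
        Subgroup.closure (FreeGroup.of '' (T' : Set β)) := fun T T' h =>
    Subgroup.closure_mono (Set.image_mono (by exact_mod_cast h))
  induction g using FreeGroup.induction_on with
  | C1 => exact ⟨∅, one_mem _⟩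
  | of b => exact ⟨{b}, Subgroup.subset_closure ⟨b, by simp, rfl⟩⟩
  | inv_of b hb =>
    obtain ⟨T, hT⟩ := hb
    exact ⟨T, inv_mem hT⟩
  | mul x y hx hy =>
    obtain ⟨T, hT⟩ := hx
    obtain ⟨T', hT'⟩ := hy
    exact ⟨T ∪ T', mul_mem (hmono _ _ Finset.subset_union_left hT)
      (hmono _ _ Finset.subset_union_right hT')⟩

theorem lim_letters_poly {β : Type} {ι : Type} (s : Finset ι) (P : ι → CG (FreeGroup β)) :
    ∃ T : Finset β, ∀ i ∈ s, ∀ g ∈ (P i).coeff.support,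
      g ∈ Subgroup.closure (FreeGroup.of '' (T : Set β)) := by
  classical
  choose T hT using fun g : FreeGroup β => lim_letters g
  refine ⟨s.biUnion fun i => (P i).coeff.support.biUnion T, fun i hi g hg => ?_⟩
  refine Subgroup.closure_mono (Set.image_mono ?_) (hT g)
  intro b hb
  simp only [Finset.coe_biUnion, Set.mem_iUnion]
  exact ⟨i, hi, g, hg, hb⟩

/-! ### Absorbing finitely many letters -/

/-- The statement of the absorption lemma (theorem `absorb` of `Iso/Absorb.lean`). -/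
def AbsorbStmt (K : Type) [Group K] : Prop :=
  ∀ (β : Type) (S : Set β) (u x : β), u ∈ S → x ∉ S → Comb S u →
    ∀ π : FreeGroup β →* unitary (BH K), Frame π → ∀ ε : ℝ, 0 < ε →
    ∃ π' : FreeGroup β →* unitary (BH K), Frame π' ∧
      (∀ b, b ≠ u → b ≠ x → π' (FreeGroup.of b) = π (FreeGroup.of b)) ∧
      n2 ((π' (FreeGroup.of u) : BH K) - (π (FreeGroup.of u) : BH K)) ≤ ε ∧
      ∃ D ∈ Subgroup.closure (FreeGroup.of '' S),
        n2 ((π' D : BH K) - (π (FreeGroup.of x) : BH K)) ≤ ε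

/-- strengthened form, for the induction -/
theorem lim_absorb_finset (hA : AbsorbStmt K) {β : Type} (S : Set β) (u : β) (hu : u ∈ S) (hC : Comb S u)
    (J : Finset β) (hJ : ∀ x ∈ J, x ∉ S)
    (π : FreeGroup β →* unitary (BH K)) (hπ : Frame π) (ε : ℝ) (hε : 0 < ε) :
    ∃ π' : FreeGroup β →* unitary (BH K), Frame π' ∧
      (∀ b, b ≠ u → b ∉ J → π' (FreeGroup.of b) = π (FreeGroup.of b)) ∧
      n2 ((π' (FreeGroup.of u) : BH K) - (π (FreeGroup.of u) : BH K)) ≤ ε ∧
      ∀ x ∈ J, ∃ D ∈ Subgroup.closure (FreeGroup.of '' S),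
        n2 ((π' D : BH K) - (π (FreeGroup.of x) : BH K)) ≤ ε := by
  classical
  induction J using Finset.induction_on generalizing ε with
  | empty =>
    exact ⟨π, hπ, fun b _ _ => rfl, by rw [sub_self]; simpa [n2] using hε.le, by simp⟩
  | insert x J hxJ ih =>
    obtain ⟨π₁, hπ₁, h1, h2, h3⟩ := ih (fun y hy => hJ y (Finset.mem_insert_of_mem hy))
      (ε / 2) (half_pos hε)
    choose! D hD hDn using h3
    choose! L hL hLip using fun y (hy : y ∈ J) => lim_word S (D y) (hD y hy)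
    have hM : 0 ≤ ∑ y ∈ J, L y := Finset.sum_nonneg hL
    obtain ⟨ε', hε', hεle, hLε⟩ : ∃ ε' : ℝ, 0 < ε' ∧ ε' ≤ ε / 2 ∧ ∀ y ∈ J, L y * ε' ≤ ε / 2 := by
      refine ⟨ε / 2 / (1 + ∑ y ∈ J, L y), by positivity, ?_, fun y hy => ?_⟩
      · exact div_le_self (half_pos hε).le (by linarith)
      · rw [mul_div_assoc', div_le_iff₀ (by positivity), mul_comm]
        have : L y ≤ ∑ y ∈ J, L y := Finset.single_le_sum hL hy
        have h0 := half_pos hε
        nlinarith
    have hxS := hJ x (Finset.mem_insert_self x J)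
    have hxu : x ≠ u := fun h => hxS (h ▸ hu)
    obtain ⟨π₂, hπ₂, k1, k2, Dx, hDx, k3⟩ := hA β S u x hu hxS hC π₁ hπ₁ ε' hε'
    refine ⟨π₂, hπ₂, fun b hb hbJ => ?_, ?_, fun y hy => ?_⟩
    · rw [Finset.mem_insert, not_or] at hbJ
      rw [k1 b hb hbJ.1, h1 b hb hbJ.2]
    · have e : (π₂ (FreeGroup.of u) : BH K) - (π (FreeGroup.of u) : BH K)
          = ((π₂ (FreeGroup.of u) : BH K) - (π₁ (FreeGroup.of u) : BH K))
            + ((π₁ (FreeGroup.of u) : BH K) - (π (FreeGroup.of u) : BH K)) := by abel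
      rw [e]
      refine (n2_add_le _ _).trans ?_
      linarith
    · rcases Finset.mem_insert.mp hy with rfl | hyJ
      · refine ⟨Dx, hDx, ?_⟩
        rw [← h1 y hxu hxJ]
        linarith
      · refine ⟨D y, hD y hyJ, ?_⟩
        have e : (π₂ (D y) : BH K) - (π (FreeGroup.of y) : BH K)
            = ((π₂ (D y) : BH K) - (π₁ (D y) : BH K))
              + ((π₁ (D y) : BH K) - (π (FreeGroup.of y) : BH K)) := by abel
        rw [e]
        refine (n2_add_le _ _).trans ?_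
        have h4 := hLip y hyJ K π₂ π₁ hπ₂.mem hπ₁.mem ε' hε'.le (fun b hb => by
          by_cases hbu : b = u
          · rw [hbu]
            exact k2
          · rw [k1 b hbu (fun h => hxS (h ▸ hb)), sub_self]
            simpa [n2] using hε'.le)
        linarith [hLε y hyJ, hDn y hyJ]

/-- finitely many letters outside `S` absorbed, for a small change of `u`. -/
theorem absorb_finset_of (hA : AbsorbStmt K) {β : Type} (S : Set β) (u : β) (hu : u ∈ S) (hC : Comb S u)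
    (J : Finset β) (hJ : ∀ x ∈ J, x ∉ S)
    (π : FreeGroup β →* unitary (BH K)) (hπ : Frame π) (ε : ℝ) (hε : 0 < ε) :
    ∃ π' : FreeGroup β →* unitary (BH K), Frame π' ∧
      (∀ b ∈ S, b ≠ u → π' (FreeGroup.of b) = π (FreeGroup.of b)) ∧
      n2 ((π' (FreeGroup.of u) : BH K) - (π (FreeGroup.of u) : BH K)) ≤ ε ∧
      ∀ x ∈ J, ∃ D ∈ Subgroup.closure (FreeGroup.of '' S),
        n2 ((π' D : BH K) - (π (FreeGroup.of x) : BH K)) ≤ ε := by
  obtain ⟨π', h1, h2, h3, h4⟩ := lim_absorb_finset hA S u hu hC J hJ π hπ ε hε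
  exact ⟨π', h1, fun b hb hbu => h2 b hbu fun h => hJ b h hb, h3, h4⟩

/-! ### One step of the iteration -/

theorem lim_repAlg_comp {G H A : Type} [Group G] [Group H] [CStarAlgebra A] (θ : G →* H)
    (π : H →* unitary A) (P : CG G) :
    repAlg (π.comp θ) P = repAlg π (MonoidAlgebra.mapDomainAlgHom ℂ ℂ θ P) := by
  have h : ∀ s : Finset G, repAlg (π.comp θ) (∑ g ∈ s, MonoidAlgebra.single g (P.coeff g)) =
      repAlg π (MonoidAlgebra.mapDomainAlgHom ℂ ℂ θ
        (∑ g ∈ s, MonoidAlgebra.single g (P.coeff g))) := by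
    intro s
    rw [map_sum, map_sum, map_sum]
    refine Finset.sum_congr rfl fun g _ => ?_
    rw [repAlg_single, MonoidAlgebra.mapDomainAlgHom_apply, MonoidAlgebra.mapDomain_single,
      repAlg_single]
    rfl
  have h2 := h P.coeff.support
  rwa [← CG_eq_sum P] at h2

theorem lim_closure_range {γ κ : Type} (D : FreeGroup (γ ⊕ κ))
    (hD : D ∈ Subgroup.closure (FreeGroup.of '' Set.range (Sum.inl : γ → γ ⊕ κ))) :
    ∃ E : FreeGroup γ, FreeGroup.map Sum.inl E = D := by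
  have h : Subgroup.closure (FreeGroup.of '' Set.range (Sum.inl : γ → γ ⊕ κ)) ≤
      (FreeGroup.map (Sum.inl : γ → γ ⊕ κ)).range := by
    rw [Subgroup.closure_le]
    rintro _ ⟨_, ⟨c, rfl⟩, rfl⟩
    exact ⟨FreeGroup.of c, FreeGroup.map.of⟩
  exact h hD

theorem lim_step (hA : AbsorbStmt K) {γ κ : Type} (u : γ)
    (hC : Comb (Set.range (Sum.inl : γ → γ ⊕ κ)) (Sum.inl u)) (gs : ℕ → K)
    (π : FreeGroup (γ ⊕ κ) →* unitary (BH K)) (hπ : Frame π) (η : ℝ) (hη : 0 < η) (k : ℕ) :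
    ∃ (π' : FreeGroup (γ ⊕ κ) →* unitary (BH K)) (η' : ℝ), Frame π' ∧ 0 < η' ∧ η' ≤ η / 2 ∧
      (∀ b : γ, b ≠ u → π' (FreeGroup.of (Sum.inl b)) = π (FreeGroup.of (Sum.inl b))) ∧
      n2 ((π' (FreeGroup.of (Sum.inl u)) : BH K) - (π (FreeGroup.of (Sum.inl u)) : BH K))
        ≤ η / 2 ∧
      ∀ σ : FreeGroup γ →* unitary (BH K), (∀ g, (σ g : BH K) ∈ LG K) →
        (∀ b, b ≠ u → σ (FreeGroup.of b) = π (FreeGroup.of (Sum.inl b))) →
        n2 ((σ (FreeGroup.of u) : BH K) - (π' (FreeGroup.of (Sum.inl u)) : BH K)) ≤ η' →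
        ∀ i < k, ∃ P : CG (FreeGroup γ), ‖repAlg σ P (dl 1) - dl (gs i)‖ ≤ 1 / (k + 1 : ℝ) := by
  classical
  have hk : (0 : ℝ) < 1 / (3 * (k + 1 : ℝ)) := by positivity
  choose P hP using fun i : ℕ => hπ.dense (dl (gs i)) (1 / (3 * (k + 1 : ℝ))) hk
  obtain ⟨T, hT⟩ := lim_letters_poly (Finset.range k) P
  choose! L hL hLip using fun i (hi : i ∈ Finset.range k) => lim_poly (T : Set (γ ⊕ κ)) (P i)
    (hT i hi)
  have hsum : 0 ≤ ∑ i ∈ Finset.range k, L i := Finset.sum_nonneg hL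
  obtain ⟨ε, hε, hεη, hLε⟩ : ∃ ε : ℝ, 0 < ε ∧ ε ≤ η / 2 ∧
      ∀ i ∈ Finset.range k, L i * ε ≤ 1 / (3 * (k + 1 : ℝ)) := by
    refine ⟨min (η / 2) (1 / (3 * (k + 1 : ℝ)) / (1 + ∑ i ∈ Finset.range k, L i)),
      lt_min (half_pos hη) (by positivity), min_le_left _ _, fun i hi => ?_⟩
    have h1 : L i ≤ ∑ i ∈ Finset.range k, L i := Finset.single_le_sum hL hi
    calc L i * min (η / 2) (1 / (3 * (k + 1 : ℝ)) / (1 + ∑ i ∈ Finset.range k, L i))
        ≤ (1 + ∑ i ∈ Finset.range k, L i) *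
          (1 / (3 * (k + 1 : ℝ)) / (1 + ∑ i ∈ Finset.range k, L i)) :=
          mul_le_mul (by linarith) (min_le_right _ _)
            (le_min (half_pos hη).le (by positivity)) (by linarith)
      _ = 1 / (3 * (k + 1 : ℝ)) := mul_div_cancel₀ _ (by positivity)
  obtain ⟨π', hπ', h1, h2, h3⟩ := absorb_finset_of hA (Set.range (Sum.inl : γ → γ ⊕ κ)) (Sum.inl u)
    ⟨u, rfl⟩ hC (T.filter fun b => b ∉ Set.range (Sum.inl : γ → γ ⊕ κ))
    (fun x hx => (Finset.mem_filter.mp hx).2) π hπ ε hε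
  choose! D hD hDn using h3
  have hE' : ∀ x ∈ T.filter (fun b => b ∉ Set.range (Sum.inl : γ → γ ⊕ κ)),
      ∃ E : FreeGroup γ, FreeGroup.map Sum.inl E = D x := fun x hx =>
    lim_closure_range (D x) (hD x hx)
  choose! E hE using hE'
  let θ : FreeGroup (γ ⊕ κ) →* FreeGroup γ :=
    FreeGroup.lift (Sum.elim FreeGroup.of fun x => E (Sum.inr x))
  let τ : FreeGroup γ →* unitary (BH K) := π'.comp (FreeGroup.map Sum.inl)
  have hτm : ∀ g, (τ g : BH K) ∈ LG K := fun g => hπ'.mem _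
  have hτof : ∀ b, τ (FreeGroup.of b) = π' (FreeGroup.of (Sum.inl b)) := fun b => by
    change π' (FreeGroup.map Sum.inl (FreeGroup.of b)) = _
    rw [FreeGroup.map.of]
  have hlet : ∀ b ∈ (T : Set (γ ⊕ κ)),
      n2 (((τ.comp θ) (FreeGroup.of b) : BH K) - (π (FreeGroup.of b) : BH K)) ≤ ε := by
    intro b hb
    rcases b with c | x
    · have e : (τ.comp θ) (FreeGroup.of (Sum.inl c)) = π' (FreeGroup.of (Sum.inl c)) := by
        change τ (θ (FreeGroup.of (Sum.inl c))) = _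
        rw [← hτof]
        congr 1
      rw [e]
      by_cases hc : c = u
      · rw [hc]
        exact h2
      · rw [h1 (Sum.inl c) ⟨c, rfl⟩ (fun h => hc (Sum.inl_injective h)), sub_self, n2_zero]
        exact hε.le
    · have hx : (Sum.inr x : γ ⊕ κ) ∈ T.filter
          (fun b => b ∉ Set.range (Sum.inl : γ → γ ⊕ κ)) := by
        rw [Finset.mem_filter]
        refine ⟨by exact_mod_cast hb, ?_⟩
        rintro ⟨c, hc⟩
        cases hc
      have e : (τ.comp θ) (FreeGroup.of (Sum.inr x)) = π' (D (Sum.inr x)) := by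
        change π' (FreeGroup.map Sum.inl (θ (FreeGroup.of (Sum.inr x)))) = _
        rw [← hE _ hx]
        congr 2
        exact FreeGroup.lift_apply_of
      rw [e]
      exact hDn _ hx
  let Q : ℕ → CG (FreeGroup γ) := fun i => MonoidAlgebra.mapDomainAlgHom ℂ ℂ θ (P i)
  have hQ : ∀ i ∈ Finset.range k,
      n2 (repAlg τ (Q i) - repAlg π (P i)) ≤ 1 / (3 * (k + 1 : ℝ)) := by
    intro i hi
    have h4 := hLip i hi K (τ.comp θ) π (fun g => hτm _) hπ.mem ε hε.le hlet
    rw [lim_repAlg_comp] at h4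
    exact h4.trans (hLε i hi)
  have htop : ∀ (i : ℕ) (g : FreeGroup γ), g ∈ (Q i).coeff.support →
      g ∈ Subgroup.closure (FreeGroup.of '' (Set.univ : Set γ)) := fun i g _ => by
    rw [Set.image_univ, FreeGroup.closure_range_of]
    exact Subgroup.mem_top g
  choose M hM hMip using fun i => lim_poly (Set.univ : Set γ) (Q i) (htop i)
  have hsumM : 0 ≤ ∑ i ∈ Finset.range k, M i := Finset.sum_nonneg fun i _ => hM i
  obtain ⟨η', hη', hη'η, hMη⟩ : ∃ ε : ℝ, 0 < ε ∧ ε ≤ η / 2 ∧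
      ∀ i ∈ Finset.range k, M i * ε ≤ 1 / (3 * (k + 1 : ℝ)) := by
    refine ⟨min (η / 2) (1 / (3 * (k + 1 : ℝ)) / (1 + ∑ i ∈ Finset.range k, M i)),
      lt_min (half_pos hη) (by positivity), min_le_left _ _, fun i hi => ?_⟩
    have h1 : M i ≤ ∑ i ∈ Finset.range k, M i := Finset.single_le_sum (fun i _ => hM i) hi
    calc M i * min (η / 2) (1 / (3 * (k + 1 : ℝ)) / (1 + ∑ i ∈ Finset.range k, M i))
        ≤ (1 + ∑ i ∈ Finset.range k, M i) *
          (1 / (3 * (k + 1 : ℝ)) / (1 + ∑ i ∈ Finset.range k, M i)) :=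
          mul_le_mul (by linarith) (min_le_right _ _)
            (le_min (half_pos hη).le (by positivity)) (by linarith)
      _ = 1 / (3 * (k + 1 : ℝ)) := mul_div_cancel₀ _ (by positivity)
  refine ⟨π', η', hπ', hη', hη'η, fun b hb => h1 _ ⟨b, rfl⟩ fun h => hb (Sum.inl_injective h),
    h2.trans hεη, fun σ hσ hσb hσu i hi => ⟨Q i, ?_⟩⟩
  have hi' : i ∈ Finset.range k := Finset.mem_range.mpr hi
  have h5 := hMip i K σ τ hσ hτm η' hη'.le (fun b _ => by
    rw [hτof]
    by_cases hb : b = u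
    · rw [hb]
      exact hσu
    · rw [hσb b hb, h1 _ ⟨b, rfl⟩ (fun h => hb (Sum.inl_injective h)), sub_self, n2_zero]
      exact hη'.le)
  have h6 := hQ i hi'
  have h7 := hP i
  have e : repAlg σ (Q i) (dl 1) - dl (gs i) =
      (repAlg σ (Q i) - repAlg τ (Q i)) (dl 1) + ((repAlg τ (Q i) - repAlg π (P i)) (dl 1)
        + (repAlg π (P i) (dl 1) - dl (gs i))) := by
    rw [sub_apply, sub_apply]
    abel
  rw [e]
  refine (norm_add_le _ _).trans ?_
  have h8 := norm_add_le ((repAlg τ (Q i) - repAlg π (P i)) (dl 1))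
    (repAlg π (P i) (dl 1) - dl (gs i))
  have h9 : ‖(repAlg σ (Q i) - repAlg τ (Q i)) (dl 1)‖ ≤ 1 / (3 * (k + 1 : ℝ)) :=
    h5.trans (hMη i hi')
  have h10 : ‖(repAlg τ (Q i) - repAlg π (P i)) (dl 1)‖ ≤ 1 / (3 * (k + 1 : ℝ)) := h6
  have h11 : 1 / (k + 1 : ℝ) = 1 / (3 * (k + 1 : ℝ)) + (1 / (3 * (k + 1 : ℝ)) +
    1 / (3 * (k + 1 : ℝ))) := by
    have : (k + 1 : ℝ) ≠ 0 := by positivity
    field_simp
    norm_num
  rw [h11]
  linarith

/-! ### Strong limits -/

theorem lim_norm_sub_dl {S T : BH K} (hS : S ∈ LG K) (hT : T ∈ LG K) (g : K) :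
    ‖(S - T) (dl g)‖ = n2 (S - T) := by
  rw [LG_apply_dl (sub_mem hS hT) g, rho, norm_permOp_apply, n2]

theorem lim_cauchy (T : ℕ → BH K) (hm : ∀ k, T k ∈ LG K) (hb : ∀ k, ‖T k‖ ≤ 1)
    (η : ℕ → ℝ) (hη : Filter.Tendsto η Filter.atTop (nhds 0))
    (hc : ∀ k l, k ≤ l → n2 (T l - T k) ≤ η k) (ξ : Ell2 K) :
    CauchySeq fun k => T k ξ := by
  classical
  rw [Metric.cauchySeq_iff']
  intro ε hε
  have h1 := lp.hasSum_single (p := 2) (by norm_num) ξ
  rw [HasSum, Metric.tendsto_nhds] at h1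
  obtain ⟨s, hs⟩ := (h1 (ε / 3) (by positivity)).exists
  set ζ : Ell2 K := ∑ i ∈ s, lp.single 2 i (ξ i) with hζ
  have hζ' : ζ = ∑ i ∈ s, ξ i • dl i := by
    rw [hζ]
    refine Finset.sum_congr rfl fun i _ => ?_
    ext j
    simp only [dl, lp.coeFn_smul, Pi.smul_apply, lp.coeFn_single, Pi.single_apply, smul_eq_mul]
    split_ifs <;> simp
  set C : ℝ := ∑ i ∈ s, ‖ξ i‖ with hC
  have hC0 : 0 ≤ C := Finset.sum_nonneg fun i _ => norm_nonneg _
  have h2 : Filter.Tendsto (fun k => C * η k) Filter.atTop (nhds 0) := by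
    simpa using hη.const_mul C
  obtain ⟨N, hN⟩ := (h2.eventually (gt_mem_nhds (show (0 : ℝ) < ε / 3 by positivity))).exists
  refine ⟨N, fun n hn => ?_⟩
  have h3 : ‖(T n - T N) ζ‖ ≤ C * η N := by
    rw [hζ', map_sum, hC, Finset.sum_mul]
    refine (norm_sum_le _ _).trans (Finset.sum_le_sum fun i _ => ?_)
    rw [map_smul, norm_smul, lim_norm_sub_dl (hm n) (hm N)]
    exact mul_le_mul_of_nonneg_left (hc N n hn) (norm_nonneg _)
  have h4 : ∀ k, ‖T k (ξ - ζ)‖ ≤ ‖ξ - ζ‖ := fun k =>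
    ((T k).le_opNorm _).trans (mul_le_of_le_one_left (norm_nonneg _) (hb k))
  have h5 : ‖ξ - ζ‖ < ε / 3 := by
    rw [← dist_eq_norm, dist_comm]
    exact hs
  rw [dist_eq_norm]
  have e : T n ξ - T N ξ = T n (ξ - ζ) + (T n - T N) ζ - T N (ξ - ζ) := by
    rw [map_sub, map_sub, sub_apply]
    abel
  rw [e]
  have h6 := norm_sub_le (T n (ξ - ζ) + (T n - T N) ζ) (T N (ξ - ζ))
  have h7 := norm_add_le (T n (ξ - ζ)) ((T n - T N) ζ)
  have h8 := h4 n
  have h9 := h4 N
  linarith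

theorem lim_mem_LG (T : ℕ → BH K) (hm : ∀ k, T k ∈ LG K) (V : BH K)
    (hV : ∀ ξ, Filter.Tendsto (fun k => T k ξ) Filter.atTop (nhds (V ξ))) : V ∈ LG K := by
  have key : ∀ y : BH K, (∀ k, y * T k = T k * y) → y * V = V * y := by
    intro y hy
    ext1 ξ
    have h1 : Filter.Tendsto (fun k => y (T k ξ)) Filter.atTop (nhds (y (V ξ))) :=
      (y.continuous.tendsto _).comp (hV ξ)
    have h2 : Filter.Tendsto (fun k => y (T k ξ)) Filter.atTop (nhds (V (y ξ))) := by
      refine (hV (y ξ)).congr fun k => ?_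
      exact (congrArg (fun S : BH K => S ξ) (hy k)).symm
    exact tendsto_nhds_unique h1 h2
  rw [LG, vNA, StarSubalgebra.mem_centralizer_iff]
  intro y hy
  have h : ∀ k, y * T k = T k * y ∧ star y * T k = T k * star y := by
    intro k
    have hk := hm k
    rw [LG, vNA, StarSubalgebra.mem_centralizer_iff] at hk
    exact hk y hy
  exact ⟨key y fun k => (h k).1, key (star y) fun k => (h k).2⟩

theorem lim_strong (T : ℕ → BH K) (hm : ∀ k, T k ∈ LG K) (hb : ∀ k, ‖T k‖ ≤ 1)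
    (η : ℕ → ℝ) (hη : Filter.Tendsto η Filter.atTop (nhds 0))
    (hc : ∀ k l, k ≤ l → n2 (T l - T k) ≤ η k) :
    ∃ V : BH K, V ∈ LG K ∧
      ∀ ξ, Filter.Tendsto (fun k => T k ξ) Filter.atTop (nhds (V ξ)) := by
  choose f hf using fun ξ => cauchySeq_tendsto_of_complete (lim_cauchy T hm hb η hη hc ξ)
  have hf' : Filter.Tendsto (fun k ξ => T k ξ) Filter.atTop (nhds f) :=
    tendsto_pi_nhds.mpr hf
  let V : BH K := continuousLinearMapOfTendsto T hf'
  have hV : ∀ ξ, Filter.Tendsto (fun k => T k ξ) Filter.atTop (nhds (V ξ)) := hf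
  exact ⟨V, lim_mem_LG T hm V hV, hV⟩

theorem lim_unitary (U : ℕ → unitary (BH K)) (hm : ∀ k, (U k : BH K) ∈ LG K)
    (η : ℕ → ℝ) (hη : Filter.Tendsto η Filter.atTop (nhds 0))
    (hc : ∀ k l, k ≤ l → n2 ((U l : BH K) - (U k : BH K)) ≤ η k) :
    ∃ V : unitary (BH K), (V : BH K) ∈ LG K ∧ ∀ k, n2 ((V : BH K) - (U k : BH K)) ≤ η k := by
  have hb : ∀ W : unitary (BH K), ‖(W : BH K)‖ ≤ 1 := fun W =>
    ContinuousLinearMap.opNorm_le_bound _ zero_le_one fun ξ => by
      rw [norm_unitary_apply, one_mul]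
  obtain ⟨V, hVm, hV⟩ := lim_strong (fun k => (U k : BH K)) hm (fun k => hb (U k)) η hη hc
  obtain ⟨W, hWm, hW⟩ := lim_strong (fun k => star (U k : BH K)) (fun k => star_mem (hm k))
    (fun k => hb (star (U k))) η hη (fun k l hkl => by
      rw [← star_sub, n2_star _ (sub_mem (hm l) (hm k))]
      exact hc k l hkl)
  have hWV : W = star V := by
    rw [ContinuousLinearMap.star_eq_adjoint, ContinuousLinearMap.eq_adjoint_iff]
    intro x y
    have h1 : Filter.Tendsto (fun k => ⟪star (U k : BH K) x, y⟫_ℂ) Filter.atTop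
        (nhds ⟪W x, y⟫_ℂ) := (hW x).inner tendsto_const_nhds
    have h2 : Filter.Tendsto (fun k => ⟪star (U k : BH K) x, y⟫_ℂ) Filter.atTop
        (nhds ⟪x, V y⟫_ℂ) := by
      refine (Filter.Tendsto.inner tendsto_const_nhds (hV y)).congr fun k => ?_
      rw [ContinuousLinearMap.star_eq_adjoint, ContinuousLinearMap.adjoint_inner_left]
    exact tendsto_nhds_unique h1 h2
  have hprod : ∀ (A B : ℕ → BH K) (A' B' : BH K), (∀ k, ‖A k‖ ≤ 1) →
      (∀ ξ, Filter.Tendsto (fun k => A k ξ) Filter.atTop (nhds (A' ξ))) →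
      (∀ ξ, Filter.Tendsto (fun k => B k ξ) Filter.atTop (nhds (B' ξ))) →
      (∀ k, A k * B k = 1) → A' * B' = 1 := by
    intro A B A' B' hA1 hA hB hAB
    ext1 ξ
    have h1 : Filter.Tendsto (fun k => A k (B' ξ)) Filter.atTop (nhds (A' (B' ξ))) := hA (B' ξ)
    have h2 : Filter.Tendsto (fun k => A k (B k ξ) - A k (B' ξ)) Filter.atTop (nhds 0) := by
      rw [tendsto_zero_iff_norm_tendsto_zero]
      have h3 : Filter.Tendsto (fun k => ‖B k ξ - B' ξ‖) Filter.atTop (nhds 0) := by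
        rw [← tendsto_zero_iff_norm_tendsto_zero]
        simpa using (hB ξ).sub_const (B' ξ)
      refine squeeze_zero (fun _ => norm_nonneg _) (fun k => ?_) h3
      rw [← map_sub]
      exact ((A k).le_opNorm _).trans (mul_le_of_le_one_left (norm_nonneg _) (hA1 k))
    have h4 : Filter.Tendsto (fun k => A k (B k ξ)) Filter.atTop (nhds (A' (B' ξ))) := by
      simpa using h2.add h1
    have h5 : Filter.Tendsto (fun k => A k (B k ξ)) Filter.atTop (nhds ξ) := by
      refine tendsto_const_nhds.congr fun k => ?_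
      exact (congrArg (fun S : BH K => S ξ) (hAB k)).symm
    exact tendsto_nhds_unique h4 h5
  have hVu : V ∈ unitary (BH K) := by
    rw [Unitary.mem_iff, ← hWV]
    exact ⟨hprod _ _ W V (fun k => hb (star (U k))) hW hV
        (fun k => Unitary.coe_star_mul_self (U k)),
      hprod _ _ V W (fun k => hb (U k)) hV hW (fun k => Unitary.coe_mul_star_self (U k))⟩
  refine ⟨⟨V, hVu⟩, hVm, fun k => ?_⟩
  have h1 : Filter.Tendsto (fun l => n2 ((U l : BH K) - (U k : BH K))) Filter.atTop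
      (nhds (n2 (V - (U k : BH K)))) := by
    simp only [n2, sub_apply]
    exact ((hV (dl 1)).sub_const _).norm
  exact le_of_tendsto h1 (Filter.eventually_atTop.mpr ⟨k, fun l hl => hc k l hl⟩)

/-! ### The limit frame -/

theorem lim_dense {G : Type} [Group G] (σ : G →* unitary (BH K))
    (h : ∀ g : K, ∀ ε > 0, ∃ P : CG G, ‖repAlg σ P (dl 1) - dl g‖ < ε) :
    ∀ ξ : Ell2 K, ∀ ε > 0, ∃ P : CG G, ‖repAlg σ P (dl 1) - ξ‖ < ε := by
  classical
  intro ξ ε hε
  have h1 := lp.hasSum_single (p := 2) (by norm_num) ξ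
  rw [HasSum, Metric.tendsto_nhds] at h1
  obtain ⟨s, hs⟩ := (h1 (ε / 2) (by positivity)).exists
  set ζ : Ell2 K := ∑ i ∈ s, lp.single 2 i (ξ i) with hζ
  have hζ' : ζ = ∑ i ∈ s, ξ i • dl i := by
    rw [hζ]
    refine Finset.sum_congr rfl fun i _ => ?_
    ext j
    simp only [dl, lp.coeFn_smul, Pi.smul_apply, lp.coeFn_single, Pi.single_apply, smul_eq_mul]
    split_ifs <;> simp
  set C : ℝ := ∑ i ∈ s, ‖ξ i‖ with hC
  have hC0 : 0 ≤ C := Finset.sum_nonneg fun i _ => norm_nonneg _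
  choose P hP using fun g : K => h g (ε / 2 / (1 + C)) (by positivity)
  refine ⟨∑ i ∈ s, ξ i • P i, ?_⟩
  have h2 : repAlg σ (∑ i ∈ s, ξ i • P i) (dl 1) - ζ
      = ∑ i ∈ s, ξ i • (repAlg σ (P i) (dl 1) - dl i) := by
    rw [hζ', map_sum, sum_apply, ← Finset.sum_sub_distrib]
    refine Finset.sum_congr rfl fun i _ => ?_
    rw [map_smul, smul_sub]
    rfl
  have h3 : ‖repAlg σ (∑ i ∈ s, ξ i • P i) (dl 1) - ζ‖ ≤ ε / 2 := by
    rw [h2]
    refine (norm_sum_le _ _).trans ?_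
    calc ∑ i ∈ s, ‖ξ i • (repAlg σ (P i) (dl 1) - dl i)‖
        ≤ ∑ i ∈ s, ‖ξ i‖ * (ε / 2 / (1 + C)) := Finset.sum_le_sum fun i _ => by
          rw [norm_smul]
          exact mul_le_mul_of_nonneg_left (hP i).le (norm_nonneg _)
      _ = C * (ε / 2 / (1 + C)) := by rw [← Finset.sum_mul]
      _ ≤ (1 + C) * (ε / 2 / (1 + C)) :=
          mul_le_mul_of_nonneg_right (by linarith) (by positivity)
      _ = ε / 2 := mul_div_cancel₀ _ (by positivity)
  have h4 : ‖ζ - ξ‖ < ε / 2 := by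
    rw [← dist_eq_norm]
    exact hs
  have e : repAlg σ (∑ i ∈ s, ξ i • P i) (dl 1) - ξ =
      (repAlg σ (∑ i ∈ s, ξ i • P i) (dl 1) - ζ) + (ζ - ξ) := by abel
  rw [e]
  refine (norm_add_le _ _).trans_lt ?_
  linarith

theorem exists_frame_of (hA : AbsorbStmt K) {γ κ : Type} [Countable K] (u : γ)
    (hC : Comb (Set.range (Sum.inl : γ → γ ⊕ κ)) (Sum.inl u))
    (π : FreeGroup (γ ⊕ κ) →* unitary (BH K)) (hπ : Frame π) :
    ∃ σ : FreeGroup γ →* unitary (BH K), Frame σ := by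
  classical
  obtain ⟨gs, hgs⟩ := exists_surjective_nat K
  have step : ∀ (k : ℕ) (p : {p : (FreeGroup (γ ⊕ κ) →* unitary (BH K)) × ℝ //
      Frame p.1 ∧ 0 < p.2}), ∃ q : {p : (FreeGroup (γ ⊕ κ) →* unitary (BH K)) × ℝ //
      Frame p.1 ∧ 0 < p.2}, q.1.2 ≤ p.1.2 / 2 ∧
      (∀ b : γ, b ≠ u → q.1.1 (FreeGroup.of (Sum.inl b)) = p.1.1 (FreeGroup.of (Sum.inl b))) ∧
      n2 ((q.1.1 (FreeGroup.of (Sum.inl u)) : BH K) -
        (p.1.1 (FreeGroup.of (Sum.inl u)) : BH K)) ≤ p.1.2 / 2 ∧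
      ∀ σ : FreeGroup γ →* unitary (BH K), (∀ g, (σ g : BH K) ∈ LG K) →
        (∀ b, b ≠ u → σ (FreeGroup.of b) = p.1.1 (FreeGroup.of (Sum.inl b))) →
        n2 ((σ (FreeGroup.of u) : BH K) - (q.1.1 (FreeGroup.of (Sum.inl u)) : BH K)) ≤ q.1.2 →
        ∀ i < k, ∃ P : CG (FreeGroup γ), ‖repAlg σ P (dl 1) - dl (gs i)‖ ≤ 1 / (k + 1 : ℝ) := by
    rintro k ⟨⟨π₀, η₀⟩, h0, hη₀⟩
    obtain ⟨π', η', h1, h2, h3, h4, h5, h6⟩ := lim_step hA u hC gs π₀ h0 η₀ hη₀ k
    exact ⟨⟨(π', η'), h1, h2⟩, h3, h4, h5, h6⟩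
  choose f hf1 hf2 hf3 hf4 using step
  obtain ⟨s, hs0, hs⟩ : ∃ s : ℕ → {p : (FreeGroup (γ ⊕ κ) →* unitary (BH K)) × ℝ //
      Frame p.1 ∧ 0 < p.2}, s 0 = ⟨(π, 1), hπ, one_pos⟩ ∧ ∀ k, s (k + 1) = f k (s k) :=
    ⟨fun n => Nat.rec ⟨(π, 1), hπ, one_pos⟩ (fun k p => f k p) n, rfl, fun _ => rfl⟩
  have hag : ∀ k (b : γ), b ≠ u → (s k).1.1 (FreeGroup.of (Sum.inl b)) =
      π (FreeGroup.of (Sum.inl b)) := by
    intro k b hb
    induction k with
    | zero => rw [hs0]
    | succ k ih => rw [hs k, hf2 k (s k) b hb, ih]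
  have hpos : ∀ k, 0 < (s k).1.2 := fun k => (s k).2.2
  have hhalf : ∀ k, (s (k + 1)).1.2 ≤ (s k).1.2 / 2 := fun k => by
    rw [hs k]
    exact hf1 k (s k)
  have hpow : ∀ k, (s k).1.2 ≤ (1 / 2 : ℝ) ^ k := by
    intro k
    induction k with
    | zero => rw [hs0]; simp
    | succ k ih =>
      rw [pow_succ]
      linarith [hhalf k]
  have hlim : Filter.Tendsto (fun k => (s k).1.2) Filter.atTop (nhds 0) :=
    squeeze_zero (fun k => (hpos k).le) hpow
      (tendsto_pow_atTop_nhds_zero_of_lt_one (by norm_num) (by norm_num))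
  have hdist : ∀ k l, k ≤ l → n2 (((s l).1.1 (FreeGroup.of (Sum.inl u)) : BH K) -
      ((s k).1.1 (FreeGroup.of (Sum.inl u)) : BH K)) ≤ (s k).1.2 - (s l).1.2 := by
    intro k l hkl
    induction l, hkl using Nat.le_induction with
    | base => rw [sub_self, sub_self, n2_zero]
    | succ l hkl ih =>
      refine (n2_sub_le_add_sub _ (((s l).1.1 (FreeGroup.of (Sum.inl u)) : BH K)) _).trans ?_
      have h1 := hf3 l (s l)
      rw [← hs l] at h1
      linarith [hhalf l]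
  obtain ⟨V, hV, hVn⟩ := lim_unitary (fun k => (s k).1.1 (FreeGroup.of (Sum.inl u)))
    (fun k => (s k).2.1.mem _) (fun k => (s k).1.2) hlim
    (fun k l hkl => (hdist k l hkl).trans (by linarith [hpos l]))
  let σ : FreeGroup γ →* unitary (BH K) :=
    FreeGroup.lift fun b => if b = u then V else π (FreeGroup.of (Sum.inl b))
  have hσu : σ (FreeGroup.of u) = V := by
    change FreeGroup.lift _ (FreeGroup.of u) = V
    rw [FreeGroup.lift_apply_of, if_pos rfl]
  have hσb : ∀ b, b ≠ u → σ (FreeGroup.of b) = π (FreeGroup.of (Sum.inl b)) := by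
    intro b hb
    change FreeGroup.lift _ (FreeGroup.of b) = _
    rw [FreeGroup.lift_apply_of, if_neg hb]
  have hσof : ∀ b, (σ (FreeGroup.of b) : BH K) ∈ LG K := by
    intro b
    by_cases hb : b = u
    · rw [hb, hσu]
      exact hV
    · rw [hσb b hb]
      exact hπ.mem _
  have hσm : ∀ g, (σ g : BH K) ∈ LG K := by
    intro g
    induction g using FreeGroup.induction_on with
    | C1 => rw [map_one]; exact one_mem _
    | of b => exact hσof b
    | inv_of b hb => rw [map_inv]; exact star_mem hb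
    | mul x y hx hy => rw [map_mul]; exact mul_mem hx hy
  have hclose : ∀ k (b : γ), n2 ((σ (FreeGroup.of b) : BH K) -
      (((s k).1.1.comp (FreeGroup.map Sum.inl)) (FreeGroup.of b) : BH K)) ≤ (s k).1.2 := by
    intro k b
    have e : ((s k).1.1.comp (FreeGroup.map Sum.inl)) (FreeGroup.of b) =
        (s k).1.1 (FreeGroup.of (Sum.inl b)) := by
      rw [MonoidHom.comp_apply, FreeGroup.map.of]
    rw [e]
    by_cases hb : b = u
    · rw [hb, hσu]
      exact hVn k
    · rw [hσb b hb, hag k b hb, sub_self, n2_zero]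
      exact (hpos k).le
  refine ⟨σ, ⟨hσm, fun g hg => ?_, lim_dense σ fun g ε hε => ?_⟩⟩
  · obtain ⟨L, hL, hLip⟩ := lim_word (Set.univ : Set γ) g (by
      rw [Set.image_univ, FreeGroup.closure_range_of]
      exact Subgroup.mem_top g)
    have hinj : FreeGroup.map (Sum.inl : γ → γ ⊕ κ) g ≠ 1 := fun h =>
      hg (FreeGroup.map_injective Sum.inl_injective (h.trans (map_one _).symm))
    have hb : ∀ k, ‖((σ g : BH K) (dl 1)) 1‖ ≤ L * (s k).1.2 := by
      intro k
      have h1 := hLip K σ ((s k).1.1.comp (FreeGroup.map Sum.inl)) hσm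
        (fun g => (s k).2.1.mem _) (s k).1.2 (hpos k).le (fun b _ => hclose k b)
      have h2 := (s k).2.1.tr _ hinj
      have h3 : ((σ g : BH K) (dl 1)) 1 =
          (((σ g : BH K) - (((s k).1.1.comp (FreeGroup.map Sum.inl)) g : BH K)) (dl 1)) 1 := by
        rw [sub_apply, lp.coeFn_sub, Pi.sub_apply]
        have h4 : ((((s k).1.1.comp (FreeGroup.map Sum.inl)) g : BH K) (dl 1)) 1 = 0 := h2
        rw [h4, sub_zero]
      rw [h3]
      exact (lp.norm_apply_le_norm (by norm_num) _ _).trans h1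
    have h5 : ‖((σ g : BH K) (dl 1)) 1‖ ≤ 0 := by
      have h6 : Filter.Tendsto (fun k => L * (s k).1.2) Filter.atTop (nhds 0) := by
        simpa using hlim.const_mul L
      exact ge_of_tendsto' h6 hb
    exact norm_le_zero_iff.mp h5
  · obtain ⟨i, hi⟩ := hgs g
    obtain ⟨n, hn⟩ := exists_nat_one_div_lt hε
    obtain ⟨P, hP⟩ := hf4 (max n (i + 1)) (s (max n (i + 1))) σ hσm
      (fun b hb => by rw [hσb b hb, hag _ b hb]) (by
        rw [hσu, ← hs]
        exact hVn _) i (lt_of_lt_of_le (Nat.lt_succ_self i) (le_max_right _ _))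
    refine ⟨P, ?_⟩
    rw [hi] at hP
    refine lt_of_le_of_lt (hP.trans ?_) hn
    have h1 : (n : ℝ) ≤ ((max n (i + 1) : ℕ) : ℝ) := by exact_mod_cast le_max_left _ _
    exact one_div_le_one_div_of_le (by positivity) (by linarith)

end Vale.Agent.P086
end
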