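import Vale.Agent.P086.Bdl.B1

set_option linter.all false

section

/-!
# P086-ISO-F1: `comb_one` (two letters)

`D_k = h u h³ u h⁵ ⋯ u h^{2k+1}`.  The words `D_l D_k⁻¹ D_{l'} D_{k'}⁻¹ ⋯` (with `l ≠ k`,
`|k - l'| ≥ 2`) are separated by a ping-pong argument for the action `h ↦ (p+4q, q)`,
`u ↦ (-q, p)` of the free group on `ℤ²`; the approximate inverse of `∑ D_k` is the Cesàro mean
of the Neumann type series.
-/

open scoped InnerProductSpace

namespace Vale.Agent.P086

namespace C1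

/-- `(p, q) ↦ (p + 4 q, q)`. -/
def Hp : Equiv.Perm (ℤ × ℤ) where
  toFun z := (z.1 + 4 * z.2, z.2)
  invFun z := (z.1 - 4 * z.2, z.2)
  left_inv z := by ext <;> simp
  right_inv z := by ext <;> simp

/-- `(p, q) ↦ (-q, p)`. -/
def Up : Equiv.Perm (ℤ × ℤ) where
  toFun z := (-z.2, z.1)
  invFun z := (z.2, -z.1)
  left_inv z := by ext <;> simp
  right_inv z := by ext <;> simp

theorem p_ai (e : Equiv.Perm (ℤ × ℤ)) (z : ℤ × ℤ) : e (e⁻¹ z) = z := e.apply_symm_apply z
theorem p_ia (e : Equiv.Perm (ℤ × ℤ)) (z : ℤ × ℤ) : e⁻¹ (e z) = z := e.symm_apply_apply z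

/-- the set `|p - 4 m q| < |q|`. -/
def Q (m : ℤ) (z : ℤ × ℤ) : Prop := |z.1 - 4 * m * z.2| < |z.2|

theorem Q_unique {m m' : ℤ} {z : ℤ × ℤ} (h : Q m z) (h' : Q m' z) : m = m' := by
  obtain ⟨p, q⟩ := z
  simp only [Q] at h h'
  by_contra hne
  have h1 : |4 * (m - m') * q| < 2 * |q| := by
    calc |4 * (m - m') * q| = |(p - 4 * m' * q) - (p - 4 * m * q)| := by congr 1; ring
      _ ≤ |p - 4 * m' * q| + |p - 4 * m * q| := abs_sub _ _
      _ < 2 * |q| := by linarith
  rw [abs_mul, abs_mul] at h1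
  have h2 : 1 ≤ |m - m'| := Int.one_le_abs (sub_ne_zero.mpr hne)
  have h3 : 0 ≤ |q| := abs_nonneg q
  have h4 : |(4 : ℤ)| = 4 := by norm_num
  rw [h4] at h1
  nlinarith

theorem Q_big {m : ℤ} (hm : m ≠ 0) {z : ℤ × ℤ} (h : Q m z) : |z.2| < |z.1| := by
  obtain ⟨p, q⟩ := z
  simp only [Q] at h ⊢
  have h1 : 4 * |m| * |q| ≤ |p - 4 * m * q| + |p| := by
    calc 4 * |m| * |q| = |4 * m * q| := by
          rw [abs_mul, abs_mul]; norm_num
      _ = |p - (p - 4 * m * q)| := by congr 1; ring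
      _ ≤ |p| + |p - 4 * m * q| := abs_sub _ _
      _ = _ := by ring
  have h2 : 1 ≤ |m| := Int.one_le_abs hm
  have h3 : 0 ≤ |q| := abs_nonneg q
  nlinarith

theorem Q_zero {z : ℤ × ℤ} (h : |z.1| < |z.2|) : Q 0 z := by
  simpa [Q] using h

theorem Hp_pow (m : ℕ) (z : ℤ × ℤ) : (Hp ^ m) z = (z.1 + 4 * m * z.2, z.2) := by
  induction m generalizing z with
  | zero => simp
  | succ m ih =>
    rw [pow_succ', Equiv.Perm.mul_apply, ih]
    simp only [Hp, Equiv.coe_fn_mk, Prod.mk.injEq, and_true]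
    push_cast
    ring

theorem Hp_pow_inv (m : ℕ) (z : ℤ × ℤ) : (Hp ^ m)⁻¹ z = (z.1 - 4 * m * z.2, z.2) := by
  rw [Equiv.Perm.inv_eq_iff_eq, Hp_pow]
  ext <;> simp

theorem Q_Hp_pow (j : ℕ) (m : ℤ) (z : ℤ × ℤ) : Q (m + j) ((Hp ^ j) z) ↔ Q m z := by
  rw [Hp_pow]
  simp only [Q]
  rw [show z.1 + 4 * (j : ℤ) * z.2 - 4 * (m + j) * z.2 = z.1 - 4 * m * z.2 by ring]

theorem Q_Hp_pow_inv (j : ℕ) (m : ℤ) (z : ℤ × ℤ) : Q (m - j) ((Hp ^ j)⁻¹ z) ↔ Q m z := by
  rw [Hp_pow_inv]
  simp only [Q]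
  rw [show z.1 - 4 * (j : ℤ) * z.2 - 4 * (m - j) * z.2 = z.1 - 4 * m * z.2 by ring]

theorem Up_apply (z : ℤ × ℤ) : Up z = (-z.2, z.1) := rfl
theorem Up_inv_apply (z : ℤ × ℤ) : Up⁻¹ z = (z.2, -z.1) := rfl

theorem Up_big {z : ℤ × ℤ} (h : |z.2| < |z.1|) : Q 0 (Up z) := by
  apply Q_zero; rw [Up_apply]; simpa using h

theorem Up_inv_big {z : ℤ × ℤ} (h : |z.2| < |z.1|) : Q 0 (Up⁻¹ z) := by
  apply Q_zero; rw [Up_inv_apply]; simpa using h

/-- The elements `h^{2i+1}`, in the permutation group. -/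
def gP (i : ℕ) : Equiv.Perm (ℤ × ℤ) := Hp ^ (2 * i + 1)

/-- type A sets -/
def YA (k : ℕ) (z : ℤ × ℤ) : Prop := Q (2 * k + 3) (Up⁻¹ z)
/-- type B sets -/
def YB (k : ℕ) (z : ℤ × ℤ) : Prop := Q (-(2 * k + 1)) z
/-- the union -/
def Y (k : ℕ) (z : ℤ × ℤ) : Prop := YA k z ∨ YB k z

theorem YA_small {k : ℕ} {z : ℤ × ℤ} (h : YA k z) : Q 0 z := by
  have h1 := Up_big (Q_big (by omega) h)
  rwa [p_ai] at h1

theorem YB_big {k : ℕ} {z : ℤ × ℤ} (h : YB k z) : |z.2| < |z.1| :=
  Q_big (by omega) h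

theorem Y_unique {k k' : ℕ} {z : ℤ × ℤ} (h : Y k z) (h' : Y k' z) : k = k' := by
  rcases h with h | h <;> rcases h' with h' | h'
  · have := Q_unique h h'; omega
  · have h1 := Q_unique (YA_small h) h'; omega
  · have h1 := Q_unique (YA_small h') h; omega
  · have := Q_unique h h'; omega

/-- the element `D_k` in the permutation group. -/
noncomputable def DP (k : ℕ) : Equiv.Perm (ℤ × ℤ) := Dp gP Up k

theorem DP_zero : DP 0 = Hp := by simp [DP, Dp, Dw_zero, gP]

theorem DP_succ (k : ℕ) : DP (k + 1) = DP k * Up * Hp ^ (2 * k + 3) := by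
  simp only [DP, Dp, Dw_succ, gP]
  ring_nf

theorem first {l k' : ℕ} (hne : k' ≠ l) {z : ℤ × ℤ} (h : Y k' z) :
    ∃ m : ℤ, (m = 2 * l + 1 ∨ (m ≠ 0 ∧ Even m)) ∧ Q m ((Hp ^ (2 * l + 1)) z) := by
  rcases h with h | h
  · refine ⟨2 * l + 1, Or.inl rfl, ?_⟩
    have := (Q_Hp_pow (2 * l + 1) 0 z).mpr (YA_small h)
    push_cast at this
    rwa [zero_add] at this
  · refine ⟨-(2 * k' + 1) + (2 * l + 1), Or.inr ⟨by omega, ⟨(l : ℤ) - k', by ring⟩⟩, ?_⟩
    have := (Q_Hp_pow (2 * l + 1) _ z).mpr h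
    push_cast at this
    exact this

theorem up_step {l k' : ℕ} (hne : k' ≠ l) {z : ℤ × ℤ} (h : Y k' z) (d : ℕ) :
    ∀ k, k + 1 + d = l → ∃ m : ℤ, (m = 2 * k + 3 ∨ (m ≠ 0 ∧ Even m ∧ l = k + 1)) ∧
      Q m (Up⁻¹ ((DP k)⁻¹ (DP l z))) := by
  induction d with
  | zero =>
    intro k hk
    obtain rfl : l = k + 1 := by omega
    obtain ⟨m, hm, hQ⟩ := first hne h
    refine ⟨m, ?_, ?_⟩
    · rcases hm with hm | ⟨h1, h2⟩
      · left; rw [hm]; push_cast; ring
      · right; exact ⟨h1, h2, rfl⟩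
    · have e : Up⁻¹ ((DP k)⁻¹ (DP (k + 1) z)) = (Hp ^ (2 * (k + 1) + 1)) z := by
        rw [DP_succ]
        simp only [Equiv.Perm.mul_apply, p_ia]
        rfl
      rw [e]
      exact hQ
  | succ d ih =>
    intro k hk
    obtain ⟨m, hm, hQ⟩ := ih (k + 1) (by omega)
    have hm0 : m ≠ 0 := by
      rcases hm with hm | ⟨h1, _⟩
      · rw [hm]; push_cast; omega
      · exact h1
    have h1 := Up_big (Q_big hm0 hQ)
    rw [p_ai] at h1
    refine ⟨2 * k + 3, Or.inl rfl, ?_⟩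
    have e : Up⁻¹ ((DP k)⁻¹ (DP l z)) = (Hp ^ (2 * k + 3)) ((DP (k + 1))⁻¹ (DP l z)) := by
      rw [DP_succ, mul_inv_rev, mul_inv_rev]
      simp only [Equiv.Perm.mul_apply, p_ai]
    rw [e]
    have := (Q_Hp_pow (2 * k + 3) 0 _).mpr h1
    push_cast at this
    rwa [zero_add] at this

theorem down_step {l k' : ℕ} (hne : k' ≠ l) {z : ℤ × ℤ} (h : Y k' z) (d : ℕ) :
    |((DP (l + 1 + d))⁻¹ (DP l z)).2| < |((DP (l + 1 + d))⁻¹ (DP l z)).1| ∧
      (1 ≤ d → YB (l + 1 + d) ((DP (l + 1 + d))⁻¹ (DP l z))) := by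
  induction d with
  | zero =>
    refine ⟨?_, by omega⟩
    have e : (DP (l + 1 + 0))⁻¹ (DP l z) = (Hp ^ (2 * l + 3))⁻¹ (Up⁻¹ z) := by
      rw [add_zero, DP_succ, mul_inv_rev, mul_inv_rev]
      simp only [Equiv.Perm.mul_apply, p_ia]
    rw [e]
    rcases h with h | h
    · have := (Q_Hp_pow_inv (2 * l + 3) _ _).mpr h
      exact Q_big (by push_cast; omega) this
    · have := (Q_Hp_pow_inv (2 * l + 3) _ _).mpr (Up_inv_big (YB_big h))
      exact Q_big (by push_cast; omega) this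
  | succ d ih =>
    have e : (DP (l + 1 + (d + 1)))⁻¹ (DP l z) =
        (Hp ^ (2 * (l + 1 + d) + 3))⁻¹ (Up⁻¹ ((DP (l + 1 + d))⁻¹ (DP l z))) := by
      rw [show l + 1 + (d + 1) = (l + 1 + d) + 1 by ring, DP_succ, mul_inv_rev, mul_inv_rev]
      simp only [Equiv.Perm.mul_apply]
    have hB : YB (l + 1 + (d + 1)) ((DP (l + 1 + (d + 1)))⁻¹ (DP l z)) := by
      rw [e]
      have := (Q_Hp_pow_inv (2 * (l + 1 + d) + 3) _ _).mpr (Up_inv_big ih.1)
      unfold YB
      convert this using 1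
      push_cast
      ring
    exact ⟨YB_big hB, fun _ => hB⟩

/-- Main transition. -/
theorem trans_Y {k l k' : ℕ} (h2 : k + 2 ≤ l ∨ l + 2 ≤ k) (hne : k' ≠ l) {z : ℤ × ℤ}
    (h : Y k' z) : Y k ((DP k)⁻¹ (DP l z)) := by
  rcases h2 with h2 | h2
  · obtain ⟨m, hm, hQ⟩ := up_step hne h (l - k - 1) k (by omega)
    rcases hm with hm | ⟨_, _, hm⟩
    · left; unfold YA; rw [← hm]; exact hQ
    · omega
  · obtain ⟨d, rfl⟩ : ∃ d, k = l + 1 + (d + 1) := ⟨k - l - 2, by omega⟩
    exact Or.inr ((down_step hne h (d + 1)).2 (by omega))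

theorem decode_lt {k l k' l' : ℕ} (hll : l < l') {z z' : ℤ × ℤ} (hk : Y k z) (hkl : k ≠ l)
    (hk' : Y k' z') (hkl' : k' ≠ l') (he : DP l z = DP l' z') : False := by
  obtain ⟨m, hm, hQ⟩ := up_step hkl' hk' (l' - l - 1) l (by omega)
  rw [← he, p_ia] at hQ
  rcases hk with hk | hk
  · have h1 := Q_unique hk hQ
    rcases hm with hm | ⟨_, ⟨a, ha⟩, _⟩
    · omega
    · omega
  · have h1 := Q_unique (Up_inv_big (YB_big hk)) hQ
    rcases hm with hm | ⟨h0, _, _⟩
    · omega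
    · exact h0 h1.symm

theorem decode {k l k' l' : ℕ} {z z' : ℤ × ℤ} (hk : Y k z) (hkl : k ≠ l)
    (hk' : Y k' z') (hkl' : k' ≠ l') (he : DP l z = DP l' z') : l = l' := by
  rcases lt_trichotomy l l' with h | h | h
  · exact (decode_lt h hk hkl hk' hkl' he).elim
  · exact h
  · exact (decode_lt h hk' hkl' hk hkl he.symm).elim

/-- base point -/
def z0 : ℤ × ℤ := (0, 1)

theorem base_Y (k : ℕ) : YB k ((DP k)⁻¹ z0) := by
  induction k with
  | zero =>
    rw [DP_zero]
    have := (Q_Hp_pow_inv 1 0 z0).mpr (Q_zero (by simp [z0]))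
    unfold YB
    rw [pow_one] at this
    convert this using 1
    simp
  | succ k ih =>
    rw [DP_succ, mul_inv_rev, mul_inv_rev]
    simp only [Equiv.Perm.mul_apply]
    have := (Q_Hp_pow_inv (2 * k + 3) _ _).mpr (Up_inv_big (YB_big ih))
    unfold YB
    convert this using 1
    push_cast
    ring

theorem base_ne {k l : ℕ} (hkl : k ≠ l) {z : ℤ × ℤ} (hk : Y k z) : DP l z ≠ z0 := by
  intro he
  have h1 := base_Y l
  rw [← he, p_ia] at h1
  exact hkl (Y_unique hk (Or.inr h1))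


section Alg

variable {G : Type} [Group G]

/-- the vector of an element of the group algebra -/
noncomputable def vec (P : CG G) : Ell2 G := repAlg lamU P (dl 1)

theorem vec_apply (P : CG G) (g : G) : vec P g = P.coeff g := repAlg_lamU_dl_apply P g

theorem l2_eq_vec (P : CG G) : l2 P = ‖vec P‖ := l2_eq_norm P

theorem vec_add (P R : CG G) : vec (P + R) = vec P + vec R := by
  simp [vec, map_add]

theorem vec_zero : vec (0 : CG G) = 0 := by simp [vec]

theorem vec_smul (c : ℂ) (P : CG G) : vec (c • P) = c • vec P := by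
  simp [vec, map_smul]

theorem vec_sum {ι : Type} (s : Finset ι) (F : ι → CG G) :
    vec (∑ i ∈ s, F i) = ∑ i ∈ s, vec (F i) := by
  induction s using Finset.cons_induction with
  | empty => simp [vec_zero]
  | cons a s ha ih => rw [Finset.sum_cons, Finset.sum_cons, vec_add, ih]

theorem vec_sg_mul (g : G) (P : CG G) : vec (sg g * P) = lam g (vec P) := by
  rw [vec, map_mul]
  have : repAlg (lamU (G := G)) (sg g) = lam g := by
    rw [repAlg_single, one_smul]; rfl
  rw [this]; rfl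

theorem inner_lam (g : G) (x y : Ell2 G) : ⟪lam g x, lam g y⟫_ℂ = ⟪x, y⟫_ℂ := by
  rw [← ContinuousLinearMap.adjoint_inner_right, ← ContinuousLinearMap.star_eq_adjoint, star_lam,
    ← mul_apply_eq_comp, ← lam_mul, inv_mul_cancel, lam_one]
  rfl

theorem norm_lam (g : G) (x : Ell2 G) : ‖lam g x‖ = ‖x‖ := norm_permOp_apply _ x

/-- supported in `X` -/
def Sp (X : G → Prop) (P : CG G) : Prop := ∀ g, P.coeff g ≠ 0 → X g

omit [Group G] in
theorem Sp.sum {X : G → Prop} {ι : Type} {s : Finset ι} {F : ι → CG G}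
    (h : ∀ i ∈ s, Sp X (F i)) : Sp X (∑ i ∈ s, F i) := by
  intro g hg
  rw [MonoidAlgebra.coeff_sum, Finsupp.finsetSum_apply] at hg
  obtain ⟨i, hi, hne⟩ := Finset.exists_ne_zero_of_sum_ne_zero hg
  exact h i hi g hne

omit [Group G] in
theorem Sp.mono {X Z : G → Prop} (h : ∀ g, X g → Z g) {P : CG G} (hP : Sp X P) : Sp Z P :=
  fun g hg => h g (hP g hg)

theorem Sp.sg_mul {X : G → Prop} {P : CG G} (hP : Sp X P) (a : G) :
    Sp (fun g => X (a⁻¹ * g)) (sg a * P) := by
  intro g hg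
  rw [MonoidAlgebra.coeff_single_mul_apply, one_mul] at hg
  exact hP _ hg

omit [Group G] in
theorem Sp_sg {X : G → Prop} {a : G} (h : X a) : Sp X (sg a) := by
  classical
  intro g hg
  rw [MonoidAlgebra.coeff_single, Finsupp.single_apply] at hg
  split_ifs at hg with h1
  · rw [← h1]; exact h
  · exact absurd rfl hg

theorem inner_disjoint {X Z : G → Prop} {P R : CG G} (hP : Sp X P) (hR : Sp Z R)
    (hd : ∀ g, X g → Z g → False) : ⟪vec P, vec R⟫_ℂ = 0 := by
  rw [lp.inner_eq_tsum]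
  have : ∀ g : G, ⟪vec P g, vec R g⟫_ℂ = 0 := by
    intro g
    rw [vec_apply, vec_apply]
    by_cases h1 : P.coeff g = 0
    · rw [h1, inner_zero_left]
    · by_cases h2 : R.coeff g = 0
      · rw [h2, inner_zero_right]
      · exact (hd g (hP g h1) (hR g h2)).elim
  simp only [this, tsum_zero]

/-- The hypotheses on the prefixes. -/
structure Ping (D : ℕ → G) (X : ℕ → G → Prop) : Prop where
  base : ∀ k, X k (D k)⁻¹
  step : ∀ k l k' g, (l + 2 ≤ k ∨ k + 2 ≤ l) → k' ≠ l → X k' g → X k ((D k)⁻¹ * (D l * g))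
  disj : ∀ k k' g, X k g → X k' g → k = k'
  dec : ∀ k l k' l' g g', k ≠ l → k' ≠ l' → X k g → X k' g' → D l * g = D l' * g' → l = l'
  ne_one : ∀ k l g, k ≠ l → X k g → D l * g ≠ 1

variable (D : ℕ → G) (n : ℕ)

/-- `∑_{k ≠ l} D_l V_k` -/
noncomputable def wOf (V : ℕ → CG G) (l : ℕ) : CG G :=
  ∑ k ∈ (Finset.range n).filter (fun k => k ≠ l), sg (D l) * V k

/-- sums of words beginning with `D_k⁻¹` -/
noncomputable def vS : ℕ → ℕ → CG G
  | 0, k => sg (D k)⁻¹
  | i + 1, k => ∑ l ∈ (Finset.range n).filter (fun l => l + 2 ≤ k ∨ k + 2 ≤ l),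
      sg (D k)⁻¹ * wOf D n (vS i) l

/-- sums of words beginning with `D_l` -/
noncomputable def wS (i l : ℕ) : CG G := wOf D n (vS D n i) l

variable {D n} {X : ℕ → G → Prop}

theorem vS_succ (i k : ℕ) : vS D n (i + 1) k =
    sg (D k)⁻¹ * ∑ l ∈ (Finset.range n).filter (fun l => l + 2 ≤ k ∨ k + 2 ≤ l), wS D n i l := by
  rw [vS, Finset.mul_sum]; rfl

theorem wS_eq (i l : ℕ) : wS D n i l =
    sg (D l) * ∑ k ∈ (Finset.range n).filter (fun k => k ≠ l), vS D n i k := by
  rw [wS, wOf, Finset.mul_sum]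

theorem sp_wS (i l : ℕ) (hv : ∀ k, Sp (X k) (vS D n i k)) :
    Sp (fun g => ∃ k, k ≠ l ∧ X k ((D l)⁻¹ * g)) (wS D n i l) := by
  refine Sp.sum fun k hk => ?_
  rw [Finset.mem_filter] at hk
  exact (Sp.sg_mul (hv k) (D l)).mono fun _ hg => ⟨k, hk.2, hg⟩

theorem sp_vS (hP : Ping D X) (i : ℕ) : ∀ k, Sp (X k) (vS D n i k) := by
  induction i with
  | zero => intro k; exact Sp_sg (hP.base k)
  | succ i ih =>
    intro k
    rw [vS]
    refine Sp.sum fun l hl => ?_
    rw [Finset.mem_filter] at hl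
    refine (Sp.sg_mul (sp_wS i l ih) (D k)⁻¹).mono fun g hg => ?_
    obtain ⟨k', hk', hg⟩ := hg
    have := hP.step k l k' _ hl.2 hk' hg
    simpa [mul_assoc] using this

theorem sp_wS' (hP : Ping D X) (i l : ℕ) :
    Sp (fun g => ∃ k, k ≠ l ∧ X k ((D l)⁻¹ * g)) (wS D n i l) := sp_wS i l (sp_vS hP i)

theorem inner_v_ne (hP : Ping D X) (i j : ℕ) {k k' : ℕ} (h : k ≠ k') :
    ⟪vec (vS D n i k), vec (vS D n j k')⟫_ℂ = 0 :=
  inner_disjoint (sp_vS hP i k) (sp_vS hP j k') fun _ h1 h2 => h (hP.disj _ _ _ h1 h2)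

theorem inner_w_ne (hP : Ping D X) (i j : ℕ) {l l' : ℕ} (h : l ≠ l') :
    ⟪vec (wS D n i l), vec (wS D n j l')⟫_ℂ = 0 := by
  refine inner_disjoint (sp_wS' hP i l) (sp_wS' hP j l') fun _ h1 h2 => ?_
  obtain ⟨k, hk, h1⟩ := h1
  obtain ⟨k', hk', h2⟩ := h2
  exact h (hP.dec k l k' l' _ _ hk hk' h1 h2 (by simp))

theorem inner_one_w (hP : Ping D X) (i l : ℕ) :
    ⟪vec (1 : CG G), vec (wS D n i l)⟫_ℂ = 0 := by
  refine inner_disjoint (X := fun g => g = 1) (Sp_sg rfl) (sp_wS' hP i l) fun _ h1 h2 => ?_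
  obtain ⟨k, hk, h2⟩ := h2
  exact hP.ne_one k l _ hk h2 (by simp [h1])

theorem inner_sum_diag {ι E : Type} [NormedAddCommGroup E] [InnerProductSpace ℂ E]
    (s : Finset ι) (x y : ι → E) (h : ∀ i ∈ s, ∀ j ∈ s, i ≠ j → ⟪x i, y j⟫_ℂ = 0) :
    ⟪∑ i ∈ s, x i, ∑ i ∈ s, y i⟫_ℂ = ∑ i ∈ s, ⟪x i, y i⟫_ℂ := by
  rw [sum_inner]
  refine Finset.sum_congr rfl fun i hi => ?_
  rw [inner_sum, Finset.sum_eq_single i (fun j hj hne => h i hi j hj (Ne.symm hne))
    (fun h => absurd hi h)]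

theorem norm_sum_sq {ι E : Type} [NormedAddCommGroup E] [InnerProductSpace ℂ E]
    (s : Finset ι) (x : ι → E) (h : ∀ i ∈ s, ∀ j ∈ s, i ≠ j → ⟪x i, x j⟫_ℂ = 0) :
    ‖∑ i ∈ s, x i‖ ^ 2 = ∑ i ∈ s, ‖x i‖ ^ 2 := by
  have h1 := inner_sum_diag s x x h
  rw [inner_self_eq_norm_sq_to_K] at h1
  simp only [inner_self_eq_norm_sq_to_K] at h1
  exact_mod_cast h1

theorem inner_levels (hP : Ping D X) (i : ℕ) : ∀ (d k : ℕ),
    ⟪vec (vS D n i k), vec (vS D n (i + (d + 1)) k)⟫_ℂ = 0 ∧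
      ⟪vec (wS D n i k), vec (wS D n (i + (d + 1)) k)⟫_ℂ = 0 := by
  have key : ∀ i j : ℕ, (∀ k, ⟪vec (vS D n i k), vec (vS D n j k)⟫_ℂ = 0) →
      ∀ l, ⟪vec (wS D n i l), vec (wS D n j l)⟫_ℂ = 0 := by
    intro i j h l
    rw [wS_eq, wS_eq, vec_sg_mul, vec_sg_mul, inner_lam, vec_sum, vec_sum, inner_sum_diag]
    · exact Finset.sum_eq_zero fun k _ => h k
    · intro k _ k' _ hne
      exact inner_v_ne hP i j hne
  induction i with
  | zero =>
    intro d
    have h0 : ∀ k, ⟪vec (vS D n 0 k), vec (vS D n (0 + (d + 1)) k)⟫_ℂ = 0 := by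
      intro k
      rw [zero_add, vS_succ, vec_sg_mul]
      have : vS D n 0 k = sg (D k)⁻¹ * 1 := by rw [vS, mul_one]
      rw [this, vec_sg_mul, inner_lam, vec_sum, inner_sum]
      exact Finset.sum_eq_zero fun l _ => inner_one_w hP d l
    exact fun k => ⟨h0 k, key _ _ h0 k⟩
  | succ i ih =>
    intro d
    have h0 : ∀ k, ⟪vec (vS D n (i + 1) k), vec (vS D n (i + 1 + (d + 1)) k)⟫_ℂ = 0 := by
      intro k
      rw [show i + 1 + (d + 1) = (i + (d + 1)) + 1 by ring, vS_succ, vS_succ, vec_sg_mul,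
        vec_sg_mul, inner_lam, vec_sum, vec_sum, inner_sum_diag]
      · exact Finset.sum_eq_zero fun l _ => (ih d l).2
      · intro l _ l' _ hne
        exact inner_w_ne hP _ _ hne
    exact fun k => ⟨h0 k, key _ _ h0 k⟩

theorem inner_w_all (hP : Ping D X) (i j l l' : ℕ) (h : (i, l) ≠ (j, l')) :
    ⟪vec (wS D n i l), vec (wS D n j l')⟫_ℂ = 0 := by
  by_cases hl : l = l'
  · subst hl
    have hij : i ≠ j := fun h' => h (by rw [h'])
    rcases lt_or_gt_of_ne hij with hlt | hlt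
    · obtain ⟨d, rfl⟩ : ∃ d, j = i + (d + 1) := ⟨j - i - 1, by omega⟩
      exact (inner_levels hP i d l).2
    · obtain ⟨d, rfl⟩ : ∃ d, i = j + (d + 1) := ⟨i - j - 1, by omega⟩
      rw [← inner_conj_symm, (inner_levels hP j d l).2, map_zero]
  · exact inner_w_ne hP i j hl

theorem card_bound (p : ℕ → Prop) [DecidablePred p] (B : ℝ) (hB : 0 ≤ B) (a : ℕ → ℝ)
    (ha : ∀ k, a k ≤ B) : ∑ k ∈ (Finset.range n).filter p, a k ≤ n * B := by
  calc ∑ k ∈ (Finset.range n).filter p, a k ≤ ∑ _k ∈ (Finset.range n).filter p, B :=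
        Finset.sum_le_sum fun k _ => ha k
    _ = ((Finset.range n).filter p).card * B := by rw [Finset.sum_const, nsmul_eq_mul]
    _ ≤ n * B := by
      gcongr
      calc ((Finset.range n).filter p).card ≤ (Finset.range n).card := Finset.card_filter_le _ _
        _ = n := Finset.card_range n

theorem norm_bounds (hP : Ping D X) (i : ℕ) : ∀ k,
    ‖vec (vS D n i k)‖ ^ 2 ≤ (n : ℝ) ^ (2 * i) ∧
      ‖vec (wS D n i k)‖ ^ 2 ≤ (n : ℝ) ^ (2 * i + 1) := by
  have key : ∀ i : ℕ, (∀ k, ‖vec (vS D n i k)‖ ^ 2 ≤ (n : ℝ) ^ (2 * i)) →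
      ∀ l, ‖vec (wS D n i l)‖ ^ 2 ≤ (n : ℝ) ^ (2 * i + 1) := by
    intro i h l
    rw [wS_eq, vec_sg_mul, norm_lam, vec_sum, norm_sum_sq]
    · calc _ ≤ (n : ℝ) * (n : ℝ) ^ (2 * i) := card_bound _ _ (by positivity) _ h
        _ = (n : ℝ) ^ (2 * i + 1) := by rw [pow_succ']
    · intro k _ k' _ hne
      exact inner_v_ne hP i i hne
  induction i with
  | zero =>
    have h0 : ∀ k, ‖vec (vS D n 0 k)‖ ^ 2 ≤ (n : ℝ) ^ (2 * 0) := by
      intro k
      rw [← l2_eq_vec, vS, l2_single]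
      simp
    exact fun k => ⟨h0 k, key 0 h0 k⟩
  | succ i ih =>
    have h0 : ∀ k, ‖vec (vS D n (i + 1) k)‖ ^ 2 ≤ (n : ℝ) ^ (2 * (i + 1)) := by
      intro k
      rw [vS_succ, vec_sg_mul, norm_lam, vec_sum, norm_sum_sq]
      · calc _ ≤ (n : ℝ) * (n : ℝ) ^ (2 * i + 1) :=
              card_bound _ _ (by positivity) _ fun l => (ih l).2
          _ = (n : ℝ) ^ (2 * (i + 1)) := by ring
      · intro l _ l' _ hne
        exact inner_w_ne hP i i hne
    exact fun k => ⟨h0 k, key _ h0 k⟩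


/-- real coefficients -/
def Rl (P : CG G) : Prop := ∀ F, star (P.coeff F) = P.coeff F

omit [Group G] in
theorem Rl.sum {ι : Type} {s : Finset ι} {F : ι → CG G} (h : ∀ i ∈ s, Rl (F i)) :
    Rl (∑ i ∈ s, F i) := by
  intro g
  rw [MonoidAlgebra.coeff_sum, Finsupp.finsetSum_apply, star_sum]
  exact Finset.sum_congr rfl fun i hi => h i hi g

theorem Rl.sg_mul {P : CG G} (hP : Rl P) (a : G) : Rl (sg a * P) := by
  intro g
  rw [MonoidAlgebra.coeff_single_mul_apply, one_mul]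
  exact hP _

omit [Group G] in
theorem Rl_sg (a : G) : Rl (sg a) := by
  classical
  intro g
  rw [MonoidAlgebra.coeff_single, Finsupp.single_apply]
  split_ifs <;> simp

theorem Rl.smul {P : CG G} (hP : Rl P) (c : ℝ) : Rl ((c : ℂ) • P) := by
  intro g
  rw [MonoidAlgebra.coeff_smul_apply, smul_eq_mul, star_mul', hP g]
  simp

theorem Sp.smul {X : G → Prop} {P : CG G} (hP : Sp X P) (c : ℂ) : Sp X (c • P) := by
  intro g hg
  rw [MonoidAlgebra.coeff_smul_apply, smul_eq_mul] at hg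
  exact hP g (right_ne_zero_of_mul hg)

theorem rl_vS (i : ℕ) : ∀ k, Rl (vS D n i k) := by
  induction i with
  | zero => intro k; exact Rl_sg _
  | succ i ih =>
    intro k
    rw [vS]
    refine Rl.sum fun l _ => Rl.sg_mul ?_ _
    exact Rl.sum fun k' _ => Rl.sg_mul (ih k') _

theorem sub_vS {H : Subgroup G} (hD : ∀ k, D k ∈ H) (i : ℕ) :
    ∀ k, Sp (fun g => g ∈ H) (vS D n i k) := by
  have mulmem : ∀ (a : G) (P : CG G), a ∈ H → Sp (fun g => g ∈ H) P →
      Sp (fun g => g ∈ H) (sg a * P) := by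
    intro a P ha hPp
    refine (Sp.sg_mul hPp a).mono fun g hg => ?_
    have := H.mul_mem ha hg
    simpa using this
  induction i with
  | zero => intro k; exact Sp_sg (H.inv_mem (hD k))
  | succ i ih =>
    intro k
    rw [vS]
    refine Sp.sum fun l _ => mulmem _ _ (H.inv_mem (hD k)) ?_
    exact Sp.sum fun k' _ => mulmem _ _ (hD l) (ih k')

variable (D n)

/-- the sum of the prefixes -/
noncomputable def SS : CG G := ∑ k ∈ Finset.range n, sg (D k)

/-- the diagonal terms -/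
noncomputable def CC (i : ℕ) : CG G := ∑ l ∈ Finset.range n, sg (D l) * vS D n i l

/-- number of far indices -/
def cnt (l : ℕ) : ℕ := ((Finset.range n).filter (fun k => l + 2 ≤ k ∨ k + 2 ≤ l)).card

theorem SS_mul (i : ℕ) : SS D n * ∑ k ∈ Finset.range n, vS D n i k =
    ∑ l ∈ Finset.range n, wS D n i l + CC D n i := by
  rw [SS, CC, ← Finset.sum_add_distrib, Finset.sum_mul]
  refine Finset.sum_congr rfl fun l hl => ?_
  rw [wS_eq, ← mul_add]
  congr 1
  rw [← Finset.sum_filter_add_sum_filter_not (Finset.range n) (fun k => k ≠ l)]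
  congr 1
  rw [Finset.sum_eq_single l]
  · intro b hb hne
    rw [Finset.mem_filter] at hb
    exact absurd (not_not.mp hb.2) hne
  · intro h
    exact absurd (Finset.mem_filter.mpr ⟨hl, not_not.mpr rfl⟩) h

theorem CC_zero : CC D n 0 = (n : ℂ) • (1 : CG G) := by
  rw [CC]
  have : ∀ l ∈ Finset.range n, sg (D l) * vS D n 0 l = (1 : CG G) := by
    intro l _
    rw [vS, MonoidAlgebra.single_mul_single, mul_inv_cancel, mul_one]
    rfl
  rw [Finset.sum_congr rfl this, Finset.sum_const, Finset.card_range, Nat.cast_smul_eq_nsmul]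

theorem CC_succ (i : ℕ) : CC D n (i + 1) =
    ∑ l ∈ Finset.range n, (cnt n l : ℂ) • wS D n i l := by
  rw [CC]
  have : ∀ k ∈ Finset.range n, sg (D k) * vS D n (i + 1) k =
      ∑ l ∈ (Finset.range n).filter (fun l => l + 2 ≤ k ∨ k + 2 ≤ l), wS D n i l := by
    intro k _
    rw [vS_succ, ← mul_assoc, MonoidAlgebra.single_mul_single, mul_inv_cancel, mul_one]
    exact one_mul _
  rw [Finset.sum_congr rfl this]
  simp only [Finset.sum_filter]
  rw [Finset.sum_comm]
  refine Finset.sum_congr rfl fun l _ => ?_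
  rw [← Finset.sum_filter, Finset.sum_const, cnt, Nat.cast_smul_eq_nsmul]

theorem cnt_le (l : ℕ) : cnt n l ≤ n := by
  unfold cnt
  exact (Finset.card_filter_le _ _).trans (Finset.card_range n).le

theorem le_cnt (l : ℕ) : n ≤ cnt n l + 3 := by
  have h1 := Finset.card_filter_add_card_filter_not (s := Finset.range n)
    (fun k => l + 2 ≤ k ∨ k + 2 ≤ l)
  rw [Finset.card_range] at h1
  have h2 : ((Finset.range n).filter (fun k => ¬ (l + 2 ≤ k ∨ k + 2 ≤ l))).card ≤ 3 := by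
    calc _ ≤ (Finset.Icc (l - 1) (l + 1)).card := by
          refine Finset.card_le_card fun k hk => ?_
          rw [Finset.mem_filter] at hk
          rw [Finset.mem_Icc]
          omega
      _ ≤ 3 := by rw [Nat.card_Icc]; omega
  unfold cnt
  omega

/-- coefficients -/
noncomputable def bb (r i : ℕ) : ℝ := (-1) ^ i * (1 - i / r) / (n : ℝ) ^ (i + 1)

/-- the approximate inverse -/
noncomputable def ff (r : ℕ) : CG G :=
  ∑ i ∈ Finset.range r, (bb n r i : ℂ) • ∑ k ∈ Finset.range n, vS D n i k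

theorem main_identity (r : ℕ) (hr : 0 < r) (hn : 0 < n) : SS D n * ff D n r - 1 =
    ∑ i ∈ Finset.range r, ∑ l ∈ Finset.range n,
      ((bb n r i + bb n r (i + 1) * cnt n l : ℝ) : ℂ) • wS D n i l := by
  have h1 : SS D n * ff D n r = ∑ i ∈ Finset.range r,
      ((bb n r i : ℂ) • ∑ l ∈ Finset.range n, wS D n i l) +
      ∑ i ∈ Finset.range r, (bb n r i : ℂ) • CC D n i := by
    rw [ff, Finset.mul_sum, ← Finset.sum_add_distrib]
    refine Finset.sum_congr rfl fun i _ => ?_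
    rw [mul_smul_comm, SS_mul, smul_add]
  have h2 : ∑ i ∈ Finset.range r, (bb n r i : ℂ) • CC D n i =
      ∑ i ∈ Finset.range r, (bb n r (i + 1) : ℂ) • CC D n (i + 1) + 1 := by
    have h3 := Finset.sum_range_succ (fun i => (bb n r i : ℂ) • CC D n i) r
    have h4 := Finset.sum_range_succ' (fun i => (bb n r i : ℂ) • CC D n i) r
    have h5 : bb n r r = 0 := by
      unfold bb
      have : (r : ℝ) ≠ 0 := by positivity
      rw [div_self this]; simp
    have h6 : (bb n r 0 : ℂ) • CC D n 0 = 1 := by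
      rw [CC_zero, smul_smul]
      have : (bb n r 0 : ℂ) * n = 1 := by
        unfold bb
        have : (n : ℂ) ≠ 0 := by exact_mod_cast hn.ne'
        push_cast
        simp
        field_simp
      rw [this, one_smul]
    rw [h5] at h3
    simp only [Complex.ofReal_zero, zero_smul, add_zero] at h3
    rw [← h3, h4, h6]
  rw [h1, h2, ← add_assoc, add_sub_cancel_right, ← Finset.sum_add_distrib]
  refine Finset.sum_congr rfl fun i _ => ?_
  rw [CC_succ, Finset.smul_sum, Finset.smul_sum, ← Finset.sum_add_distrib]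
  refine Finset.sum_congr rfl fun l _ => ?_
  rw [smul_smul, ← add_smul]
  push_cast
  rfl

theorem coef_bound (r i l : ℕ) (hr : 0 < r) (hn : 0 < n) (hi : i < r) :
    |bb n r i + bb n r (i + 1) * cnt n l| ≤ (1 / r + 3 / n) / (n : ℝ) ^ (i + 1) := by
  have hn' : (0 : ℝ) < n := by exact_mod_cast hn
  have hr' : (0 : ℝ) < r := by exact_mod_cast hr
  have h1 : bb n r i + bb n r (i + 1) * cnt n l =
      (-1) ^ i * ((1 / r + (1 - (i + 1) / r) * (1 - cnt n l / n)) / (n : ℝ) ^ (i + 1)) := by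
    unfold bb
    push_cast
    field_simp
    ring
  rw [h1, abs_mul, abs_pow, abs_neg, abs_one, one_pow, one_mul, abs_div,
    abs_of_pos (show (0 : ℝ) < (n : ℝ) ^ (i + 1) by positivity)]
  gcongr
  have h2 : (cnt n l : ℝ) / n ≤ 1 := by
    rw [div_le_one hn']; exact_mod_cast cnt_le n l
  have h3 : 1 - (cnt n l : ℝ) / n ≤ 3 / n := by
    have : (n : ℝ) ≤ cnt n l + 3 := by exact_mod_cast le_cnt n l
    rw [sub_le_iff_le_add, ← add_div, le_div_iff₀ hn']
    linarith
  have h4 : ((i : ℝ) + 1) / r ≤ 1 := by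
    rw [div_le_one hr']; exact_mod_cast hi
  have h5 : (0 : ℝ) ≤ (i + 1) / r := by positivity
  rw [abs_of_nonneg]
  · nlinarith
  · have : 0 ≤ (1 - ((i : ℝ) + 1) / r) * (1 - cnt n l / n) :=
      mul_nonneg (by linarith) (by linarith)
    have : (0 : ℝ) < 1 / r := by positivity
    linarith

variable {D n}

theorem bound_err (hP : Ping D X) (r : ℕ) (hr : 0 < r) (hn : 0 < n) :
    l2 (SS D n * ff D n r - 1) ^ 2 ≤ r * (1 / r + 3 / n) ^ 2 := by
  have hn' : (0 : ℝ) < n := by exact_mod_cast hn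
  have hr' : (0 : ℝ) < r := by exact_mod_cast hr
  rw [main_identity D n r hr hn, ← Finset.sum_product', l2_eq_vec, vec_sum]
  rw [norm_sum_sq]
  · calc _ ≤ ∑ p ∈ Finset.range r ×ˢ Finset.range n, (1 / r + 3 / n : ℝ) ^ 2 / n := by
          refine Finset.sum_le_sum fun p hp => ?_
          rw [Finset.mem_product, Finset.mem_range, Finset.mem_range] at hp
          rw [vec_smul, norm_smul, mul_pow, Complex.norm_real, Real.norm_eq_abs]
          calc _ ≤ ((1 / r + 3 / n) / (n : ℝ) ^ (p.1 + 1)) ^ 2 * (n : ℝ) ^ (2 * p.1 + 1) := by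
                have h1 := coef_bound n r p.1 p.2 hr hn hp.1
                have h2 := (norm_bounds (n := n) hP p.1 p.2).2
                gcongr
            _ = _ := by
                field_simp
                ring
      _ = _ := by
          rw [Finset.sum_const, Finset.card_product, Finset.card_range, Finset.card_range,
            nsmul_eq_mul]
          push_cast
          field_simp
  · intro p _ q _ hne
    rw [vec_smul, vec_smul, inner_smul_left, inner_smul_right, inner_w_all hP, mul_zero, mul_zero]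
    exact hne

theorem bound_f (hP : Ping D X) (r : ℕ) (hr : 0 < r) (hn : 0 < n) :
    l2 (ff D n r) ≤ r * Real.sqrt (1 / n) := by
  have hn' : (0 : ℝ) < n := by exact_mod_cast hn
  have hr' : (0 : ℝ) < r := by exact_mod_cast hr
  rw [ff]
  refine (l2_sum_le _ _).trans ?_
  calc _ ≤ ∑ _i ∈ Finset.range r, Real.sqrt (1 / n) := by
        refine Finset.sum_le_sum fun i hi => ?_
        rw [Finset.mem_range] at hi
        apply Real.le_sqrt_of_sq_le
        rw [l2_smul, mul_pow, Complex.norm_real, Real.norm_eq_abs, l2_eq_vec, vec_sum,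
          norm_sum_sq]
        · have h1 : |bb n r i| ≤ 1 / (n : ℝ) ^ (i + 1) := by
            unfold bb
            rw [abs_div, abs_mul, abs_pow, abs_neg, abs_one, one_pow, one_mul,
              abs_of_pos (show (0 : ℝ) < (n : ℝ) ^ (i + 1) by positivity)]
            gcongr
            have h4 : (i : ℝ) / r ≤ 1 := by
              rw [div_le_one hr']; exact_mod_cast hi.le
            have h5 : (0 : ℝ) ≤ i / r := by positivity
            rw [abs_le]
            constructor <;> linarith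
          have h2 : ∑ k ∈ Finset.range n, ‖vec (vS D n i k)‖ ^ 2 ≤ n * (n : ℝ) ^ (2 * i) := by
            calc _ ≤ ∑ _k ∈ Finset.range n, (n : ℝ) ^ (2 * i) :=
                  Finset.sum_le_sum fun k _ => (norm_bounds (n := n) hP i k).1
              _ = _ := by rw [Finset.sum_const, Finset.card_range, nsmul_eq_mul]
          calc _ ≤ (1 / (n : ℝ) ^ (i + 1)) ^ 2 * (n * (n : ℝ) ^ (2 * i)) := by gcongr
            _ = 1 / n := by
                field_simp
                ring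
        · intro k _ k' _ hne
          exact inner_v_ne hP i i hne
    _ = _ := by rw [Finset.sum_const, Finset.card_range, nsmul_eq_mul]

theorem comb_core (hP : Ping D X) {H : Subgroup G} (hD : ∀ k, D k ∈ H) (ε : ℝ) (hε : 0 < ε) :
    ∃ (n : ℕ) (f : CG G), (∀ F ∈ f.coeff.support, F ∈ H) ∧ (∀ F, star (f.coeff F) = f.coeff F) ∧
      l2 f ≤ ε ∧ l2 ((∑ k ∈ Finset.range n, sg (D k)) * f - 1) ≤ ε := by
  obtain ⟨r, hr⟩ := exists_nat_gt (4 / ε ^ 2)
  have hr0 : 0 < r := by
    rcases Nat.eq_zero_or_pos r with h | h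
    · subst h
      have : 0 < 4 / ε ^ 2 := by positivity
      simp only [Nat.cast_zero] at hr
      linarith
    · exact h
  have hr' : (0 : ℝ) < r := by exact_mod_cast hr0
  obtain ⟨n, hn⟩ := exists_nat_gt (max (3 * r : ℝ) ((r / ε) ^ 2))
  have hn3 : (3 * r : ℝ) < n := (le_max_left _ _).trans_lt hn
  have hn4 : (r / ε : ℝ) ^ 2 < n := (le_max_right _ _).trans_lt hn
  have hn' : (0 : ℝ) < n := by linarith [mul_pos (show (0 : ℝ) < 3 by norm_num) hr']
  have hn0 : 0 < n := by exact_mod_cast hn'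
  refine ⟨n, ff D n r, ?_, ?_, ?_, ?_⟩
  · intro F hF
    rw [Finsupp.mem_support_iff] at hF
    have : Sp (fun g => g ∈ H) (ff D n r) :=
      Sp.sum fun i _ => (Sp.sum fun k _ => sub_vS hD i k).smul _
    exact this F hF
  · exact Rl.sum fun i _ => (Rl.sum fun k _ => rl_vS i k).smul _
  · refine (bound_f hP r hr0 hn0).trans ?_
    rw [Real.sqrt_div zero_le_one, Real.sqrt_one, mul_one_div, div_le_iff₀ (by positivity)]
    have h1 : (r / ε : ℝ) ≤ Real.sqrt n := Real.le_sqrt_of_sq_le hn4.le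
    rw [div_le_iff₀ hε] at h1
    linarith
  · have h1 := bound_err (n := n) hP r hr0 hn0
    have h2 : (3 : ℝ) / n ≤ 1 / r := by
      rw [div_le_div_iff₀ hn' hr']
      linarith
    have h3 : (r : ℝ) * (1 / r + 3 / n) ^ 2 ≤ ε ^ 2 := by
      calc (r : ℝ) * (1 / r + 3 / n) ^ 2 ≤ (r : ℝ) * (1 / r + 1 / r) ^ 2 := by gcongr
        _ = 4 / (r : ℝ) := by field_simp; norm_num
        _ ≤ ε ^ 2 := by
            rw [div_lt_iff₀ (by positivity)] at hr
            rw [div_le_iff₀ hr']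
            linarith
    exact abs_le_of_sq_le_sq' (h1.trans h3) hε.le |>.2

end Alg


section Final

variable {β : Type}

/-- the homomorphism to the permutations of `ℤ²` -/
noncomputable def Ph (h u : β) : FreeGroup β →* Equiv.Perm (ℤ × ℤ) := by
  classical
  exact FreeGroup.lift fun b => if b = h then Hp else if b = u then Up else 1

theorem Ph_h (h u : β) : Ph h u (FreeGroup.of h) = Hp := by
  simp [Ph]

theorem Ph_u (h u : β) (hu : h ≠ u) : Ph h u (FreeGroup.of u) = Up := by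
  simp [Ph, hu.symm]

/-- the letters `g_i = h^{2i+1}` -/
def gg (h : β) (i : ℕ) : FreeGroup β := FreeGroup.of h ^ (2 * i + 1)

theorem Ph_Dw (h u : β) (hu : h ≠ u) (k : ℕ) :
    Ph h u (Dw (gg h) (FreeGroup.of u) k) = Dw gP Up k := by
  induction k with
  | zero => simp [Dw_zero]
  | succ k ih => rw [Dw_succ, Dw_succ, map_mul, map_mul, ih, Ph_u h u hu, gg, map_pow, Ph_h]; rfl

theorem Ph_Dp (h u : β) (hu : h ≠ u) (k : ℕ) :
    Ph h u (Dp (gg h) (FreeGroup.of u) k) = DP k := by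
  rw [Dp, map_mul, Ph_Dw h u hu, gg, map_pow, Ph_h]; rfl

theorem ping (h u : β) (hu : h ≠ u) :
    Ping (Dp (gg h) (FreeGroup.of u)) (fun k g => Y k (Ph h u g z0)) where
  base k := by
    rw [map_inv, Ph_Dp h u hu]
    exact Or.inr (base_Y k)
  step k l k' g h2 hne hg := by
    rw [map_mul, map_mul, map_inv, Ph_Dp h u hu, Ph_Dp h u hu]
    exact trans_Y h2.symm hne hg
  disj k k' g h1 h2 := Y_unique h1 h2
  dec k l k' l' g g' hkl hkl' hg hg' he := by
    have := congrArg (fun x => Ph h u x z0) he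
    simp only [map_mul, Ph_Dp h u hu, Equiv.Perm.mul_apply] at this
    exact decode hg hkl hg' hkl' this
  ne_one k l g hkl hg he := by
    have := congrArg (fun x => Ph h u x z0) he
    simp only [map_mul, Ph_Dp h u hu, Equiv.Perm.mul_apply, map_one, Equiv.Perm.coe_one,
      id_eq] at this
    exact base_ne hkl hg this

end Final

end C1

theorem comb_one {β : Type} (h u : β) (hu : h ≠ u) : Comb {h, u} u := by
  intro ε hε
  have hh : FreeGroup.of h ∈ Subgroup.closure (FreeGroup.of '' ({h, u} : Set β)) :=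
    Subgroup.subset_closure ⟨h, by simp, rfl⟩
  have huu : FreeGroup.of u ∈ Subgroup.closure (FreeGroup.of '' ({h, u} : Set β)) :=
    Subgroup.subset_closure ⟨u, by simp, rfl⟩
  have hDw : ∀ k, Dw (C1.gg h) (FreeGroup.of u) k ∈
      Subgroup.closure (FreeGroup.of '' ({h, u} : Set β)) := by
    intro k
    induction k with
    | zero => exact Subgroup.one_mem _
    | succ k ih =>
      exact Subgroup.mul_mem _ (Subgroup.mul_mem _ ih (Subgroup.pow_mem _ hh _)) huu
  have hD : ∀ k, Dp (C1.gg h) (FreeGroup.of u) k ∈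
      Subgroup.closure (FreeGroup.of '' ({h, u} : Set β)) :=
    fun k => Subgroup.mul_mem _ (hDw k) (Subgroup.pow_mem _ hh _)
  obtain ⟨n, f, hf1, hf2, hf3, hf4⟩ := C1.comb_core (C1.ping h u hu) hD ε hε
  refine ⟨C1.gg h, n, f, fun i => ?_, hf1, hf2, hf3, hf4⟩
  have hm : FreeGroup.of h ∈ Subgroup.closure (FreeGroup.of '' (({h, u} : Set β) \ {u})) :=
    Subgroup.subset_closure ⟨h, ⟨by simp, hu⟩, rfl⟩
  exact Subgroup.pow_mem _ hm _

end Vale.Agent.P086
end

section

/-!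
The commutation theorem `ρ(G)' = L(G)` and: a frame gives an isomorphism of group von Neumann
algebras.
-/

open scoped InnerProductSpace
open Filter Topology

namespace Vale.Agent.P086

variable {G K : Type} [Group G] [Group K]

namespace IsoFrame

/-! ### Auxiliary facts on `ℓ²` -/

theorem single_eq_smul_dl {X : Type} [DecidableEq X] (x : X) (c : ℂ) :
    (lp.single 2 x c : Ell2 X) = c • dl x := by
  ext y
  rw [lp.coeFn_smul, Pi.smul_apply, dl_apply, lp.coeFn_single, Pi.single_apply]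
  split_ifs <;> simp

theorem hasSum_dl {X : Type} (ξ : Ell2 X) : HasSum (fun x => ξ x • (dl x : Ell2 X)) ξ := by
  classical
  have h := lp.hasSum_single (E := fun _ : X => ℂ) (p := 2) (by norm_num) ξ
  simpa only [single_eq_smul_dl] using h

/-- Bounded operators on `ℓ²` agreeing on the basis vectors are equal. -/
theorem op_ext {X : Type} {E : Type*} [NormedAddCommGroup E] [NormedSpace ℂ E]
    {A B : Ell2 X →L[ℂ] E} (h : ∀ x, A (dl x) = B (dl x)) : A = B := by
  ext ξ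
  have h1 := A.hasSum (hasSum_dl ξ)
  have h2 := B.hasSum (hasSum_dl ξ)
  have h3 : (fun x => A (ξ x • (dl x : Ell2 X))) = fun x => B (ξ x • (dl x : Ell2 X)) := by
    funext x
    rw [map_smul, map_smul, h]
  rw [h3] at h1
  exact h1.unique h2

theorem mem_LG_iff (T : BH G) : T ∈ LG G ↔
    ∀ S ∈ StarSubalgebra.centralizer ℂ (Set.range (lam (G := G))), S * T = T * S := by
  rw [LG, vNA, StarSubalgebra.mem_centralizer_iff]
  constructor
  · intro h S hS
    exact (h S hS).1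
  · intro h S hS
    have hS' : S ∈ StarSubalgebra.centralizer ℂ (Set.range (lam (G := G))) := hS
    exact ⟨h S hS', h (star S) (star_mem hS')⟩

theorem mem_comm_lam_iff (S : BH G) :
    S ∈ StarSubalgebra.centralizer ℂ (Set.range (lam (G := G))) ↔
      ∀ g, lam g * S = S * lam g := by
  rw [StarSubalgebra.mem_centralizer_iff]
  constructor
  · intro h g
    exact (h (lam g) ⟨g, rfl⟩).1
  · rintro h _ ⟨g, rfl⟩
    exact ⟨h g, by rw [star_lam]; exact h g⁻¹⟩

theorem comm_lam_dl {S : BH G} (hS : ∀ g, lam g * S = S * lam g) (g k : G) :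
    (S (dl g)) k = (S (dl 1)) (g⁻¹ * k) := by
  have h1 : S (dl g) = lam g (S (dl 1)) := by
    have h3 : lam g (S (dl 1)) = S (lam g (dl 1)) :=
      congrArg (fun A : BH G => A (dl 1)) (hS g)
    rw [h3, lam_dl, mul_one]
  rw [h1, lam_apply]

theorem comm_rho_dl {T : BH G} (hT : ∀ g, T * rho g = rho g * T) (g k : G) :
    (T (dl g)) k = (T (dl 1)) (k * g⁻¹) := by
  have h1 : T (dl g) = rho g (T (dl 1)) := by
    have h3 : T (rho g (dl 1)) = rho g (T (dl 1)) :=
      congrArg (fun A : BH G => A (dl 1)) (hT g)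
    rw [← h3, rho_dl, one_mul]
  rw [h1, rho_apply]

end IsoFrame

open IsoFrame

/-- the commutation theorem: the commutant of the right regular representation is `L(G)`. -/
theorem mem_LG_of_comm_rho (T : BH G) (h : ∀ g : G, T * rho g = rho g * T) : T ∈ LG G := by
  rw [mem_LG_iff]
  intro S hS
  have hSs : star S ∈ StarSubalgebra.centralizer ℂ (Set.range (lam (G := G))) := star_mem hS
  rw [mem_comm_lam_iff] at hS hSs
  -- the values on the basis vectors
  have hSd := comm_lam_dl hS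
  have hSsd := comm_lam_dl hSs
  have hstar : ∀ g : G, star T * rho g = rho g * star T := by
    intro g
    have h1 := congrArg star (h g⁻¹)
    rw [star_mul, star_mul] at h1
    have h2 : star (rho g⁻¹ : BH G) = rho g := by
      rw [rho, rho, star_permOp]
      congr 1
      ext x
      simp
    rw [h2] at h1
    exact h1.symm
  have hTd := comm_rho_dl h
  have hTsd := comm_rho_dl hstar
  -- the adjoints at `δ₁`
  have hadj : ∀ (A : BH G) (k : G), (star A (dl 1)) k = (starRingEnd ℂ) ((A (dl k)) 1) := by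
    intro A k
    rw [← inner_dl, ContinuousLinearMap.star_eq_adjoint,
      ContinuousLinearMap.adjoint_inner_right, inner_dl_right]
  refine op_ext fun g => ?_
  ext l
  have e1 : (S * T) (dl g) l = ⟪star S (dl l), T (dl g)⟫_ℂ := by
    rw [ContinuousLinearMap.star_eq_adjoint, ContinuousLinearMap.adjoint_inner_left, inner_dl]
    rfl
  have e2 : (T * S) (dl g) l = ⟪star T (dl l), S (dl g)⟫_ℂ := by
    rw [ContinuousLinearMap.star_eq_adjoint, ContinuousLinearMap.adjoint_inner_left, inner_dl]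
    rfl
  rw [e1, e2, lp.inner_eq_tsum, lp.inner_eq_tsum]
  -- reindex `k ↦ g k⁻¹ l`
  let e : G ≃ G :=
    { toFun := fun k => g * k⁻¹ * l
      invFun := fun k => l * k⁻¹ * g
      left_inv := fun k => by simp [mul_assoc]
      right_inv := fun k => by simp [mul_assoc] }
  rw [← Equiv.tsum_eq e (fun k => ⟪(star T (dl l)) k, (S (dl g)) k⟫_ℂ)]
  refine tsum_congr fun k => ?_
  have a1 : (star S (dl l)) k = (starRingEnd ℂ) ((S (dl 1)) (k⁻¹ * l)) := by
    rw [hSsd, hadj, hSd]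
    congr 2
    simp
  have a2 : (star T (dl l)) (e k) = (starRingEnd ℂ) ((T (dl 1)) (k * g⁻¹)) := by
    rw [hTsd, hadj, hTd]
    congr 2
    simp [e, mul_assoc]
  have a3 : (S (dl g)) (e k) = (S (dl 1)) (k⁻¹ * l) := by
    rw [hSd]
    simp [e, mul_assoc]
  rw [a1, a2, a3, hTd]
  simp only [RCLike.inner_apply, RingHomCompTriple.comp_apply, RingHom.id_apply]
  ring

namespace IsoFrame

/-- The vectors `σ(g) δ₁`. -/
noncomputable def vec (σ : G →* unitary (BH K)) (g : G) : Ell2 K := (σ g : BH K) (dl 1)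

theorem repAlg_mem (σ : G →* unitary (BH K)) (hm : ∀ g, (σ g : BH K) ∈ LG K) (P : CG G) :
    repAlg σ P ∈ LG K := by
  rw [repAlg_apply]
  exact sum_mem fun g _ => (LG K).smul_mem (hm g) _

theorem orthonormal_vec (σ : G →* unitary (BH K)) (hσ : Frame σ) : Orthonormal ℂ (vec σ) := by
  classical
  rw [orthonormal_iff_ite]
  intro g h
  have e1 : ⟪vec σ g, vec σ h⟫_ℂ = ((σ (g⁻¹ * h) : BH K) (dl 1)) 1 := by
    rw [vec, vec, ← inner_dl, map_mul, map_inv]
    have e2 : (((σ g)⁻¹ * σ h : unitary (BH K)) : BH K) (dl 1)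
        = (star (σ g : BH K)) ((σ h : BH K) (dl 1)) := rfl
    rw [e2, ContinuousLinearMap.star_eq_adjoint, ContinuousLinearMap.adjoint_inner_right]
  rw [e1]
  split_ifs with hgh
  · subst hgh
    rw [inv_mul_cancel, map_one]
    change (dl (1 : K) : Ell2 K) 1 = 1
    rw [dl_apply, if_pos rfl]
  · refine hσ.tr _ fun h1 => hgh ?_
    exact (inv_mul_eq_one.mp h1)

theorem repAlg_dl_mem_span (σ : G →* unitary (BH K)) (P : CG G) :
    repAlg σ P (dl 1) ∈ Submodule.span ℂ (Set.range (vec σ)) := by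
  rw [repAlg_apply, sum_apply]
  refine Submodule.sum_mem _ fun g _ => ?_
  exact Submodule.smul_mem _ _ (Submodule.subset_span ⟨g, rfl⟩)

theorem top_le (σ : G →* unitary (BH K)) (hσ : Frame σ) :
    ⊤ ≤ (Submodule.span ℂ (Set.range (vec σ))).topologicalClosure := by
  intro ξ _
  change ξ ∈ closure (Submodule.span ℂ (Set.range (vec σ)) : Set (Ell2 K))
  rw [Metric.mem_closure_iff]
  intro ε hε
  obtain ⟨P, hP⟩ := hσ.dense ξ ε hε
  exact ⟨_, repAlg_dl_mem_span σ P, by rw [dist_comm, dist_eq_norm]; exact hP⟩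

/-- The unitary `ℓ²(G) → ℓ²(K)`, `δ_g ↦ σ(g) δ₁`. -/
noncomputable def Wu (σ : G →* unitary (BH K)) (hσ : Frame σ) : Ell2 G ≃ₗᵢ[ℂ] Ell2 K :=
  (HilbertBasis.mk (orthonormal_vec σ hσ) (top_le σ hσ)).repr.symm

theorem Wu_dl (σ : G →* unitary (BH K)) (hσ : Frame σ) (g : G) :
    Wu σ hσ (dl g) = vec σ g := by
  classical
  have h1 := (HilbertBasis.mk (orthonormal_vec σ hσ) (top_le σ hσ)).repr_symm_single g
  rw [HilbertBasis.coe_mk] at h1
  rw [← h1, single_eq_smul_dl, one_smul]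
  rfl

theorem Wu_symm_vec (σ : G →* unitary (BH K)) (hσ : Frame σ) (g : G) :
    (Wu σ hσ).symm (vec σ g) = dl g := by
  rw [← Wu_dl σ hσ, LinearIsometryEquiv.symm_apply_apply]

/-- `W λ(g) W* = σ(g)`. -/
theorem conj_lam (σ : G →* unitary (BH K)) (hσ : Frame σ) (g : G) :
    (Wu σ hσ).conjStarAlgEquiv (lam g) = (σ g : BH K) := by
  have h1 : ∀ ξ : Ell2 G, Wu σ hσ (lam g ξ) = (σ g : BH K) (Wu σ hσ ξ) := by
    have h2 : ((Wu σ hσ).toContinuousLinearEquiv : Ell2 G →L[ℂ] Ell2 K) ∘L (lam g)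
        = (σ g : BH K) ∘L ((Wu σ hσ).toContinuousLinearEquiv : Ell2 G →L[ℂ] Ell2 K) := by
      refine op_ext fun h => ?_
      change Wu σ hσ (lam g (dl h)) = (σ g : BH K) (Wu σ hσ (dl h))
      rw [lam_dl, Wu_dl, Wu_dl, vec, vec, map_mul]
      rfl
    intro ξ
    exact congrArg (fun A : Ell2 G →L[ℂ] Ell2 K => A ξ) h2
  ext1 η
  rw [LinearIsometryEquiv.conjStarAlgEquiv_apply_apply, h1,
    LinearIsometryEquiv.apply_symm_apply]

theorem conj_mem_LG (σ : G →* unitary (BH K)) (hσ : Frame σ) {X : BH G} (hX : X ∈ LG G) :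
    (Wu σ hσ).conjStarAlgEquiv X ∈ LG K := by
  set Φ := (Wu σ hσ).conjStarAlgEquiv with hΦ
  rw [mem_LG_iff] at hX ⊢
  intro Y hY
  -- `Y` commutes with `σ(g)`
  have hYσ : ∀ g, Y * (σ g : BH K) = (σ g : BH K) * Y := fun g =>
    (mem_LG_iff _).mp (hσ.mem g) Y hY
  have hY' : Φ.symm Y ∈ StarSubalgebra.centralizer ℂ (Set.range (lam (G := G))) := by
    rw [mem_comm_lam_iff]
    intro g
    apply Φ.injective
    change Φ (lam g * Φ.symm Y) = Φ (Φ.symm Y * lam g)
    rw [map_mul, map_mul, Φ.apply_symm_apply, conj_lam]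
    exact (hYσ g).symm
  have h1 := congrArg Φ (hX _ hY')
  rwa [map_mul, map_mul, Φ.apply_symm_apply] at h1

/-- `V_g (y δ₁) = y σ(g) δ₁` for `y ∈ L(K)`, where `V_g = W ρ(g) W*`. -/
theorem conj_rho_apply (σ : G →* unitary (BH K)) (hσ : Frame σ) (g : G) {y : BH K}
    (hy : y ∈ LG K) :
    (Wu σ hσ).conjStarAlgEquiv (rho g) (y (dl 1)) = y ((σ g : BH K) (dl 1)) := by
  set V : BH K := (Wu σ hσ).conjStarAlgEquiv (rho g) with hV
  -- on the group algebra
  have h1 : ∀ P : CG G, V (repAlg σ P (dl 1)) = repAlg σ P ((σ g : BH K) (dl 1)) := by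
    intro P
    rw [repAlg_apply, sum_apply, sum_apply, map_sum]
    refine Finset.sum_congr rfl fun h _ => ?_
    change V (P.coeff h • (σ h : BH K) (dl 1)) = P.coeff h • (σ h : BH K) ((σ g : BH K) (dl 1))
    rw [map_smul]
    congr 1
    change V (vec σ h) = _
    rw [hV, LinearIsometryEquiv.conjStarAlgEquiv_apply_apply, Wu_symm_vec, rho_dl, Wu_dl, vec,
      map_mul]
    rfl
  -- approximation
  have h2 : ∀ ε > 0, ‖V (y (dl 1)) - y ((σ g : BH K) (dl 1))‖ ≤ ε := by
    intro ε hε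
    obtain ⟨P, hP⟩ := hσ.dense (y (dl 1)) (ε / (‖V‖ + 1)) (by positivity)
    have e1 : V (y (dl 1)) - y ((σ g : BH K) (dl 1))
        = -(V (repAlg σ P (dl 1) - y (dl 1)))
          + ((repAlg σ P - y) * (σ g : BH K)) (dl 1) := by
      rw [map_sub, h1]
      change _ = _ + (repAlg σ P ((σ g : BH K) (dl 1)) - y ((σ g : BH K) (dl 1)))
      abel
    have hm : repAlg σ P - y ∈ LG K := sub_mem (repAlg_mem σ hσ.mem P) hy
    have h3 : ‖((repAlg σ P - y) * (σ g : BH K)) (dl 1)‖ ≤ ‖(repAlg σ P - y) (dl 1)‖ * 1 := by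
      refine (norm_mul_dl_le hm (hσ.mem g)).trans ?_
      gcongr
      have h5 : (σ g : BH K) ∈ unitary (BH K) := (σ g).2
      have : Nontrivial (BH K) := by
        refine ⟨⟨0, 1, fun h => ?_⟩⟩
        have := congrArg (fun A : BH K => ‖A (dl 1)‖) h
        simp [norm_dl] at this
      exact (CStarRing.norm_coe_unitary (σ g)).le
    have h4 : ‖(repAlg σ P - y) (dl 1)‖ < ε / (‖V‖ + 1) := hP
    rw [e1]
    calc ‖-(V (repAlg σ P (dl 1) - y (dl 1))) + ((repAlg σ P - y) * (σ g : BH K)) (dl 1)‖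
        ≤ ‖-(V (repAlg σ P (dl 1) - y (dl 1)))‖
          + ‖((repAlg σ P - y) * (σ g : BH K)) (dl 1)‖ := norm_add_le _ _
      _ ≤ ‖V‖ * (ε / (‖V‖ + 1)) + ε / (‖V‖ + 1) * 1 := by
          refine add_le_add ?_ (h3.trans (by gcongr))
          rw [norm_neg]
          exact (V.le_opNorm _).trans (by gcongr)
      _ = ε := by
          have : ‖V‖ + 1 ≠ 0 := by positivity
          field_simp
  have h6 : ‖V (y (dl 1)) - y ((σ g : BH K) (dl 1))‖ ≤ 0 := le_of_forall_pos_le_add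
    fun ε hε => by rw [zero_add]; exact h2 ε hε
  exact sub_eq_zero.mp (norm_eq_zero.mp (le_antisymm h6 (norm_nonneg _)))

theorem conj_symm_mem_LG (σ : G →* unitary (BH K)) (hσ : Frame σ) {T : BH K}
    (hT : T ∈ LG K) : (Wu σ hσ).conjStarAlgEquiv.symm T ∈ LG G := by
  set Φ := (Wu σ hσ).conjStarAlgEquiv with hΦ
  refine mem_LG_of_comm_rho _ fun g => ?_
  apply Φ.injective
  change Φ (Φ.symm T * rho g) = Φ (rho g * Φ.symm T)
  rw [map_mul, map_mul, Φ.apply_symm_apply]
  refine op_ext fun k => ?_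
  have h1 : (dl k : Ell2 K) = lam k (dl 1) := by rw [lam_dl, mul_one]
  change T (Φ (rho g) (dl k)) = Φ (rho g) (T (dl k))
  rw [h1]
  have h2 : T (lam k (dl 1)) = (T * lam k) (dl 1) := rfl
  rw [h2, hΦ, conj_rho_apply σ hσ g (lam_mem_LG k),
    conj_rho_apply σ hσ g (mul_mem hT (lam_mem_LG k))]
  rfl

end IsoFrame

theorem iso_of_frame (σ : G →* unitary (BH K)) (hσ : Frame σ) :
    Nonempty (LG G ≃⋆ₐ[ℂ] LG K) := by
  let Φ := (Wu σ hσ).conjStarAlgEquiv
  exact ⟨
    { toFun := fun x => ⟨Φ (x : BH G), conj_mem_LG σ hσ x.2⟩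
      invFun := fun y => ⟨Φ.symm (y : BH K), conj_symm_mem_LG σ hσ y.2⟩
      left_inv := fun x => Subtype.ext (Φ.symm_apply_apply _)
      right_inv := fun y => Subtype.ext (Φ.apply_symm_apply _)
      map_mul' := fun x y => Subtype.ext (map_mul Φ _ _)
      map_add' := fun x y => Subtype.ext (map_add Φ _ _)
      map_star' := fun x => Subtype.ext (map_star Φ _)
      map_smul' := fun c x => Subtype.ext (map_smul Φ c _) }⟩

/-- the left regular representation, composed with a group isomorphism, is a frame. -/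
theorem frame_lam (e : G ≃* K) : Frame ((lamU (G := K)).comp e.toMonoidHom) where
  mem g := lam_mem_LG _
  tr g hg := by
    classical
    change (lam (e g) (dl 1)) 1 = 0
    rw [lam_dl, mul_one, dl_apply, if_neg]
    intro h
    exact hg (e.map_eq_one_iff.mp h.symm)
  dense ξ ε hε := by
    classical
    have h1 := Metric.tendsto_nhds.mp (hasSum_dl ξ) ε hε
    obtain ⟨s, hs⟩ := h1.exists
    refine ⟨∑ k ∈ s, MonoidAlgebra.single (e.symm k) (ξ k), ?_⟩
    rw [map_sum, sum_apply]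
    rw [dist_eq_norm] at hs
    refine lt_of_eq_of_lt ?_ hs
    congr 2
    refine Finset.sum_congr rfl fun k _ => ?_
    rw [repAlg_single]
    change ξ k • (lam (e (e.symm k)) (dl 1)) = _
    rw [e.apply_symm_apply, lam_dl, mul_one]

end Vale.Agent.P086
end
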