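import Vale.Agent.P086.Bdl.B2
import Vale.Agent.P086.Bdl.B3
import Vale.Agent.P086.FF.St

set_option linter.all false

section

/-!
Conclusion: all free group factors `L(F_n)`, `2 ≤ n ≤ ∞`, are spatially isomorphic.
-/

open scoped InnerProductSpace

namespace Vale.Agent.P086

/-! ### Spatial isomorphisms on the concrete spaces -/

/-- There is a unitary `W : ℓ²(G) → ℓ²(K)`, `W δ₁ = δ₁`, with `W L(G) W* = L(K)`. -/
def SpIso (G K : Type) [Group G] [Group K] : Prop :=
  ∃ W : Ell2 G ≃ₗᵢ[ℂ] Ell2 K, W (dl 1) = dl 1 ∧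
    ∀ x : BH G, x ∈ LG G ↔ W.conjStarAlgEquiv x ∈ LG K

theorem SpIso.symm {G K : Type} [Group G] [Group K] (h : SpIso G K) : SpIso K G := by
  obtain ⟨W, h1, h2⟩ := h
  refine ⟨W.symm, ?_, fun x => ?_⟩
  · rw [← h1, LinearIsometryEquiv.symm_apply_apply]
  · rw [h2]
    have : W.conjStarAlgEquiv (W.symm.conjStarAlgEquiv x) = x := by
      ext1 ξ
      simp only [LinearIsometryEquiv.conjStarAlgEquiv_apply_apply,
        LinearIsometryEquiv.symm_symm, LinearIsometryEquiv.apply_symm_apply]
    rw [this]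

theorem SpIso.trans {G K L : Type} [Group G] [Group K] [Group L] (h : SpIso G K)
    (h' : SpIso K L) : SpIso G L := by
  obtain ⟨W, h1, h2⟩ := h
  obtain ⟨V, h3, h4⟩ := h'
  refine ⟨W.trans V, ?_, fun x => ?_⟩
  · rw [LinearIsometryEquiv.trans_apply, h1, h3]
  · rw [h2, h4]
    have : V.conjStarAlgEquiv (W.conjStarAlgEquiv x) = (W.trans V).conjStarAlgEquiv x := by
      ext1 ξ
      simp only [LinearIsometryEquiv.conjStarAlgEquiv_apply_apply,
        LinearIsometryEquiv.trans_apply, LinearIsometryEquiv.symm_trans]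
    rw [this]

/-- A frame gives a spatial isomorphism. -/
theorem spIso_of_frame {G K : Type} [Group G] [Group K] (σ : G →* unitary (BH K))
    (hσ : Frame σ) : SpIso G K := by
  refine ⟨IsoFrame.Wu σ hσ, ?_, fun x => ⟨IsoFrame.conj_mem_LG σ hσ, fun hx => ?_⟩⟩
  · rw [IsoFrame.Wu_dl, IsoFrame.vec, map_one]
    rfl
  · have h := IsoFrame.conj_symm_mem_LG σ hσ hx
    rwa [StarAlgEquiv.symm_apply_apply] at h

theorem Comb.mono {β : Type} {S T : Set β} {u : β} (h : Comb S u) (hST : S ⊆ T) : Comb T u := by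
  intro ε hε
  obtain ⟨g, n, f, hg, hf, hr, h2, h3⟩ := h ε hε
  refine ⟨g, n, f, fun i => ?_, fun F hF => ?_, hr, h2, h3⟩
  · exact Subgroup.closure_mono (Set.image_mono (Set.sdiff_subset_sdiff_left hST)) (hg i)
  · exact Subgroup.closure_mono (Set.image_mono hST) (hf F hF)

theorem countable_freeGroup {α : Type} [Countable α] : Countable (FreeGroup α) := by
  have : Countable (List (α × Bool)) := inferInstance
  exact Function.Surjective.countable (f := FreeGroup.mk) Quot.mk_surjective

/-- Adding finitely or countably many generators to a free group of rank at least two does not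
change the group von Neumann algebra. -/
theorem spIso_sum {γ κ : Type} [Countable γ] [Countable κ] (h u : γ) (hne : h ≠ u) :
    SpIso (FreeGroup γ) (FreeGroup (γ ⊕ κ)) := by
  have hC : Comb (Set.range (Sum.inl : γ → γ ⊕ κ)) (Sum.inl u) := by
    refine Comb.mono (comb_one (Sum.inl h) (Sum.inl u) fun e => hne (Sum.inl_injective e)) ?_
    rintro b (rfl | rfl)
    · exact ⟨h, rfl⟩
    · exact ⟨u, rfl⟩
  have := countable_freeGroup (α := γ ⊕ κ)
  obtain ⟨σ, hσ⟩ := exists_frame_of (γ := γ) (κ := κ) (K := FreeGroup (γ ⊕ κ))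
    (fun β S u x hu hx hC π hπ ε hε => absorb S u x hu hx hC π hπ ε hε) u hC _
    (frame_lam (MulEquiv.refl (FreeGroup (γ ⊕ κ))))
  exact spIso_of_frame σ hσ

theorem spIso_of_equiv {α β : Type} (e : α ≃ β) : SpIso (FreeGroup α) (FreeGroup β) :=
  spIso_of_frame _ (frame_lam (FreeGroup.freeGroupCongr e))

/-- `L(F_α) ≅ L(F_β)` for all countable index sets with at least two elements. -/
theorem spIso_all (α β : Type) [Countable α] [Countable β] [Nontrivial α] [Nontrivial β] :
    SpIso (FreeGroup α) (FreeGroup β) := by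
  obtain ⟨a, b, hab⟩ := exists_pair_ne α
  obtain ⟨a', b', hab'⟩ := exists_pair_ne β
  exact ((spIso_sum (κ := β) a b hab).trans (spIso_of_equiv (Equiv.sumComm α β))).trans
    (spIso_sum (κ := α) a' b' hab').symm

/-! ### Translation to an abstract Hilbert space with an orthonormal basis indexed by `G` -/

namespace FF

section link

variable {G : Type} [Group G] {E : Type} [NormedAddCommGroup E] [InnerProductSpace ℂ E]
  [CompleteSpace E]

/-- Conjugation by the canonical unitary `E → ℓ²(G)`. -/
noncomputable def Ph (e : HilbertBasis G ℂ E) : (E →L[ℂ] E) ≃⋆ₐ[ℂ] (Ell2 G →L[ℂ] Ell2 G) :=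
  e.repr.conjStarAlgEquiv

theorem Ph_injective (e : HilbertBasis G ℂ E) : Function.Injective (Ph e) :=
  EquivLike.injective (Ph e)

omit [Group G] [CompleteSpace E] in
theorem repr_basis (e : HilbertBasis G ℂ E) (g : G) : e.repr (e g) = dl g := by
  classical
  rw [e.repr_self, dl]

theorem Ph_apply (e : HilbertBasis G ℂ E) (x : E →L[ℂ] E) (ξ : E) :
    Ph e x (e.repr ξ) = e.repr (x ξ) := by
  rw [Ph, LinearIsometryEquiv.conjStarAlgEquiv_apply_apply, LinearIsometryEquiv.symm_apply_apply]

theorem isLam_iff (e : HilbertBasis G ℂ E) (g : G) (x : E →L[ℂ] E) :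
    IsLam e g x ↔ Ph e x = lam g := by
  constructor
  · intro h
    refine IsoFrame.op_ext fun k => ?_
    rw [← repr_basis e, Ph_apply, h k, repr_basis, repr_basis, lam_dl]
  · intro h k
    apply e.repr.injective
    rw [← Ph_apply, h, repr_basis, lam_dl, repr_basis]

theorem mem_comm_iff (e : HilbertBasis G ℂ E) (y : E →L[ℂ] E) :
    (∀ g l, IsLam e g l → l * y = y * l) ↔
      Ph e y ∈ StarSubalgebra.centralizer ℂ (Set.range (lam (G := G))) := by
  rw [StarSubalgebra.mem_centralizer_iff]
  have key : (∀ g l, IsLam e g l → l * y = y * l) ↔ ∀ g, lam g * Ph e y = Ph e y * lam g := by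
    constructor
    · intro h g
      have h1 := h g ((Ph e).symm (lam g)) (by
        rw [isLam_iff, StarAlgEquiv.apply_symm_apply])
      have h2 := congrArg (Ph e) h1
      rwa [map_mul, map_mul, StarAlgEquiv.apply_symm_apply] at h2
    · intro h g l hl
      rw [isLam_iff] at hl
      apply Ph_injective e
      rw [map_mul, map_mul, hl]
      exact h g
  rw [key]
  constructor
  · rintro h _ ⟨g, rfl⟩
    rw [star_lam]
    exact ⟨h g, h g⁻¹⟩
  · intro h g
    exact (h (lam g) ⟨g, rfl⟩).1

theorem mem_GroupVN_iff (e : HilbertBasis G ℂ E) (x : E →L[ℂ] E) :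
    x ∈ GroupVN e ↔ Ph e x ∈ LG G := by
  have h0 : x ∈ GroupVN e ↔
      ∀ y, (∀ g l, IsLam e g l → l * y = y * l) → x * y = y * x := Iff.rfl
  rw [h0, LG, vNA, StarSubalgebra.mem_centralizer_iff]
  constructor
  · intro h T hT
    have hT' : T ∈ StarSubalgebra.centralizer ℂ (Set.range (lam (G := G))) := hT
    have key : ∀ S ∈ StarSubalgebra.centralizer ℂ (Set.range (lam (G := G))),
        S * Ph e x = Ph e x * S := by
      intro S hS
      have h1 := h ((Ph e).symm S) (by
        rw [mem_comm_iff, StarAlgEquiv.apply_symm_apply]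
        exact hS)
      have h2 := congrArg (Ph e) h1
      rw [map_mul, map_mul, StarAlgEquiv.apply_symm_apply] at h2
      exact h2.symm
    exact ⟨key T hT', key (star T) (star_mem hT')⟩
  · intro h y hy
    rw [mem_comm_iff] at hy
    apply Ph_injective e
    rw [map_mul, map_mul]
    exact ((h (Ph e y) hy).1).symm

end link

/-- A spatial isomorphism on the concrete spaces gives one on abstract spaces. -/
theorem exists_unitary_of_spIso {G K : Type} [Group G] [Group K] (h : SpIso G K)
    {E F : Type} [NormedAddCommGroup E] [InnerProductSpace ℂ E] [CompleteSpace E]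
    [NormedAddCommGroup F] [InnerProductSpace ℂ F] [CompleteSpace F]
    (e : HilbertBasis G ℂ E) (f : HilbertBasis K ℂ F) :
    ∃ U : E ≃ₗᵢ[ℂ] F, U (e 1) = f 1 ∧
      ∀ x : E →L[ℂ] E, x ∈ GroupVN e ↔ U.conjStarAlgEquiv x ∈ GroupVN f := by
  obtain ⟨W, h1, h2⟩ := h
  refine ⟨(e.repr.trans W).trans f.repr.symm, ?_, fun x => ?_⟩
  · rw [LinearIsometryEquiv.trans_apply, LinearIsometryEquiv.trans_apply, repr_basis, h1,
      ← repr_basis f, LinearIsometryEquiv.symm_apply_apply]
  · rw [mem_GroupVN_iff, mem_GroupVN_iff, h2]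
    have : Ph f (((e.repr.trans W).trans f.repr.symm).conjStarAlgEquiv x) =
        W.conjStarAlgEquiv (Ph e x) := by
      ext1 ξ
      simp only [Ph, LinearIsometryEquiv.conjStarAlgEquiv_apply_apply,
        LinearIsometryEquiv.trans_apply, LinearIsometryEquiv.symm_trans,
        LinearIsometryEquiv.symm_symm, LinearIsometryEquiv.apply_symm_apply]
    rw [this]

end FF

end Vale.Agent.P086
end
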